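import Claimed.Agent.R286.Brg.Defs
import Claimed.Agent.R286.Brg.Refine

/-!
# Row 286 (S0533), EXIT `ClkC0` : REFINEMENT OF A CHAIN (the engine of the bridge)      typed by helper262;   OWNER of the proof: 150 + 42 (under 118);   ADV: 226
TEX[PE:prop:found-limits]

`ps ⊆ ps'` valid chains, `ps` contains the forks.  Then the numbers of the two finite hierarchies differ by at most (constant) x (modulus of `ps`).  MESH FREE, uniform in tree, test, source.
PROOF (finite level only).  Between two consecutive points `p⁻ < p` of `ps` the new points are EARLY (`mass < p.u`) or of the SAME MASS as `p`.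
 (1) merge the same-mass levels into the level of `p` (`tr_nu_merge`, `gh_F_merge`: no fork lies strictly between `p⁻` and `p`);
 (2) on the remaining levels (points of `ps` + early points) the chain `ps` = the same levels with EMPTY early levels (`tr_nu_insert_empty`);
 (3) the two families of cumulative clocks differ at an early point `r` by `v(r) - v(p⁻) ∈ [0, v(p.u -) - v(p⁻)] ⊆ [0, ghOsc]`, not at all at the points of `ps`, after the last point by `≤ ghOsc` (case `[]`);
     so the derivative `V` of the affine interpolation is a positive semidefinite kernel with diagonal `≤ M`, `|V| ≤ M`;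
 (4) `tr_taylor` with `j = 1` (constant `2 a² q (q+1)`) + mean value theorem;   pressure: `tr_pressure_deriv`, the two terms lie in `[0, a M / 2]`.
-/

set_option autoImplicit false

namespace Claimed.Agent.R286

theorem exit_clkC0 {S ι : Type} [Fintype S] [Fintype ι] {B : GhB S} (hB : B.Ok) (Φ : S → ι → ℝ) {v : ι → ℝ → ℝ}
    (hv : GhClk B.a v) {ps ps' : List GhPos} (hps' : GhChOk B.a ps') (hsub : ps.Sublist ps') {M : ℝ}
    (hM : GhOscLe B.a Φ v ps M) (z : S → ℝ) :
    |ghF B (ghChain Φ B.a v 0 ps') z - ghF B (ghChain Φ B.a v 0 ps) z| ≤ B.a * M ∧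
    ∀ (q : ℕ) (τ : ℕ → ℕ → WithTop GhPos), GhIsRT B.a q τ → GhHasForks q τ ps →
      ∀ (P : (Fin q → S) → ℝ) (K : ℝ), (∀ σ, |P σ| ≤ K) →
        |ghCNuF B Φ v z q τ P ps' - ghCNuF B Φ v z q τ P ps| ≤ 2 * B.a ^ 2 * q * (q + 1) * M * K :=
  gh_br_clkC0 hB Φ hv hps' hsub hM z

end Claimed.Agent.R286
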