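import Claimed.Agent.R286.Brg.Refine
import Claimed.Agent.R286.Brg.Defs
import Claimed.Agent.R286.Brg.Thin

/-!
# Row 286 (S0533), EXIT `ClkC2` : FORK MODULUS on one chain      typed and PROVED by helper262 (prefix `gh_fk_`; 0 own sorry; debt = the Tr contracts of 150 used by the engine of 148)
TEX[PE:prop:found-limits]

Finite level.  `x` a point of the chain, `x ≤ x'`.  Two real trees which agree at each pair of labels or both fork in `[x, x']` (forks may MERGE or SEPARATE): `gh_fk_gen`: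
the tree numbers differ by at most `4 a² q (q+1) M K`, `M` = growth of the diagonal of the cumulative kernel between `x` and `x'`.  NO term in the masses.
`exit_clkC2` = the case of the tree in which the forks at `x` are moved to `x'`.
PROOF.  Freeze the values on `(x, x']` (`ghFkV`): the engine of 148 (`gh_br_nu_engine`) costs `2 a² q (q+1) M K` for each of the two trees;
for the frozen values the positions of `(x, x']` are empty and may be dropped (thinning of 55, `gh_th_nu`, any tree); on the thinned chain the two trees have the same table.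
-/

set_option autoImplicit false
set_option linter.unusedSectionVars false

namespace Claimed.Agent.R286

/-- the moved tree is a real tree -/
theorem gh_fk_move_rt {a : ℝ} {q : ℕ} {τ : ℕ → ℕ → WithTop GhPos} (hτ : GhIsRT a q τ) {x x' : GhPos} (hx' : x'.Ok a)
    (hxx : x ≤ x') (hno : ∀ y w, y < q → w < q → ¬ ((x : WithTop GhPos) < τ y w ∧ τ y w ≤ (x' : WithTop GhPos))) :
    GhIsRT a q (ghRMove τ x x') := by
  have hmono : ∀ y w y' w', y < q → w < q → y' < q → w' < q → τ y w ≤ τ y' w' →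
      ghRMove τ x x' y w ≤ ghRMove τ x x' y' w' := by
    intro y w y' w' hy hw hy' hw' h
    unfold ghRMove
    by_cases h1 : τ y w = (x : WithTop GhPos) <;> by_cases h2 : τ y' w' = (x : WithTop GhPos)
    · simp [h1, h2]
    · simp only [h1, h2, if_true, if_false]
      have h3 : (x : WithTop GhPos) < τ y' w' := lt_of_le_of_ne (h1 ▸ h) (Ne.symm h2)
      exact (not_le.1 fun h4 => hno y' w' hy' hw' ⟨h3, h4⟩).le
    · simp only [h1, h2, if_true, if_false]
      exact (h2 ▸ h).trans (WithTop.coe_le_coe.2 hxx)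
    · simpa [h1, h2] using h
  refine ⟨fun y hy => ?_, fun y w hy hw => ?_, fun y w u hy hw hu => ?_, fun y w hy hw p hp => ?_⟩
  · unfold ghRMove
    rw [hτ.diag y hy]
    simp
  · unfold ghRMove
    rw [hτ.symm y w hy hw]
  · have h := hτ.ultra y w u hy hw hu
    rcases le_total (τ y w) (τ w u) with h1 | h1
    · rw [min_eq_left h1] at h
      exact (min_le_left _ _).trans (hmono y w y u hy hw hy hu h)
    · rw [min_eq_right h1] at h
      exact (min_le_right _ _).trans (hmono w u y u hw hu hy hu h)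
  · unfold ghRMove at hp
    by_cases h1 : τ y w = (x : WithTop GhPos)
    · simp only [h1, if_true] at hp
      rw [← WithTop.coe_injective hp]
      exact hx'
    · simp only [h1, if_false] at hp
      exact hτ.ok y w hy hw p hp

section
variable {ι : Type}

open Classical in
/-- the values frozen on `(x, x']` -/
noncomputable def ghFkV (V : GhPos → ι → ℝ) (x x' : GhPos) : GhPos → ι → ℝ :=
  fun r => if x < r ∧ r ≤ x' then V x else V r

theorem gh_fk_eqns_cite : True := by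
  have := @ghFkV.eq_1
  trivial

theorem gh_fk_val {a : ℝ} {V : GhPos → ι → ℝ} (hV : GhBrVal a V) {x x' : GhPos} (hx : x.Ok a) : GhBrVal a (ghFkV V x x') where
  nonneg := fun p hp i => by
    unfold ghFkV
    split_ifs
    · exact hV.nonneg x hx i
    · exact hV.nonneg p hp i
  mono := fun p p' hp hp' h i => by
    unfold ghFkV
    by_cases h1 : x < p ∧ p ≤ x' <;> by_cases h2 : x < p' ∧ p' ≤ x'
    · simp [h1, h2]
    · simp only [h1, h2, and_self, if_true, if_false]
      exact hV.mono x p' hx hp' (h1.1.le.trans h) i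
    · simp only [h1, h2, and_self, if_true, if_false]
      refine hV.mono p x hp hx ?_ i
      by_contra h3
      exact h1 ⟨not_le.1 h3, h.trans h2.2⟩
    · simp only [h1, h2, if_false]
      exact hV.mono p p' hp hp' h i

/-- distance between the values and the frozen values -/
theorem gh_fk_dist {a : ℝ} {V : GhPos → ι → ℝ} (hV : GhBrVal a V) {x x' : GhPos} (hx : x.Ok a) (hx' : x'.Ok a) (hxx : x ≤ x')
    {p : GhPos} (hp : p.Ok a) (i : ι) : 0 ≤ V p i - ghFkV V x x' p i ∧ V p i - ghFkV V x x' p i ≤ V x' i - V x i := by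
  unfold ghFkV
  split_ifs with h
  · exact ⟨sub_nonneg.2 (hV.mono x p hx hp h.1.le i), sub_le_sub_right (hV.mono p x' hp hx' h.2 i) _⟩
  · rw [sub_self]
    exact ⟨le_rfl, sub_nonneg.2 (hV.mono x x' hx hx' hxx i)⟩

end

/-- on a chain without points in `(x, x']` all the positions of `[x, x']` have the same index -/
theorem gh_fk_idx {x x' : GhPos} {ps : List GhPos} (h : ∀ r ∈ ps, ¬ (x < r ∧ r ≤ x')) {o : WithTop GhPos}
    (h1 : (x : WithTop GhPos) ≤ o) (h2 : o ≤ (x' : WithTop GhPos)) : ghIdx ps o = ghIdx ps (x : WithTop GhPos) := by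
  induction o using WithTop.recTopCoe with
  | top => simp at h2
  | coe p =>
    rw [gh_rm_idx_eq, gh_rm_idx_eq]
    simp only [WithTop.coe_ne_top, if_false, WithTop.coe_le_coe] at h1 h2 ⊢
    congr 2
    refine List.filter_congr fun r hr => ?_
    simp only [decide_eq_decide]
    constructor
    · intro h3
      by_contra h4
      exact h r hr ⟨not_le.1 h4, h3.trans h2⟩
    · intro h3
      exact h3.trans h1

/-- **FORK MODULUS, general form (forks may merge or separate)**: `x` a point of the chain, `x ≤ x'`; the two real trees agree at each pair of labels, or both fork in `[x, x']` -/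
theorem gh_fk_gen {S ι : Type} [Fintype S] [Fintype ι] {B : GhB S} (hB : B.Ok) (Φ : S → ι → ℝ) {v : ι → ℝ → ℝ}
    (hv : GhClk B.a v) {ps : List GhPos} (hps : GhChOk B.a ps) (z : S → ℝ) {q : ℕ} {τ τ' : ℕ → ℕ → WithTop GhPos}
    (hτ : GhIsRT B.a q τ) (hτ' : GhIsRT B.a q τ') {x x' : GhPos} (hx : x ∈ ps) (hxo' : x'.Ok B.a) (hxx : x ≤ x')
    (hd : ∀ y w, y < q → w < q → τ y w = τ' y w ∨ ((x : WithTop GhPos) ≤ τ y w ∧ τ y w ≤ (x' : WithTop GhPos) ∧
      (x : WithTop GhPos) ≤ τ' y w ∧ τ' y w ≤ (x' : WithTop GhPos))) {M : ℝ}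
    (hM : ∀ s, ghKer Φ (fun i => ghClkAt B.a v x' i - ghClkAt B.a v x i) s s ≤ M)
    (P : (Fin q → S) → ℝ) {K : ℝ} (hP : ∀ σ, |P σ| ≤ K) :
    |ghCNuF B Φ v z q τ' P ps - ghCNuF B Φ v z q τ P ps| ≤ 4 * B.a ^ 2 * q * (q + 1) * M * K := by
  classical
  have ha : 0 ≤ B.a := hB.pos.le
  have hxo := hps.2 x hx
  set V := ghClkAt B.a v with hVdef
  have hV : GhBrVal B.a V := gh_br_clk_val ha hv
  have hV2 : GhBrVal B.a (ghFkV V x x') := gh_fk_val hV hxo
  have a1 := gh_br_adm_of_val hV hps.1 hps.2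
  have a2 := gh_br_adm_of_val hV2 hps.1 hps.2
  have hM' : ∀ s, ∑ i, (V x' i - V x i) * Φ s i ^ 2 ≤ M := by
    intro s
    refine le_trans (le_of_eq ?_) (hM s)
    unfold ghKer
    exact Finset.sum_congr rfl fun i _ => by ring
  have hM0 : 0 ≤ M := by
    obtain ⟨s⟩ := gh_br_nonempty hB
    refine le_trans (Finset.sum_nonneg fun i _ => ?_) (hM' s)
    exact mul_nonneg (sub_nonneg.2 (hV.mono x x' hxo hxo' hxx i)) (sq_nonneg _)
  have hk : ∀ p ∈ ps, ∀ s t, |ghBrKer Φ (fun i => V p i - ghFkV V x x' p i) s t| ≤ M := fun p hp s t =>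
    gh_br_ker_le Φ (O := fun i => V x' i - V x i) (fun i => (gh_fk_dist hV hxo hxo' hxx (hps.2 p hp) i).1)
      (fun i => (gh_fk_dist hV hxo hxo' hxx (hps.2 p hp) i).2) hM' s t
  have e1 := gh_br_nu_engine hB Φ a2 a1 z hτ P hP hM0 hk
  have e2 := gh_br_nu_engine hB Φ a2 a1 z hτ' P hP hM0 hk
  -- thinning
  have hthin : ∀ τ₀ : ℕ → ℕ → WithTop GhPos, ghBrNu B Φ (ghFkV V x x') z q τ₀ P ps
      = ghNuV B Φ (ghFkV V x x') z q τ₀ P (ps.filter fun r => decide (r ∈ ps ∧ ¬ (x < r ∧ r ≤ x'))) := by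
    intro τ₀
    have h0 : ghBrNu B Φ (ghFkV V x x') z q τ₀ P ps = ghNuV B Φ (ghFkV V x x') z q τ₀ P ps := by
      unfold ghBrNu ghNuV
      rw [gh_br_ch_chV]
    rw [h0]
    refine gh_th_nu hB Φ (ghFkV V x x') z q τ₀ P (fun r => r ∈ ps ∧ ¬ (x < r ∧ r ≤ x')) hps.1
      (fun r hr => (hps.2 r hr).1) (fun k hk => hk.1) (fun r hr i => hV2.nonneg r (hps.2 r hr) i)
      (fun r hr r' hr' h i => hV2.mono r r' (hps.2 r hr) (hps.2 r' hr') h i) ?_
    intro r hr hKr
    have hr2 : x < r ∧ r ≤ x' := by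
      by_contra h
      exact hKr ⟨hr, h⟩
    refine Or.inl (Or.inr ⟨x, ⟨hx, fun h => lt_irrefl _ h.1⟩, hr2.1, ?_⟩)
    unfold ghFkV
    rw [if_pos hr2, if_neg fun h => lt_irrefl _ h.1]
  have e3 : ghBrNu B Φ (ghFkV V x x') z q τ' P ps = ghBrNu B Φ (ghFkV V x x') z q τ P ps := by
    rw [hthin, hthin]
    unfold ghNuV
    congr 1
    funext t
    refine gh_rm_repN_congr q fun a b => ?_
    unfold ghDisc
    have h0 : ∀ r ∈ ps.filter (fun r => decide (r ∈ ps ∧ ¬ (x < r ∧ r ≤ x'))), ¬ (x < r ∧ r ≤ x') :=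
      fun r hr => (of_decide_eq_true (List.mem_filter.1 hr).2).2
    rcases hd a.1 b.1 a.2 b.2 with h | ⟨h1, h2, h3, h4⟩
    · rw [h]
    · rw [gh_fk_idx h0 h1 h2, gh_fk_idx h0 h3 h4]
  have c1 : ∀ τ₀ : ℕ → ℕ → WithTop GhPos, ghCNuF B Φ v z q τ₀ P ps = ghBrNu B Φ V z q τ₀ P ps := by
    intro τ₀
    unfold ghCNuF ghBrNu
    rw [gh_br_ch_chain]
  rw [c1, c1]
  rw [e3] at e2
  have t1 := abs_le.1 e1
  have t2 := abs_le.1 e2
  rw [abs_le]
  constructor <;> nlinarith [t1.1, t1.2, t2.1, t2.2]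

theorem exit_clkC2 {S ι : Type} [Fintype S] [Fintype ι] {B : GhB S} (hB : B.Ok) (Φ : S → ι → ℝ) {v : ι → ℝ → ℝ}
    (hv : GhClk B.a v) {ps : List GhPos} (hps : GhChOk B.a ps) (z : S → ℝ) {q : ℕ} {τ : ℕ → ℕ → WithTop GhPos}
    (hτ : GhIsRT B.a q τ) {x x' : GhPos} (hx : x ∈ ps) (hx' : x' ∈ ps) (hxx : x ≤ x')
    (hno : ∀ y w, y < q → w < q → ¬ ((x : WithTop GhPos) < τ y w ∧ τ y w ≤ (x' : WithTop GhPos))) {M : ℝ}
    (hM : ∀ s, ghKer Φ (fun i => ghClkAt B.a v x' i - ghClkAt B.a v x i) s s ≤ M)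
    (P : (Fin q → S) → ℝ) {K : ℝ} (hP : ∀ σ, |P σ| ≤ K) :
    GhIsRT B.a q (ghRMove τ x x') ∧
    |ghCNuF B Φ v z q (ghRMove τ x x') P ps - ghCNuF B Φ v z q τ P ps| ≤ 4 * B.a ^ 2 * q * (q + 1) * M * K := by
  have hτ' := gh_fk_move_rt hτ (hps.2 x' hx') hxx hno
  refine ⟨hτ', gh_fk_gen hB Φ hv hps z hτ hτ' hx (hps.2 x' hx') hxx (fun y w _ _ => ?_) hM P hP⟩
  unfold ghRMove
  by_cases h1 : τ y w = (x : WithTop GhPos)
  · right
    simp only [h1, if_true]
    exact ⟨le_rfl, WithTop.coe_le_coe.2 hxx, WithTop.coe_le_coe.2 hxx, le_rfl⟩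
  · left
    simp only [h1, if_false]

end Claimed.Agent.R286
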