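import Claimed.Agent.R286.Brg.Pos

/-!
# Row 286 (S0533), EXIT `ClkC4` : finite chains: probability vector, monotonicity in the fork      typed and PROVED by helper262 (Brg/Pos.lean, 0 sorry)
TEX[PE:lem:found-source]

Finite level, any chain.  (a) positivity and normalisation of the tree numbers (`gh_n_nonneg`, `gh_n_const` of Fd/NuApi);
(b) two labels which fork at `p`: `ν[∑_k φ_k(σ⁰) φ_k(σ¹)] = E ∑_k (E[φ_k | prefix p])²` is nondecreasing in `p` (martingale; `tr_nu_cut` + `tr_nu_indep` + Jensen for one transition).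
-/

set_option autoImplicit false

namespace Claimed.Agent.R286

theorem exit_clkC4 {S ι : Type} [Fintype S] [Fintype ι] {B : GhB S} (hB : B.Ok) (Φ : S → ι → ℝ) {v : ι → ℝ → ℝ}
    (hv : GhClk B.a v) {ps : List GhPos} (hps : GhChOk B.a ps) (z : S → ℝ) :
    (∀ (q : ℕ) (τ : ℕ → ℕ → WithTop GhPos) (P : (Fin q → S) → ℝ), (∀ σ, 0 ≤ P σ) → 0 ≤ ghCNuF B Φ v z q τ P ps) ∧
    (∀ (q : ℕ) (τ : ℕ → ℕ → WithTop GhPos) (c : ℝ), ghCNuF B Φ v z q τ (fun _ => c) ps = c) ∧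
    (∀ (q : ℕ) (τ : ℕ → ℕ → WithTop GhPos) (P P' : (Fin q → S) → ℝ) (c : ℝ),
      ghCNuF B Φ v z q τ (fun σ => P σ + c * P' σ) ps = ghCNuF B Φ v z q τ P ps + c * ghCNuF B Φ v z q τ P' ps) ∧
    ∀ {κ : Type} [Fintype κ] (φ : κ → S → ℝ) (p p' : GhPos), p ≤ p' →
      ghCNuF B Φ v z 2 (ghR2 p) (fun σ => ∑ k, φ k (σ 0) * φ k (σ 1)) ps
        ≤ ghCNuF B Φ v z 2 (ghR2 p') (fun σ => ∑ k, φ k (σ 0) * φ k (σ 1)) ps :=
  gh_c4_main hB Φ hv hps z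

end Claimed.Agent.R286
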