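import Claimed.Agent.R286.Brg.Defs
import Claimed.Agent.R286.Brg.PrMain

/-!
# Row 286 (S0533), EXIT `ClkC3` : first line of PE (1) / LL (A1) FOR PATHS, general feature model      typed by helper262;   OWNER of the proof: 150 + 42 (under 118);   ADV: 226
TEX[PE:lem:found-pressure] TEX[PE:prop:found-limits]

Derivative of the root continuation along an affine segment of coordinate clocks:
  `d/dθ F = (a/2) ν[V(a; σ,σ)] - (1/2) ∫_0^a ν_{fork after u}[V(u+; σ⁰,σ¹)] du`,      `V(p; s,t)` = kernel of `v1 - v0` at the position `p`.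
SK: `V = n (Δb R²/2 + Δh R)`; the first term is the derivative of the self correction; the second is `-(n/4) ∫ B Δb - (n/2) ∫ S Δh`  (= `ck_pr_deriv` of Fd/CClk).
PROOF.  On a chain: `tr_pressure_deriv` = `(a/2) ν[V_N(σ,σ)] - (1/2) ∑_j gap_j ν_{cut j}[V_j]`.   Riemann sum -> integral, uniformly in `θ`: `gh_pt_close` (C1) + `gh_pt_fork` (C2) of Brg/Path:
 for `u` in the gap `j`, `|ν_chain,cut j[V_j] - ν_path,fork (u,1)[V(u+)]| ≤ C (modulus of the chain)`.   Uniform convergence of the derivatives + convergence of the values ⟹ derivative of the limit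
 (integrated form: `F_θ - F_0 = ∫_0^θ`, pass to the limit along the net by the uniform bound, then differentiate: the integrand is continuous in `θ` by `gh_pt_lip`).
-/

set_option autoImplicit false

namespace Claimed.Agent.R286

open MeasureTheory

theorem exit_clkC3 {S ι : Type} [Fintype S] [Fintype ι] {B : GhB S} (hB : B.Ok) (Φ : S → ι → ℝ) {v0 v1 : ι → ℝ → ℝ}
    (h0 : GhClk B.a v0) (h1 : GhClk B.a v1) (z : S → ℝ) {θ : ℝ} (hθ : θ ∈ Set.Icc (0 : ℝ) 1) :
    HasDerivWithinAt (fun t => ghCPress B Φ (ghCSeg t v0 v1) z)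
      (B.a / 2 * ghCNu B Φ (ghCSeg θ v0 v1) z 1 (ghR2 (ghPosA B.a))
          (fun σ => ghKer Φ (fun i => ghClkAt B.a v1 (ghPosA B.a) i - ghClkAt B.a v0 (ghPosA B.a) i) (σ 0) (σ 0))
        - 1 / 2 * ∫ u in (0 : ℝ)..B.a, ghCNu B Φ (ghCSeg θ v0 v1) z 2 (ghR2 (ghPosA u))
          (fun σ => ghKer Φ (fun i => ghClkAt B.a v1 (ghPosA u) i - ghClkAt B.a v0 (ghPosA u) i) (σ 0) (σ 1)))
      (Set.Icc 0 1) θ := by
  have h := brg_press_deriv hB Φ h0 h1 z hθ
  have e : ∀ (v : ι → ℝ → ℝ) (P : (Fin 1 → S) → ℝ),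
      ghCNu B Φ v z 1 (ghR2 (ghPosA B.a)) P = ghCNu B Φ v z 1 (fun _ _ => ⊤) P := by
    intro v P
    unfold ghCNu
    congr 1
    funext ps
    unfold ghCNuF
    congr 1
    funext t a
    exact Subsingleton.elim _ _
  rw [e]
  exact h

end Claimed.Agent.R286
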