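-- KEEP
import Claimed.Agent.R286.Brg.Defs
import Claimed.Agent.R286.Fd.ClkDefs
import Claimed.Agent.R286.Brg.LipPf
import Claimed.Agent.R286.Brg.Path
import Claimed.Agent.R286.Brg.Stat
import Claimed.Agent.R286.Fd.ObsU

/-!
# Row 286 (S0533), EXIT `ClkLip` : TWO CLOCKS ON ONE CHAIN      typed by helper262;   OWNER of the proof: 150 + 42 (under 118);   ADV: 226
TEX[PE:lem:found-taylor]

Finite level: the numbers of one chain are Lipschitz in the sup distance of the cumulative KERNELS at the points of the chain (constant free of the chain).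
PROOF: affine interpolation of the increments on the common chain, `tr_taylor` (`j = 1`), `tr_pressure_deriv`, mean value theorem.
-/

set_option autoImplicit false

namespace Claimed.Agent.R286

theorem exit_clkLip {S ι : Type} [Fintype S] [Fintype ι] {B : GhB S} (hB : B.Ok) (Φ : S → ι → ℝ) {v v' : ι → ℝ → ℝ}
    (hv : GhClk B.a v) (hv' : GhClk B.a v') {ps : List GhPos} (hps : GhChOk B.a ps) {M : ℝ} (hM0 : 0 ≤ M)
    (hM : ∀ p ∈ ps, ∀ s t, |ghKer Φ (fun i => ghClkAt B.a v' p i - ghClkAt B.a v p i) s t| ≤ M) (z : S → ℝ) :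
    |ghF B (ghChain Φ B.a v' 0 ps) z - ghF B (ghChain Φ B.a v 0 ps) z| ≤ B.a * M ∧
    ∀ (q : ℕ) (τ : ℕ → ℕ → WithTop GhPos), GhIsRT B.a q τ →
      ∀ (P : (Fin q → S) → ℝ) (K : ℝ), (∀ σ, |P σ| ≤ K) →
        |ghCNuF B Φ v' z q τ P ps - ghCNuF B Φ v z q τ P ps| ≤ 2 * B.a ^ 2 * q * (q + 1) * M * K :=
  brg_l_main hB Φ hv hv' hps hM0 hM z

/-! ## PART 2 (helper42): restored by helper99 (instance marshal) 02:50Z: the file of 42 (commit abdcd3abf2) had been overwritten by the file of 262 of the same name.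
Both contents now live here; no statement changed. -/

/-
Row 286 (S0533), EXIT `ClkLip`      OWNER helper42 + helper150 (unit BRIDGE, under helper118);   ADV helper226, helper262
source: PE foundations.tex l.530-572 (Lemma 2.9, first order), l.744-862 (Prop 2.14);  = (G5) of 142, C2 of 262, (I3) of 255.

Continuity of the numbers at fixed `n`: Lipschitz in the sup norm of the clocks (THE ENGINE of all limits: formula (2) + total variation of two signed rows),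
and modulus in the positions of the forks.
-/

section part42

open MeasureTheory Filter Topology Set

variable {n : ℕ} {a : ℝ}

/-! ### THE SK DICTIONARY of the bridge (helper42; prefix `brg_n_`; 0 sorry): `brg_n_clk` (`CkAdm → GhClk`), `brg_n_ker` (kernel of the SK features `= n (db R²/2 + dh R)`),
`brg_n_ker_abs`, `brg_n_ker_diag`, `brg_n_clkAt_sub`, `brg_n_at_sub` (values at a position are `1`-Lipschitz in the sup norm), `brg_n_nu_lip` -/

theorem brg_n_clk (n : ℕ) {b h : ℝ → ℝ} (hbh : CkAdm a b h) : GhClk a (skClk n b h) := by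
  intro i
  cases i with
  | inl p => exact hbh.1
  | inr i => exact hbh.2

theorem brg_n_sp_abs (σ : SkCfg n) (i : Fin n) : |skSp σ i| = 1 := by
  unfold skSp Claims.C0461.pmSpin
  split_ifs <;> simp

theorem brg_n_ov_abs (σ τ : SkCfg n) : |skOv σ τ| ≤ 1 := by
  unfold skOv
  rcases Nat.eq_zero_or_pos n with rfl | hn
  · simp
  have hn' : (0:ℝ) < n := by exact_mod_cast hn
  rw [abs_div, abs_of_pos hn', div_le_one hn']
  calc |∑ i, skSp σ i * skSp τ i| ≤ ∑ i, |skSp σ i * skSp τ i| := Finset.abs_sum_le_sum_abs _ _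
    _ = ∑ _i : Fin n, (1:ℝ) := by
        refine Finset.sum_congr rfl fun i _ => ?_
        rw [abs_mul, brg_n_sp_abs, brg_n_sp_abs, one_mul]
    _ = n := by simp

theorem brg_n_ov_self (hn : 0 < n) (σ : SkCfg n) : skOv σ σ = 1 := by
  have hn' : (0:ℝ) < n := by exact_mod_cast hn
  unfold skOv
  have : ∀ i, skSp σ i * skSp σ i = 1 := fun i => by
    have := brg_n_sp_abs σ i
    rw [← abs_mul_abs_self, this, one_mul]
  simp only [this]
  simp [hn'.ne']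

/-- the kernel of the SK features -/
theorem brg_n_ker (hn : 0 < n) (db dh : ℝ) (σ τ : SkCfg n) :
    ghKer (skPhi n) (Sum.elim (fun _ => db) fun _ => dh) σ τ = n * (db * skOv σ τ ^ 2 / 2 + dh * skOv σ τ) := by
  have hn' : (0:ℝ) < n := by exact_mod_cast hn
  unfold ghKer
  rw [Fintype.sum_sum_type]
  simp only [Sum.elim_inl, Sum.elim_inr]
  have h1 : ∑ p : Fin n × Fin n, db * skPhi n σ (Sum.inl p) * skPhi n τ (Sum.inl p) = db * (n * skOv σ τ ^ 2 / 2) := by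
    rw [← obu_feat_b hn σ τ, Finset.mul_sum]
    exact Finset.sum_congr rfl fun p _ => by simp only [obPb]; ring
  have h2 : ∑ i : Fin n, dh * skPhi n σ (Sum.inr i) * skPhi n τ (Sum.inr i) = dh * (n * skOv σ τ) := by
    have : (n:ℝ) * skOv σ τ = ∑ i, skSp σ i * skSp τ i := by
      unfold skOv; field_simp
    rw [this, Finset.mul_sum]
    exact Finset.sum_congr rfl fun i _ => by simp only [skPhi, Sum.elim_inr]; ring
  rw [h1, h2]
  ring

theorem brg_n_ker_abs (hn : 0 < n) {db dh δb δh : ℝ} (hb : |db| ≤ δb) (hh : |dh| ≤ δh) (σ τ : SkCfg n) :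
    |ghKer (skPhi n) (Sum.elim (fun _ => db) fun _ => dh) σ τ| ≤ n * (δb / 2 + δh) := by
  have hn' : (0:ℝ) < n := by exact_mod_cast hn
  rw [brg_n_ker hn, abs_mul, abs_of_pos hn']
  refine mul_le_mul_of_nonneg_left ?_ hn'.le
  have hR := brg_n_ov_abs σ τ
  have hR2 : |skOv σ τ ^ 2| ≤ 1 := by
    rw [abs_pow]; exact pow_le_one₀ (abs_nonneg _) hR
  have h1 : |db * skOv σ τ ^ 2 / 2| ≤ δb / 2 := by
    rw [abs_div, abs_mul, abs_of_pos (by norm_num : (0:ℝ) < 2)]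
    have : |db| * |skOv σ τ ^ 2| ≤ δb * 1 := mul_le_mul hb hR2 (abs_nonneg _) ((abs_nonneg _).trans hb)
    linarith
  have h2 : |dh * skOv σ τ| ≤ δh := by
    rw [abs_mul]
    have : |dh| * |skOv σ τ| ≤ δh * 1 := mul_le_mul hh hR (abs_nonneg _) ((abs_nonneg _).trans hh)
    linarith
  exact (abs_add_le _ _).trans (add_le_add h1 h2)

theorem brg_n_ker_diag (hn : 0 < n) (db dh : ℝ) (σ : SkCfg n) :
    ghKer (skPhi n) (Sum.elim (fun _ => db) fun _ => dh) σ σ = n * (db / 2 + dh) := by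
  rw [brg_n_ker hn, brg_n_ov_self hn]
  ring

/-- difference of the coordinate clocks of two SK families at a position -/
theorem brg_n_clkAt_sub (n : ℕ) (a : ℝ) (b h b' h' : ℝ → ℝ) (p p' : GhPos) :
    (fun i => ghClkAt a (skClk n b h) p i - ghClkAt a (skClk n b' h') p' i)
      = Sum.elim (fun _ => ghAt a b p - ghAt a b' p') fun _ => ghAt a h p - ghAt a h' p' := by
  funext i
  cases i <;> rfl

theorem brg_n_clamp_sub (ha : 0 ≤ a) {c c' : ℝ → ℝ} {δ : ℝ} (h : ∀ u ∈ Icc 0 a, |c u - c' u| ≤ δ) (u : ℝ) :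
    |ghClamp a c u - ghClamp a c' u| ≤ δ := by
  have hδ : 0 ≤ δ := (abs_nonneg _).trans (h 0 ⟨le_rfl, ha⟩)
  unfold ghClamp
  split_ifs with hu
  · simpa using hδ
  · exact h _ ⟨le_min (not_lt.1 hu) ha, min_le_right _ _⟩

/-- the values at a position are `1`-Lipschitz in the sup norm on `[0,a]` -/
theorem brg_n_at_sub (ha : 0 ≤ a) {c c' : ℝ → ℝ} (hc : GhClk1 a c) (hc' : GhClk1 a c') {δ : ℝ}
    (h : ∀ u ∈ Icc 0 a, |c u - c' u| ≤ δ) {p : GhPos} (hp : p.Ok a) : |ghAt a c p - ghAt a c' p| ≤ δ := by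
  have m1 := gh_os_clamp_mono ha hc
  have m2 := gh_os_clamp_mono ha hc'
  have hl : |Function.leftLim (ghClamp a c) p.u - Function.leftLim (ghClamp a c') p.u| ≤ δ := by
    have t := ((m1.tendsto_leftLim p.u).sub (m2.tendsto_leftLim p.u)).abs
    exact le_of_tendsto t (Eventually.of_forall fun u => brg_n_clamp_sub ha h u)
  have hr : |Function.rightLim (ghClamp a c) p.u - Function.rightLim (ghClamp a c') p.u| ≤ δ := by
    have t := ((m1.tendsto_rightLim p.u).sub (m2.tendsto_rightLim p.u)).abs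
    exact le_of_tendsto t (Eventually.of_forall fun u => brg_n_clamp_sub ha h u)
  unfold ghAt
  obtain ⟨-, -, l0, l1⟩ := hp
  set L := Function.leftLim (ghClamp a c) p.u
  set L' := Function.leftLim (ghClamp a c') p.u
  set R := Function.rightLim (ghClamp a c) p.u
  set R' := Function.rightLim (ghClamp a c') p.u
  have e : L + p.lam * (R - L) - (L' + p.lam * (R' - L')) = (1 - p.lam) * (L - L') + p.lam * (R - R') := by ring
  rw [e]
  have h1 : |(1 - p.lam) * (L - L')| ≤ (1 - p.lam) * δ := by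
    rw [abs_mul, abs_of_nonneg (by linarith : 0 ≤ 1 - p.lam)]
    exact mul_le_mul_of_nonneg_left hl (by linarith)
  have h2 : |p.lam * (R - R')| ≤ p.lam * δ := by
    rw [abs_mul, abs_of_nonneg l0]
    exact mul_le_mul_of_nonneg_left hr l0
  calc |(1 - p.lam) * (L - L') + p.lam * (R - R')| ≤ (1 - p.lam) * δ + p.lam * δ :=
        (abs_add_le _ _).trans (add_le_add h1 h2)
    _ = δ := by ring

/-- = `exit_clk_nu_lip` -/
theorem brg_n_nu_lip (hn : 0 < n) (ha : 0 < a) {b h b' h' : ℝ → ℝ} (h1 : CkAdm a b h) (h2 : CkAdm a b' h') (q : ℕ)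
    (τ : ℕ → ℕ → WithTop GhPos) (hτ : GhIsRT a q τ) (P : (Fin q → SkCfg n) → ℝ) (K δb δh : ℝ) (hP : ∀ σ, |P σ| ≤ K)
    (hb : ∀ u ∈ Icc 0 a, |b u - b' u| ≤ δb) (hh : ∀ u ∈ Icc 0 a, |h u - h' u| ≤ δh) :
    |skCNu n a b h q τ P - skCNu n a b' h' q τ P| ≤ 2 * q * (q + 1) * a ^ 2 * n * (δb / 2 + δh) * K := by
  have hB := obu_base_ok n ha
  have hδb : 0 ≤ δb := (abs_nonneg _).trans (hb 0 ⟨le_rfl, ha.le⟩)
  have hδh : 0 ≤ δh := (abs_nonneg _).trans (hh 0 ⟨le_rfl, ha.le⟩)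
  have hM0 : (0:ℝ) ≤ n * (δb / 2 + δh) := by positivity
  rw [sk_c_nu_eq, sk_c_nu_eq]
  have key := gh_pt_lip_nu (B := skBase n a) hB (skPhi n) (v := skClk n b' h') (v' := skClk n b h)
    (brg_n_clk n h2) (brg_n_clk n h1) hM0 (fun p hp s t => by
      have ea : (skBase n a).a = a := rfl
      rw [ea, brg_n_clkAt_sub]
      rw [ea] at hp
      exact brg_n_ker_abs hn (brg_n_at_sub ha.le h1.1 h2.1 hb hp) (brg_n_at_sub ha.le h1.2 h2.2 hh hp) s t)
    0 (q := q) (τ := τ) hτ P hP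
  have ea : (skBase n a).a = a := rfl
  rw [ea] at key
  refine key.trans (le_of_eq ?_)
  ring

/-- (G5.a) TEX[PE:prop:found-limits] TEX[PE:lem:found-taylor] tree numbers are Lipschitz in the sup norm of the clocks, constant `2 q (q+1) a² n` -/
theorem exit_clk_nu_lip (hn : 0 < n) (ha : 0 < a) {b h b' h' : ℝ → ℝ} (h1 : CkAdm a b h) (h2 : CkAdm a b' h') (q : ℕ)
    (τ : ℕ → ℕ → WithTop GhPos) (hτ : GhIsRT a q τ) (P : (Fin q → SkCfg n) → ℝ) (K δb δh : ℝ) (hP : ∀ σ, |P σ| ≤ K)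
    (hb : ∀ u ∈ Icc 0 a, |b u - b' u| ≤ δb) (hh : ∀ u ∈ Icc 0 a, |h u - h' u| ≤ δh) :
    |skCNu n a b h q τ P - skCNu n a b' h' q τ P| ≤ 2 * q * (q + 1) * a ^ 2 * n * (δb / 2 + δh) * K :=
  brg_n_nu_lip hn ha h1 h2 q τ hτ P K δb δh hP hb hh

/-- the same on ONE chain -/
theorem brg_n_nuF_lip (hn : 0 < n) (ha : 0 < a) {b h b' h' : ℝ → ℝ} (h1 : CkAdm a b h) (h2 : CkAdm a b' h') {ps : List GhPos}
    (hps : GhChOk a ps) (q : ℕ)
    (τ : ℕ → ℕ → WithTop GhPos) (hτ : GhIsRT a q τ) (P : (Fin q → SkCfg n) → ℝ) (K δb δh : ℝ) (hP : ∀ σ, |P σ| ≤ K)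
    (hb : ∀ u ∈ Icc 0 a, |b u - b' u| ≤ δb) (hh : ∀ u ∈ Icc 0 a, |h u - h' u| ≤ δh) :
    |ckNuF n a b h q τ P ps - ckNuF n a b' h' q τ P ps| ≤ 2 * q * (q + 1) * a ^ 2 * n * (δb / 2 + δh) * K := by
  have hB := obu_base_ok n ha
  have hδb : 0 ≤ δb := (abs_nonneg _).trans (hb 0 ⟨le_rfl, ha.le⟩)
  have hδh : 0 ≤ δh := (abs_nonneg _).trans (hh 0 ⟨le_rfl, ha.le⟩)
  have hM0 : (0:ℝ) ≤ n * (δb / 2 + δh) := by positivity
  rw [brg_s_nuF_eq, brg_s_nuF_eq]
  have key := (brg_l_main (B := skBase n a) hB (skPhi n) (v := skClk n b' h') (v' := skClk n b h)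
    (brg_n_clk n h2) (brg_n_clk n h1) hps hM0 (fun p hp s t => by
      have ea : (skBase n a).a = a := rfl
      rw [ea, brg_n_clkAt_sub]
      exact brg_n_ker_abs hn (brg_n_at_sub ha.le h1.1 h2.1 hb (hps.2 p hp)) (brg_n_at_sub ha.le h1.2 h2.2 hh (hps.2 p hp)) s t)
    0).2 q τ hτ P K hP
  have ea : (skBase n a).a = a := rfl
  rw [ea] at key
  refine key.trans (le_of_eq ?_)
  ring

/-- (G5.b) the same for `E tr H²`, `E tr C²`, `E|X|⁴` (constant depending on `n` and `a` only) -/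
theorem exit_clk_stat_lip (hn : 0 < n) (ha : 0 < a) : ∃ C : ℝ, ∀ (b h b' h' : ℝ → ℝ), CkAdm a b h → CkAdm a b' h' →
    ∀ (p : GhPos), p.Ok a → ∀ δ : ℝ, (∀ u ∈ Icc 0 a, |b u - b' u| ≤ δ) → (∀ u ∈ Icc 0 a, |h u - h' u| ≤ δ) →
      |ckH2 n a b h p - ckH2 n a b' h' p| ≤ C * δ ∧ |ckC2 n a b h p - ckC2 n a b' h' p| ≤ C * δ ∧
        |ckX4 n a b h p - ckX4 n a b' h' p| ≤ C * δ := by
  refine ⟨240 * a ^ 2 * n + 240 * a ^ 4 * n, fun b h b' h' h1 h2 p hp δ hb hh => ?_⟩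
  have hδ0 : 0 ≤ δ := (abs_nonneg _).trans (hb 0 ⟨le_rfl, ha.le⟩)
  have p2 : (0:ℝ) ≤ a ^ 2 * n * δ := by positivity
  have p4 : (0:ℝ) ≤ a ^ 4 * n * δ := by positivity
  have ot := brg_ss_okT_top a
  have op := brg_ss_okT_coe hp
  have k4 : ∀ (T : (Fin 4 → SkCfg n) → ℝ), (∀ σ, |T σ| ≤ 1) → ∀ s s' : WithTop GhPos, BrgOkT a s → BrgOkT a s' →
      |skCNu n a b h 4 (brgR4 p s s') T - skCNu n a b' h' 4 (brgR4 p s s') T| ≤ 60 * a ^ 2 * n * δ := by
    intro T hT s s' os os'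
    refine (brg_n_nu_lip hn ha h1 h2 4 _ (brg_ss_rt hp os os') T 1 δ δ hT hb hh).trans (le_of_eq ?_)
    push_cast; ring
  have c1 : 240 * a ^ 4 * n * δ ≤ (240 * a ^ 2 * n + 240 * a ^ 4 * n) * δ := by linarith only [p2, p4]
  have c2 : 240 * a ^ 2 * n * δ ≤ (240 * a ^ 2 * n + 240 * a ^ 4 * n) * δ := by linarith only [p2, p4]
  have c3 : 60 * a ^ 2 * n * δ ≤ (240 * a ^ 2 * n + 240 * a ^ 4 * n) * δ := by linarith only [p2, p4]
  refine ⟨le_trans ?_ c1, le_trans ?_ c2, le_trans ?_ c3⟩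
  · obtain ⟨T, hTd⟩ : ∃ T : (Fin 4 → SkCfg n) → ℝ, T = fun σ => skOv (σ 0) (σ 2) * skOv (σ 1) (σ 3) := ⟨_, rfl⟩
    have hT : ∀ σ, |T σ| ≤ 1 := fun σ => by rw [hTd]; exact brg_s_ov2_abs _ _ _ _
    have e := (brg_s_H2_lim hn ha h1 hp).2.1
    have e' := (brg_s_H2_lim hn ha h2 hp).2.1
    rw [← hTd] at e e'
    rw [e, e']
    have x := (brg_s_Q4_lim ha h1 hp T hT).1
    have x' := (brg_s_Q4_lim ha h2 hp T hT).1
    have t2 := (Tendsto.sub x x').abs
    refine le_of_tendsto t2 (Eventually.of_forall fun F => ?_)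
    refine (brg_s_Q4_close ha.le b' h' b h T p p F F (ε := 60 * a ^ 2 * n * δ) fun s s' hs hs' => ?_).trans (le_of_eq (by ring))
    refine (brg_n_nuF_lip hn ha h1 h2 (gh_pt_ps_ok a F) 4 _ (brg_ss_rt hp (brg_s_good_ok hs) (brg_s_good_ok hs')) T 1 δ δ hT
      hb hh).trans (le_of_eq ?_)
    push_cast; ring
  · rw [(brg_s_C2_lim hn ha h1 hp).2.1, (brg_s_C2_lim hn ha h2 hp).2.1]
    have hT : ∀ σ : Fin 4 → SkCfg n, |skOv (σ 0) (σ 2) * skOv (σ 1) (σ 3)| ≤ 1 := fun σ => brg_s_ov2_abs _ _ _ _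
    have q1 := abs_le.1 (k4 _ hT ⊤ ⊤ ot ot)
    have q2 := abs_le.1 (k4 _ hT ⊤ p ot op)
    have q3 := abs_le.1 (k4 _ hT p ⊤ op ot)
    have q4 := abs_le.1 (k4 _ hT p p op op)
    rw [abs_le]
    constructor <;> linarith [q1.1, q1.2, q2.1, q2.2, q3.1, q3.2, q4.1, q4.2]
  · rw [(brg_s_X4_lim hn ha h1 hp).2.1, (brg_s_X4_lim hn ha h2 hp).2.1]
    exact k4 _ (fun σ => brg_s_ov2_abs _ _ _ _) p p op op

/-! ### THE GENERAL FORK MODULUS, path and SK forms (helper42; from `brg_fk_multi` of `Brg/LipPf`; 0 sorry).      Two real trees which differ only inside finitely many intervals of positions.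
`brg_n_multi_path` (general model, path) | `brg_n_slideL_F`, `brg_n_slide_F` (SK, one chain) | `exit_clk_slideL`, `exit_clk_slide` (SK, path).      EQUAL FORKS CAN BE SEPARATED. -/

/-- `ckNuF` is the general number of one chain -/
theorem brg_n_nuF_eq (n : ℕ) (a : ℝ) (b h : ℝ → ℝ) (q : ℕ) (τ : ℕ → ℕ → WithTop GhPos) (P : (Fin q → SkCfg n) → ℝ)
    (ps : List GhPos) : ckNuF n a b h q τ P ps = ghCNuF (skBase n a) (skPhi n) (skClk n b h) 0 q τ P ps := by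
  have h0 : (Sum.elim (fun _ => (0:ℝ)) fun _ => (0:ℝ) : SkDr n → ℝ) = 0 := by
    funext i; cases i <;> rfl
  unfold ckNuF ghCNuF ckStp
  have : (skBase n a).a = a := rfl
  rw [sk_c_chain, h0, this]

theorem brg_n_multi_path {S ι : Type} [Fintype S] [Fintype ι] {B : GhB S} (hB : B.Ok) (Φ : S → ι → ℝ) {v : ι → ℝ → ℝ}
    (hv : GhClk B.a v) (z : S → ℝ) {q : ℕ} {τ τ' : ℕ → ℕ → WithTop GhPos}
    (hτ : GhIsRT B.a q τ) (hτ' : GhIsRT B.a q τ') (L : List (GhPos × GhPos))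
    (hL : ∀ e ∈ L, e.1.Ok B.a ∧ e.2.Ok B.a ∧ e.1 ≤ e.2)
    (hd : ∀ y w, y < q → w < q → τ y w = τ' y w ∨ ∃ e ∈ L, (e.1 : WithTop GhPos) ≤ τ y w ∧ τ y w ≤ (e.2 : WithTop GhPos) ∧
      (e.1 : WithTop GhPos) ≤ τ' y w ∧ τ' y w ≤ (e.2 : WithTop GhPos)) {M : ℝ}
    (hM : ∀ s, (L.map fun e => ghKer Φ (fun i => ghClkAt B.a v e.2 i - ghClkAt B.a v e.1 i) s s).sum ≤ M)
    (P : (Fin q → S) → ℝ) {K : ℝ} (hP : ∀ σ, |P σ| ≤ K) :
    |ghCNu B Φ v z q τ' P - ghCNu B Φ v z q τ P| ≤ 4 * B.a ^ 2 * q * (q + 1) * M * K := by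
  classical
  have h2 := (Tendsto.sub (gh_pt_ex_nu hB Φ hv z hτ' P) (gh_pt_ex_nu hB Φ hv z hτ P)).abs
  refine le_of_tendsto h2 ((eventually_ge_atTop (L.map Prod.fst).toFinset).mono fun F hF => ?_)
  refine brg_fk_multi hB Φ hv (gh_pt_ps_ok _ F) z hτ hτ' L (fun e he => ⟨gh_os_ps_mem.2 ⟨hF ?_, (hL e he).1⟩, (hL e he).2⟩)
    hd hM P hP
  exact List.mem_toFinset.2 (List.mem_map.2 ⟨e, he, rfl⟩)

/-- growth of the SK clocks on a list of intervals -/
noncomputable def brgGrow (a : ℝ) (b h : ℝ → ℝ) (L : List (GhPos × GhPos)) : ℝ :=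
  (L.map fun e => (ghAt a b e.2 - ghAt a b e.1) / 2 + (ghAt a h e.2 - ghAt a h e.1)).sum

theorem brg_n_eqns_cite : True := by
  have := @brgGrow.eq_1
  trivial

theorem brg_n_grow_ker (hn : 0 < n) (a : ℝ) (b h : ℝ → ℝ) (L : List (GhPos × GhPos)) (s : SkCfg n) :
    (L.map fun e => ghKer (skPhi n) (fun i => ghClkAt a (skClk n b h) e.2 i - ghClkAt a (skClk n b h) e.1 i) s s).sum
      = n * brgGrow a b h L := by
  unfold brgGrow
  rw [← List.sum_map_mul_left]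
  congr 1
  refine List.map_congr_left fun e _ => ?_
  rw [brg_n_clkAt_sub, brg_n_ker_diag hn]

/-- SK, ONE CHAIN, finitely many intervals (their left ends are positions of the chain) -/
theorem brg_n_slideL_F (hn : 0 < n) (ha : 0 < a) {b h : ℝ → ℝ} (hbh : CkAdm a b h) {ps : List GhPos} (hps : GhChOk a ps) {q : ℕ}
    {τ τ' : ℕ → ℕ → WithTop GhPos} (hτ : GhIsRT a q τ) (hτ' : GhIsRT a q τ') (L : List (GhPos × GhPos))
    (hL : ∀ e ∈ L, e.1 ∈ ps ∧ e.2.Ok a ∧ e.1 ≤ e.2)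
    (hd : ∀ y w, y < q → w < q → τ y w = τ' y w ∨ ∃ e ∈ L, (e.1 : WithTop GhPos) ≤ τ y w ∧ τ y w ≤ (e.2 : WithTop GhPos) ∧
      (e.1 : WithTop GhPos) ≤ τ' y w ∧ τ' y w ≤ (e.2 : WithTop GhPos))
    (P : (Fin q → SkCfg n) → ℝ) {K : ℝ} (hP : ∀ σ, |P σ| ≤ K) :
    |ckNuF n a b h q τ' P ps - ckNuF n a b h q τ P ps| ≤ 4 * q * (q + 1) * a ^ 2 * n * brgGrow a b h L * K := by
  rw [brg_n_nuF_eq, brg_n_nuF_eq]
  have key := brg_fk_multi (B := skBase n a) (obu_base_ok n ha) (skPhi n) (brg_n_clk n hbh) hps 0 hτ hτ' L hL hd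
    (M := n * brgGrow a b h L) (fun s => (brg_n_grow_ker hn a b h L s).le) P hP
  have ea : (skBase n a).a = a := rfl
  rw [ea] at key
  refine key.trans (le_of_eq ?_)
  ring

/-- (G5.c') SK, PATH, finitely many intervals -/
theorem exit_clk_slideL (hn : 0 < n) (ha : 0 < a) {b h : ℝ → ℝ} (hbh : CkAdm a b h) {q : ℕ}
    {τ τ' : ℕ → ℕ → WithTop GhPos} (hτ : GhIsRT a q τ) (hτ' : GhIsRT a q τ') (L : List (GhPos × GhPos))
    (hL : ∀ e ∈ L, e.1.Ok a ∧ e.2.Ok a ∧ e.1 ≤ e.2)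
    (hd : ∀ y w, y < q → w < q → τ y w = τ' y w ∨ ∃ e ∈ L, (e.1 : WithTop GhPos) ≤ τ y w ∧ τ y w ≤ (e.2 : WithTop GhPos) ∧
      (e.1 : WithTop GhPos) ≤ τ' y w ∧ τ' y w ≤ (e.2 : WithTop GhPos))
    (P : (Fin q → SkCfg n) → ℝ) {K : ℝ} (hP : ∀ σ, |P σ| ≤ K) :
    |skCNu n a b h q τ' P - skCNu n a b h q τ P| ≤ 4 * q * (q + 1) * a ^ 2 * n * brgGrow a b h L * K := by
  rw [sk_c_nu_eq, sk_c_nu_eq]
  have key := brg_n_multi_path (B := skBase n a) (obu_base_ok n ha) (skPhi n) (brg_n_clk n hbh) 0 hτ hτ' L hL hd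
    (M := n * brgGrow a b h L) (fun s => (brg_n_grow_ker hn a b h L s).le) P hP
  have ea : (skBase n a).a = a := rfl
  rw [ea] at key
  refine key.trans (le_of_eq ?_)
  ring

theorem brg_n_grow_one (a : ℝ) (b h : ℝ → ℝ) (x x' : GhPos) :
    brgGrow a b h [(x, x')] = (ghAt a b x' - ghAt a b x) / 2 + (ghAt a h x' - ghAt a h x) := by
  simp [brgGrow]

/-- SK, ONE CHAIN, one interval `[x, x']`, `x` in the chain: at each pair of labels the trees agree or both forks lie in `[x, x']` -/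
theorem brg_n_slide_F (hn : 0 < n) (ha : 0 < a) {b h : ℝ → ℝ} (hbh : CkAdm a b h) {ps : List GhPos} (hps : GhChOk a ps) {q : ℕ}
    {τ τ' : ℕ → ℕ → WithTop GhPos} (hτ : GhIsRT a q τ) (hτ' : GhIsRT a q τ') {x x' : GhPos} (hx : x ∈ ps) (hx' : x'.Ok a)
    (hxx : x ≤ x')
    (hd : ∀ y w, y < q → w < q → τ y w = τ' y w ∨ ((x : WithTop GhPos) ≤ τ y w ∧ τ y w ≤ (x' : WithTop GhPos) ∧
      (x : WithTop GhPos) ≤ τ' y w ∧ τ' y w ≤ (x' : WithTop GhPos)))
    (P : (Fin q → SkCfg n) → ℝ) {K : ℝ} (hP : ∀ σ, |P σ| ≤ K) :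
    |ckNuF n a b h q τ' P ps - ckNuF n a b h q τ P ps|
      ≤ 4 * q * (q + 1) * a ^ 2 * n * ((ghAt a b x' - ghAt a b x) / 2 + (ghAt a h x' - ghAt a h x)) * K := by
  rw [← brg_n_grow_one]
  refine brg_n_slideL_F hn ha hbh hps hτ hτ' [(x, x')] (fun e he => ?_) (fun y w hy hw => ?_) P hP
  · rw [List.mem_singleton.1 he]; exact ⟨hx, hx', hxx⟩
  · exact (hd y w hy hw).imp id fun hh => ⟨(x, x'), List.mem_singleton.2 rfl, hh⟩

/-- (G5.c'') SK, PATH, one interval `[x, x']`: at each pair of labels the trees agree or both forks lie in `[x, x']` -/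
theorem exit_clk_slide (hn : 0 < n) (ha : 0 < a) {b h : ℝ → ℝ} (hbh : CkAdm a b h) {q : ℕ}
    {τ τ' : ℕ → ℕ → WithTop GhPos} (hτ : GhIsRT a q τ) (hτ' : GhIsRT a q τ') {x x' : GhPos} (hx : x.Ok a) (hx' : x'.Ok a)
    (hxx : x ≤ x')
    (hd : ∀ y w, y < q → w < q → τ y w = τ' y w ∨ ((x : WithTop GhPos) ≤ τ y w ∧ τ y w ≤ (x' : WithTop GhPos) ∧
      (x : WithTop GhPos) ≤ τ' y w ∧ τ' y w ≤ (x' : WithTop GhPos)))
    (P : (Fin q → SkCfg n) → ℝ) {K : ℝ} (hP : ∀ σ, |P σ| ≤ K) :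
    |skCNu n a b h q τ' P - skCNu n a b h q τ P|
      ≤ 4 * q * (q + 1) * a ^ 2 * n * ((ghAt a b x' - ghAt a b x) / 2 + (ghAt a h x' - ghAt a h x)) * K := by
  rw [← brg_n_grow_one]
  refine exit_clk_slideL hn ha hbh hτ hτ' [(x, x')] (fun e he => ?_) (fun y w hy hw => ?_) P hP
  · rw [List.mem_singleton.1 he]; exact ⟨hx, hx', hxx⟩
  · exact (hd y w hy hw).imp id fun hh => ⟨(x, x'), List.mem_singleton.2 rfl, hh⟩

/-- the image of a real tree under a monotone map of the positions -/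
theorem brg_n_map_rt {q : ℕ} {τ : ℕ → ℕ → WithTop GhPos} (hτ : GhIsRT a q τ) {φ : GhPos → GhPos} (hφ : Monotone φ)
    (hok : ∀ p, p.Ok a → (φ p).Ok a) : GhIsRT a q fun x y => (τ x y).map φ where
  diag := fun x hx => by simp only [hτ.diag x hx]; rfl
  symm := fun x y hx hy => by simp only [hτ.symm x y hx hy]
  ultra := fun x y z hx hy hz => by
    have hm : Monotone (WithTop.map φ) := hφ.withTop_map
    have h := hm (hτ.ultra x y z hx hy hz)
    rwa [hm.map_min] at h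
  ok := fun x y hx hy p hp => by
    obtain ⟨r, hr, rfl⟩ := WithTop.map_eq_some_iff.1 hp
    exact hok r (hτ.ok x y hx hy r hr)

/-- (G5.c) = C2 FORK MODULUS: the forks are moved by a monotone map `φ` of the positions; the tree number moves at most like the clocks at the forks.
The constant depends on `q` and `a` only.      (04:50Z: `0 ≤ δb`, `0 ≤ δh` added: without them the statement is false on the tree whose labels all coincide.) -/
theorem exit_clk_fork (q : ℕ) (ha : 0 < a) : ∃ C : ℝ, ∀ (n : ℕ), 0 < n → ∀ (b h : ℝ → ℝ), CkAdm a b h →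
    ∀ (τ : ℕ → ℕ → WithTop GhPos), GhIsRT a q τ → ∀ φ : GhPos → GhPos, Monotone φ → (∀ p, p.Ok a → (φ p).Ok a) →
      ∀ (P : (Fin q → SkCfg n) → ℝ) (K δb δh : ℝ), 0 ≤ δb → 0 ≤ δh → (∀ σ, |P σ| ≤ K) →
        (∀ x y (p : GhPos), x < q → y < q → τ x y = (p : WithTop GhPos) →
          |ghAt a b (φ p) - ghAt a b p| ≤ δb ∧ |ghAt a h (φ p) - ghAt a h p| ≤ δh) →
        |skCNu n a b h q (fun x y => (τ x y).map φ) P - skCNu n a b h q τ P| ≤ C * n * (δb / 2 + δh) * K := by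
  classical
  refine ⟨4 * q * (q + 1) * a ^ 2 * (q * q), ?_⟩
  intro n hn b h hbh τ hτ φ hφ hok P K δb δh hδb hδh hP hmv
  have hK : 0 ≤ K := (abs_nonneg _).trans (hP fun _ _ => true)
  have hτ' := brg_n_map_rt hτ hφ hok
  -- the intervals
  set g : ℕ × ℕ → GhPos × GhPos := fun yw =>
    (min ((τ yw.1 yw.2).untopD (ghPosB 0)) (φ ((τ yw.1 yw.2).untopD (ghPosB 0))),
      max ((τ yw.1 yw.2).untopD (ghPosB 0)) (φ ((τ yw.1 yw.2).untopD (ghPosB 0)))) with hg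
  set L : List (GhPos × GhPos) := (((List.range q).product (List.range q)).filter fun yw => decide (τ yw.1 yw.2 ≠ ⊤)).map g with hLdef
  have hmem : ∀ e ∈ L, ∃ y w, ∃ p : GhPos, y < q ∧ w < q ∧ τ y w = (p : WithTop GhPos) ∧ e = (min p (φ p), max p (φ p)) := by
    intro e he
    obtain ⟨yw, hyw, rfl⟩ := List.mem_map.1 he
    obtain ⟨h1, h2⟩ := List.mem_filter.1 hyw
    obtain ⟨h3, h4⟩ := List.mem_product.1 h1
    obtain ⟨p, hp⟩ := WithTop.ne_top_iff_exists.1 (of_decide_eq_true h2)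
    refine ⟨yw.1, yw.2, p, List.mem_range.1 h3, List.mem_range.1 h4, hp.symm, ?_⟩
    simp only [hg, ← hp, WithTop.untopD_coe]
  have hL : ∀ e ∈ L, e.1.Ok a ∧ e.2.Ok a ∧ e.1 ≤ e.2 := by
    intro e he
    obtain ⟨y, w, p, hy, hw, hp, rfl⟩ := hmem e he
    have h1 := hτ.ok y w hy hw p hp
    have h2 := hok p h1
    refine ⟨?_, ?_, min_le_max⟩
    · rcases le_total p (φ p) with h | h
      · simpa [min_eq_left h] using h1
      · simpa [min_eq_right h] using h2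
    · rcases le_total p (φ p) with h | h
      · simpa [max_eq_right h] using h2
      · simpa [max_eq_left h] using h1
  have hd : ∀ y w, y < q → w < q → τ y w = (τ y w).map φ ∨ ∃ e ∈ L, (e.1 : WithTop GhPos) ≤ τ y w ∧ τ y w ≤ (e.2 : WithTop GhPos) ∧
      (e.1 : WithTop GhPos) ≤ (τ y w).map φ ∧ (τ y w).map φ ≤ (e.2 : WithTop GhPos) := by
    intro y w hy hw
    by_cases ht : τ y w = ⊤
    · left; rw [ht]; rfl
    · right
      obtain ⟨p, hp⟩ := WithTop.ne_top_iff_exists.1 ht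
      refine ⟨g (y, w), List.mem_map.2 ⟨(y, w), List.mem_filter.2 ⟨List.mem_product.2
        ⟨List.mem_range.2 hy, List.mem_range.2 hw⟩, decide_eq_true ht⟩, rfl⟩, ?_⟩
      simp only [hg, ← hp, WithTop.untopD_coe, WithTop.map_coe, WithTop.coe_le_coe]
      exact ⟨min_le_left _ _, le_max_left _ _, min_le_right _ _, le_max_right _ _⟩
  have hgrow : brgGrow a b h L ≤ (q * q : ℝ) * (δb / 2 + δh) := by
    unfold brgGrow
    have h1 := List.sum_le_card_nsmul (L.map fun e => (ghAt a b e.2 - ghAt a b e.1) / 2 + (ghAt a h e.2 - ghAt a h e.1))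
      (δb / 2 + δh) (by
        intro x hx
        obtain ⟨e, he, rfl⟩ := List.mem_map.1 hx
        obtain ⟨y, w, p, hy, hw, hp, rfl⟩ := hmem e he
        obtain ⟨m1, m2⟩ := hmv y w p hy hw hp
        rcases le_total p (φ p) with hh | hh
        · simp only [min_eq_left hh, max_eq_right hh]
          linarith [le_abs_self (ghAt a b (φ p) - ghAt a b p), le_abs_self (ghAt a h (φ p) - ghAt a h p)]
        · simp only [min_eq_right hh, max_eq_left hh]
          linarith [neg_abs_le (ghAt a b (φ p) - ghAt a b p), neg_abs_le (ghAt a h (φ p) - ghAt a h p)])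
    refine h1.trans ?_
    rw [nsmul_eq_mul, List.length_map]
    refine mul_le_mul_of_nonneg_right ?_ (by positivity)
    have h2 : L.length ≤ q * q := by
      rw [hLdef, List.length_map]
      refine (List.length_filter_le _ _).trans (le_of_eq ?_)
      exact (List.length_product _ _).trans (by rw [List.length_range])
    exact_mod_cast h2
  have key := exit_clk_slideL hn ha hbh hτ hτ' L hL hd P hP
  refine key.trans ?_
  have hn' : (0:ℝ) ≤ n := Nat.cast_nonneg n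
  have hc : (0:ℝ) ≤ 4 * q * (q + 1) * a ^ 2 * n := by positivity
  calc 4 * q * (q + 1) * a ^ 2 * n * brgGrow a b h L * K
      ≤ 4 * q * (q + 1) * a ^ 2 * n * ((q * q : ℝ) * (δb / 2 + δh)) * K :=
        mul_le_mul_of_nonneg_right (mul_le_mul_of_nonneg_left hgrow hc) hK
    _ = 4 * q * (q + 1) * a ^ 2 * (q * q) * n * (δb / 2 + δh) * K := by ring

/-! ### (G5.d): the cut moves from `p` to `p' ≥ p` (helper42; `brg_n_p*`; kit of 125 in `Brg/Stat`) -/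

/-- one fork of `brgR4` when the cut moves -/
theorem brg_n_pmax {p p' : GhPos} (hpp : p ≤ p') {s t : WithTop GhPos}
    (hst : s = t ∨ ((p : WithTop GhPos) ≤ s ∧ s ≤ (p' : WithTop GhPos) ∧ (p : WithTop GhPos) ≤ t ∧ t ≤ (p' : WithTop GhPos))) :
    max s (p : WithTop GhPos) = max t (p' : WithTop GhPos) ∨
      ((p : WithTop GhPos) ≤ max s (p : WithTop GhPos) ∧ max s (p : WithTop GhPos) ≤ (p' : WithTop GhPos) ∧
        (p : WithTop GhPos) ≤ max t (p' : WithTop GhPos) ∧ max t (p' : WithTop GhPos) ≤ (p' : WithTop GhPos)) := by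
  have hc : (p : WithTop GhPos) ≤ (p' : WithTop GhPos) := WithTop.coe_le_coe.2 hpp
  rcases hst with rfl | ⟨h1, h2, h3, h4⟩
  · rcases le_total (p' : WithTop GhPos) s with h | h
    · left
      rw [max_eq_left h, max_eq_left (hc.trans h)]
    · right
      exact ⟨le_max_right _ _, max_le h hc, hc.trans (le_max_right _ _), max_le h le_rfl⟩
  · right
    exact ⟨le_max_right _ _, max_le h2 hc, hc.trans (le_max_right _ _), max_le h4 le_rfl⟩

/-- the trees `brgR4` when the cut moves -/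
theorem brg_n_pR4 {p p' : GhPos} (hpp : p ≤ p') {s t s' t' : WithTop GhPos}
    (hst : s = t ∨ ((p : WithTop GhPos) ≤ s ∧ s ≤ (p' : WithTop GhPos) ∧ (p : WithTop GhPos) ≤ t ∧ t ≤ (p' : WithTop GhPos)))
    (hst' : s' = t' ∨ ((p : WithTop GhPos) ≤ s' ∧ s' ≤ (p' : WithTop GhPos) ∧ (p : WithTop GhPos) ≤ t' ∧ t' ≤ (p' : WithTop GhPos)))
    (y w : ℕ) : brgR4 p s s' y w = brgR4 p' t t' y w ∨
      ((p : WithTop GhPos) ≤ brgR4 p s s' y w ∧ brgR4 p s s' y w ≤ (p' : WithTop GhPos) ∧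
        (p : WithTop GhPos) ≤ brgR4 p' t t' y w ∧ brgR4 p' t t' y w ≤ (p' : WithTop GhPos)) := by
  have hc : (p : WithTop GhPos) ≤ (p' : WithTop GhPos) := WithTop.coe_le_coe.2 hpp
  unfold brgR4
  split_ifs
  · exact Or.inl rfl
  · exact brg_n_pmax hpp hst
  · exact brg_n_pmax hpp hst'
  · exact Or.inr ⟨le_rfl, hc, hc, le_rfl⟩

theorem brg_n_pR2 {p p' : GhPos} (hpp : p ≤ p') (y w : ℕ) : ghR2 p y w = ghR2 p' y w ∨
      ((p : WithTop GhPos) ≤ ghR2 p y w ∧ ghR2 p y w ≤ (p' : WithTop GhPos) ∧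
        (p : WithTop GhPos) ≤ ghR2 p' y w ∧ ghR2 p' y w ≤ (p' : WithTop GhPos)) := by
  have hc : (p : WithTop GhPos) ≤ (p' : WithTop GhPos) := WithTop.coe_le_coe.2 hpp
  unfold ghR2
  split_ifs
  · exact Or.inl rfl
  · exact Or.inr ⟨le_rfl, hc, hc, le_rfl⟩

/-- (G5.d), ordered cuts, explicit constants;  `G` = growth of the clocks between the cuts -/
theorem brg_n_pos_le (hn : 0 < n) (ha : 0 < a) {b h : ℝ → ℝ} (hbh : CkAdm a b h) {p p' : GhPos} (hp : p.Ok a) (hp' : p'.Ok a)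
    (hpp : p ≤ p') {G : ℝ} (hG : G = (ghAt a b p' - ghAt a b p) / 2 + (ghAt a h p' - ghAt a h p)) :
    |skCS n a b h p' - skCS n a b h p| ≤ 24 * a ^ 2 * n * G ∧ |skCB n a b h p' - skCB n a b h p| ≤ 24 * a ^ 2 * n * G ∧
      |ckH2 n a b h p' - ckH2 n a b h p| ≤ 320 * a ^ 4 * n * G ∧ |ckC2 n a b h p' - ckC2 n a b h p| ≤ 320 * a ^ 2 * n * G ∧
        |ckX4 n a b h p' - ckX4 n a b h p| ≤ 80 * a ^ 2 * n * G := by
  have hc : (p : WithTop GhPos) ≤ (p' : WithTop GhPos) := WithTop.coe_le_coe.2 hpp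
  have ot := brg_ss_okT_top a
  have op := brg_ss_okT_coe hp
  have op' := brg_ss_okT_coe hp'
  have mv : (p : WithTop GhPos) = (p' : WithTop GhPos) ∨ ((p : WithTop GhPos) ≤ (p : WithTop GhPos) ∧
      (p : WithTop GhPos) ≤ (p' : WithTop GhPos) ∧ (p : WithTop GhPos) ≤ (p' : WithTop GhPos) ∧
      (p' : WithTop GhPos) ≤ (p' : WithTop GhPos)) := Or.inr ⟨le_rfl, hc, hc, le_rfl⟩
  have tt : (⊤ : WithTop GhPos) = ⊤ ∨ ((p : WithTop GhPos) ≤ ⊤ ∧ (⊤ : WithTop GhPos) ≤ (p' : WithTop GhPos) ∧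
      (p : WithTop GhPos) ≤ ⊤ ∧ (⊤ : WithTop GhPos) ≤ (p' : WithTop GhPos)) := Or.inl rfl
  -- four labels, path
  have k4 : ∀ (T : (Fin 4 → SkCfg n) → ℝ), (∀ σ, |T σ| ≤ 1) → ∀ s t s' t' : WithTop GhPos, BrgOkT a s → BrgOkT a t →
      BrgOkT a s' → BrgOkT a t' →
      (s = t ∨ ((p : WithTop GhPos) ≤ s ∧ s ≤ (p' : WithTop GhPos) ∧ (p : WithTop GhPos) ≤ t ∧ t ≤ (p' : WithTop GhPos))) →
      (s' = t' ∨ ((p : WithTop GhPos) ≤ s' ∧ s' ≤ (p' : WithTop GhPos) ∧ (p : WithTop GhPos) ≤ t' ∧ t' ≤ (p' : WithTop GhPos))) →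
      |skCNu n a b h 4 (brgR4 p' t t') T - skCNu n a b h 4 (brgR4 p s s') T| ≤ 80 * a ^ 2 * n * G := by
    intro T hT s t s' t' os ot' os' ot'' h1 h2
    refine (exit_clk_slide hn ha hbh (brg_ss_rt hp os os') (brg_ss_rt hp' ot' ot'') hp hp' hpp
      (fun y w _ _ => brg_n_pR4 hpp h1 h2 y w) T hT).trans (le_of_eq ?_)
    rw [hG]; push_cast; ring
  have k2 : ∀ (T : (Fin 2 → SkCfg n) → ℝ), (∀ σ, |T σ| ≤ 1) →
      |skCNu n a b h 2 (ghR2 p') T - skCNu n a b h 2 (ghR2 p) T| ≤ 24 * a ^ 2 * n * G := by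
    intro T hT
    refine (exit_clk_slide hn ha hbh (brg_rt_r2 hp) (brg_rt_r2 hp') hp hp' hpp
      (fun y w _ _ => brg_n_pR2 hpp y w) T hT).trans (le_of_eq ?_)
    rw [hG]; push_cast; ring
  refine ⟨k2 _ fun σ => brg_s_ov_abs _ _, k2 _ fun σ => brg_s_ovsq_abs _ _, ?_, ?_, ?_⟩
  · -- `E tr H²`: termwise under the double functional, then the limit
    obtain ⟨T, hTd⟩ : ∃ T : (Fin 4 → SkCfg n) → ℝ, T = fun σ => skOv (σ 0) (σ 2) * skOv (σ 1) (σ 3) := ⟨_, rfl⟩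
    have hT : ∀ σ, |T σ| ≤ 1 := fun σ => by rw [hTd]; exact brg_s_ov2_abs _ _ _ _
    have e := (brg_s_H2_lim hn ha hbh hp).2.1
    have e' := (brg_s_H2_lim hn ha hbh hp').2.1
    rw [← hTd] at e e'
    rw [e, e']
    have x := (brg_s_Q4_lim ha hbh hp T hT).1
    have x' := (brg_s_Q4_lim ha hbh hp' T hT).1
    have h2 := (Tendsto.sub x' x).abs
    refine le_of_tendsto h2 ((eventually_ge_atTop {p}).mono fun F hF => ?_)
    have hpF : p ∈ ghPs a F := gh_os_ps_mem.2 ⟨hF (Finset.mem_singleton_self p), hp⟩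
    refine (brg_s_Q4_close ha.le b h b h T p p' F F (ε := 80 * a ^ 2 * n * G) fun s s' hs hs' => ?_).trans (le_of_eq (by ring))
    refine (brg_n_slide_F hn ha hbh (gh_pt_ps_ok a F) (brg_ss_rt hp (brg_s_good_ok hs) (brg_s_good_ok hs'))
      (brg_ss_rt hp' (brg_s_good_ok hs) (brg_s_good_ok hs')) hpF hp' hpp
      (fun y w _ _ => brg_n_pR4 hpp (Or.inl rfl) (Or.inl rfl) y w) T hT).trans (le_of_eq ?_)
    rw [hG]; push_cast; ring
  · rw [(brg_s_C2_lim hn ha hbh hp).2.1, (brg_s_C2_lim hn ha hbh hp').2.1]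
    have hT : ∀ σ : Fin 4 → SkCfg n, |skOv (σ 0) (σ 2) * skOv (σ 1) (σ 3)| ≤ 1 := fun σ => brg_s_ov2_abs _ _ _ _
    have q1 := abs_le.1 (k4 _ hT ⊤ ⊤ ⊤ ⊤ ot ot ot ot tt tt)
    have q2 := abs_le.1 (k4 _ hT ⊤ ⊤ p p' ot ot op op' tt mv)
    have q3 := abs_le.1 (k4 _ hT p p' ⊤ ⊤ op op' ot ot mv tt)
    have q4 := abs_le.1 (k4 _ hT p p' p p' op op' op op' mv mv)
    rw [abs_le]
    constructor <;> linarith [q1.1, q1.2, q2.1, q2.2, q3.1, q3.2, q4.1, q4.2]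
  · rw [(brg_s_X4_lim hn ha hbh hp).2.1, (brg_s_X4_lim hn ha hbh hp').2.1]
    exact k4 _ (fun σ => brg_s_ov2_abs _ _ _ _) p p' p p' op op' op op' mv mv

/-- (G5.d) modulus in the position of the single path statistics (constant depending on `n` and `a` only) -/
theorem exit_clk_stat_pos (hn : 0 < n) (ha : 0 < a) : ∃ C : ℝ, ∀ (b h : ℝ → ℝ), CkAdm a b h →
    ∀ (p p' : GhPos), p.Ok a → p'.Ok a →
      ∀ δ : ℝ, |ghAt a b p - ghAt a b p'| + |ghAt a h p - ghAt a h p'| ≤ δ →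
      |skCS n a b h p - skCS n a b h p'| ≤ C * δ ∧ |skCB n a b h p - skCB n a b h p'| ≤ C * δ ∧
      |ckH2 n a b h p - ckH2 n a b h p'| ≤ C * δ ∧ |ckC2 n a b h p - ckC2 n a b h p'| ≤ C * δ ∧
        |ckX4 n a b h p - ckX4 n a b h p'| ≤ C * δ := by
  refine ⟨320 * a ^ 2 * n + 320 * a ^ 4 * n, fun b h hbh p p' hp hp' δ hδ => ?_⟩
  have hn' : (0:ℝ) ≤ n := Nat.cast_nonneg n
  have h2 : (0:ℝ) ≤ a ^ 2 * n := by positivity
  have h4 : (0:ℝ) ≤ a ^ 4 * n := by positivity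
  have hδ0 : 0 ≤ δ := le_trans (by positivity) hδ
  -- ordered form
  have key : ∀ r r' : GhPos, r.Ok a → r'.Ok a → r ≤ r' → |ghAt a b r - ghAt a b r'| + |ghAt a h r - ghAt a h r'| ≤ δ →
      |skCS n a b h r' - skCS n a b h r| ≤ (320 * a ^ 2 * n + 320 * a ^ 4 * n) * δ ∧
      |skCB n a b h r' - skCB n a b h r| ≤ (320 * a ^ 2 * n + 320 * a ^ 4 * n) * δ ∧
      |ckH2 n a b h r' - ckH2 n a b h r| ≤ (320 * a ^ 2 * n + 320 * a ^ 4 * n) * δ ∧
      |ckC2 n a b h r' - ckC2 n a b h r| ≤ (320 * a ^ 2 * n + 320 * a ^ 4 * n) * δ ∧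
      |ckX4 n a b h r' - ckX4 n a b h r| ≤ (320 * a ^ 2 * n + 320 * a ^ 4 * n) * δ := by
    intro r r' hr hr' hrr hd
    obtain ⟨G, hG⟩ : ∃ G : ℝ, G = (ghAt a b r' - ghAt a b r) / 2 + (ghAt a h r' - ghAt a h r) := ⟨_, rfl⟩
    have hGδ : G ≤ δ := by
      have e1 := neg_abs_le (ghAt a b r - ghAt a b r')
      have e2 := neg_abs_le (ghAt a h r - ghAt a h r')
      have e3 := abs_nonneg (ghAt a b r - ghAt a b r')
      rw [hG]; linarith
    obtain ⟨g1, g2, g3, g4, g5⟩ := brg_n_pos_le hn ha hbh hr hr' hrr hG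
    have m2 : a ^ 2 * n * G ≤ a ^ 2 * n * δ := mul_le_mul_of_nonneg_left hGδ h2
    have m4 : a ^ 4 * n * G ≤ a ^ 4 * n * δ := mul_le_mul_of_nonneg_left hGδ h4
    have p2 : 0 ≤ a ^ 2 * n * δ := mul_nonneg h2 hδ0
    have p4 : 0 ≤ a ^ 4 * n * δ := mul_nonneg h4 hδ0
    have c1 : 24 * a ^ 2 * n * G ≤ (320 * a ^ 2 * n + 320 * a ^ 4 * n) * δ := by linarith only [m2, m4, p2, p4]
    have c3 : 320 * a ^ 4 * n * G ≤ (320 * a ^ 2 * n + 320 * a ^ 4 * n) * δ := by linarith only [m2, m4, p2, p4]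
    have c4 : 320 * a ^ 2 * n * G ≤ (320 * a ^ 2 * n + 320 * a ^ 4 * n) * δ := by linarith only [m2, m4, p2, p4]
    have c5 : 80 * a ^ 2 * n * G ≤ (320 * a ^ 2 * n + 320 * a ^ 4 * n) * δ := by linarith only [m2, m4, p2, p4]
    exact ⟨g1.trans c1, g2.trans c1, g3.trans c3, g4.trans c4, g5.trans c5⟩
  rcases le_total p p' with hpp | hpp
  · obtain ⟨g1, g2, g3, g4, g5⟩ := key p p' hp hp' hpp hδ
    exact ⟨(abs_sub_comm _ _).trans_le g1, (abs_sub_comm _ _).trans_le g2, (abs_sub_comm _ _).trans_le g3,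
      (abs_sub_comm _ _).trans_le g4, (abs_sub_comm _ _).trans_le g5⟩
  · exact key p' p hp' hp hpp (by rwa [abs_sub_comm (ghAt a b p'), abs_sub_comm (ghAt a h p')])

end part42

end Claimed.Agent.R286
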