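-- KEEP
import Claimed.Agent.R286.Fd.ClkDefs
import Claimed.Agent.R286.Brg.Path
import Claimed.Agent.R286.Brg.PrSk
import Claimed.Agent.R286.Brg.Step
import Claimed.Agent.R286.Brg.StepNu
import Claimed.Agent.R286.Brg.Stat

/-!
# Row 286 (S0533), EXIT `ClkLim`      OWNER helper42 + helper150 (unit BRIDGE, under helper118);   ADV helper226, helper262
source: PE foundations.tex l.744-862 (Prop 2.14);  = (G0) of the ledger of 142, C1 of 262.

The numbers of bounded monotone clocks EXIST (limits along the net of all finite chains), uniformly in the cuts, and on step clocks they are the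
numbers of the step path.      `n` fixed.      Route (no Brownian motion): origin/helper42:notes/R286/P03_helper42.md PL0, PL1.
-/

set_option autoImplicit false

namespace Claimed.Agent.R286

open Filter Topology Set

variable {n : ℕ} {a : ℝ}

/-- (G0.a) TEX[PE:prop:found-limits] the pressure (any common source) -/
theorem exit_clk_lim_pr (hn : 0 < n) (ha : 0 < a) {b h : ℝ → ℝ} (hbh : CkAdm a b h) (z : SkCfg n → ℝ) :
    GhLimEx a (fun ps => skPrS n a (skCStp a b h 0 0 ps) z) ∧ GhLimEx a (fun ps => skPr n a (skCStp a b h 0 0 ps)) :=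
  gh_pk_lim_pr ha hbh z

/-- (G0.b) = C1 TEX[PE:prop:found-limits] tree expectations of spin tests: convergence UNIFORM in the tree and in the test -/
theorem exit_clk_lim_nu (hn : 0 < n) (ha : 0 < a) {b h : ℝ → ℝ} (hbh : CkAdm a b h) (q : ℕ) {δ : ℝ} (hδ : 0 < δ) :
    ∃ F0 : Finset GhPos, ∀ F : Finset GhPos, F0 ⊆ F → ∀ τ : ℕ → ℕ → WithTop GhPos, GhIsRT a q τ →
      (∀ x y (p : GhPos), x < q → y < q → τ x y = (p : WithTop GhPos) → p ∈ F) →
      ∀ (P : (Fin q → SkCfg n) → ℝ) (K : ℝ), (∀ σ, |P σ| ≤ K) →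
        |ckNuF n a b h q τ P (ghPs a F) - skCNu n a b h q τ P| ≤ δ * K :=
  sk_pt_lim_nu hn ha hbh q hδ

/-- (G0.c) TEX[PE:prop:found-limits] the single path statistics at a cut: convergence uniform in the cut; `S`, `B` of `Defs/Clk` are the limits of
`obS`, `obB` -/
theorem exit_clk_lim_stat (hn : 0 < n) (ha : 0 < a) {b h : ℝ → ℝ} (hbh : CkAdm a b h) {δ : ℝ} (hδ : 0 < δ) :
    ∃ F0 : Finset GhPos, ∀ F : Finset GhPos, F0 ⊆ F → ∀ p ∈ F, p.Ok a →
      |obS n a (ckStp a b h (ghPs a F)) 0 (ghIdx (ghPs a F) p) - skCS n a b h p| ≤ δ ∧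
      |obB n a (ckStp a b h (ghPs a F)) 0 (ghIdx (ghPs a F) p) - skCB n a b h p| ≤ δ ∧
      |obTrH2 n a (ckStp a b h (ghPs a F)) 0 (ghIdx (ghPs a F) p) - ckH2 n a b h p| ≤ δ ∧
      |obTrC2 n a (ckStp a b h (ghPs a F)) 0 (ghIdx (ghPs a F) p) - ckC2 n a b h p| ≤ δ ∧
      |ckX4F n a (ckStp a b h (ghPs a F)) (ghIdx (ghPs a F) p) - ckX4 n a b h p| ≤ δ := by
  obtain ⟨F0, hF0⟩ := brg_s_lim_stat hn ha hbh hδ
  exact ⟨F0, fun F hF p hp hpo => hF0 F hF p (brg_s_fkP_mem hp) hpo⟩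

/-- (G0.d) step clocks are admissible, and their pressure is the pressure of the step path -/
theorem exit_clk_step_pr (hn : 0 < n) (ha : 0 < a) (P : SkStp) (hP : SkAdm a P) (z : SkCfg n → ℝ) :
    CkAdm a (skClkB P) (skClkH P) ∧ skCPr n a (skClkB P) (skClkH P) = skPr n a P ∧
      skCPrS n a (skClkB P) (skClkH P) z = skPrS n a P z :=
  ⟨sk_stp_clk1 hP, (sk_stp_pr n ha hP).1, (sk_stp_prS n ha hP z).1⟩

/-- (G0.e) step clocks with strictly increasing masses: the tree numbers are those of the step path -/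
theorem exit_clk_step_nu (hn : 0 < n) (ha : 0 < a) (P : SkStp) (hP : SkAdm a P) (hs : P.Pairwise fun e e' => e.m < e'.m)
    (q : ℕ) (T : GhTree q) (sh : ℕ → ℕ → ℕ) (hsh : ∀ x y : Fin q, sh x y = T.sh x y) (Q : (Fin q → SkCfg n) → ℝ) :
    skCNu n a (skClkB P) (skClkH P) q (ckRT P sh) Q = T.nu (skBase n a) (skLvs n P) 0 fun _ σ => Q σ :=
  (sk_sn_nu n ha hP hs q T sh hsh Q).1

end Claimed.Agent.R286
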