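-- KEEP
import Claimed.Agent.R286.Fd.ClkDefs
import Claimed.Agent.R286.Brg.Vx
import Claimed.Agent.R286.Brg.Stat251
import Claimed.Agent.R286.Fd.ObsU
import Claimed.Agent.R286.Exit.ClkLim

/-!
# Row 286 (S0533), EXIT `ClkStat`      OWNER helper42 + helper150 (unit BRIDGE, under helper118);   ADV helper226, helper262
source: PE foundations.tex l.85-161 (Lemma 2.1), l.225-322 (Lemma 2.3), profile.tex l.655-690;  = (G3), (G4) of 142, C4 of 262, (I3), (I4) of 67, (I1) of 255.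

Elementary properties of the five deterministic functions `S, B, E tr H², E tr C², Var|X|²` of the position on a path of bounded monotone clocks.
-/

set_option autoImplicit false

namespace Claimed.Agent.R286

open MeasureTheory Filter Topology Set

variable {n : ℕ} {a : ℝ}

/-- (G3.a) = C4 TEX[PE:lem:found-source] monotone in the position, in `[0,1]`, `S² ≤ B` -/
theorem exit_clk_SB (hn : 0 < n) (ha : 0 < a) {b h : ℝ → ℝ} (hbh : CkAdm a b h) {p p' : GhPos} (hp : p.Ok a) (hp' : p'.Ok a)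
    (hpp : p ≤ p') :
    0 ≤ skCS n a b h p ∧ skCS n a b h p ≤ skCS n a b h p' ∧ skCB n a b h p ≤ skCB n a b h p' ∧
      skCS n a b h p ^ 2 ≤ skCB n a b h p ∧ skCB n a b h p ≤ 1 :=
  bst_clk_SB hn ha hbh hp hp' hpp

/-- (G3.b) TEX[PE:lem:found-source] `Var|X|² + E tr C² ≤ D² ≤ Var|X|² + 2 √(E tr C²) + E tr C²` and the signs -/
theorem exit_clk_D2 (hn : 0 < n) (ha : 0 < a) {b h : ℝ → ℝ} (hbh : CkAdm a b h) {p : GhPos} (hp : p.Ok a) :
    0 ≤ ckVx n a b h p ∧ 0 ≤ ckC2 n a b h p ∧ ckC2 n a b h p ≤ 1 ∧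
      skCB n a b h p - skCS n a b h p ^ 2 ≤ ckVx n a b h p + 2 * Real.sqrt (ckC2 n a b h p) + ckC2 n a b h p ∧
      ckVx n a b h p + ckC2 n a b h p ≤ skCB n a b h p - skCS n a b h p ^ 2 :=
  bst_clk_D2 hn ha hbh hp

/-- monotonicity of the iterated planted average `obuIt` -/
theorem flb_it_mono {S ι : Type} [Fintype S] [Fintype ι] {B : GhB S} (hB : B.Ok) {ls : List (GhLv S ι)} (hls : GhNn ls) (j : ℕ)
    {φ ψ : (S → ℝ) → ℝ} {M M' : ℝ} (hφ : GhBC φ M) (hψ : GhBC ψ M') (hle : ∀ y, φ y ≤ ψ y) (z : S → ℝ) :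
    obuIt B ls j φ z ≤ obuIt B ls j ψ z := by
  induction ls generalizing j z with
  | nil => exact hle z
  | cons l ls ih =>
    cases j with
    | zero => exact hle z
    | succ j =>
      simp only [obuIt]
      exact gh_b_A_mono hB hls (obu_it_bc hB hls.tail j hφ) (obu_it_bc hB hls.tail j hψ) (fun y => ih hls.tail j y) z

/-- `B ≤ 2 E|X|⁴ + 2 E tr C²` on a finite chain: `E[yyᵀ|F] = C + XXᵀ`, `(c + x)² ≤ 2c² + 2x²` entrywise -/
theorem flb_fin (ha : 0 < a) (P : SkStp) (hP : SkAdm a P) (z₀ : SkCfg n → ℝ) (j : ℕ) :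
    obB n a P z₀ j ≤ 2 * obE n a P z₀ (fun ξ _ => (∑ i, obXp n a P z₀ j ξ i ^ 2) ^ 2) + 2 * obTrC2 n a P z₀ j := by
  have hB := obu_base_ok n ha
  have hls := obu_lvs_nn n hP
  have hd : GhNn (skLvs n (P.drop j)) := obu_lvs_nn n (obu_adm_drop hP j)
  set Q := P.drop j with hQ
  let φ1 : (SkCfg n → ℝ) → ℝ := fun y => (∑ i, obX n a Q y i ^ 2) ^ 2
  let φ3 : (SkCfg n → ℝ) → ℝ := fun y => ∑ i, ∑ k, obC n a Q y i k ^ 2
  let φB : (SkCfg n → ℝ) → ℝ := fun y => ∑ i, ∑ k, obM n a Q y i k ^ 2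
  have hX : ∀ i, ObuBC (fun y => obX n a Q y i) := fun i => ⟨_, gh_b_E_bc' hB (obY i) hd⟩
  have hC : ∀ i k, ObuBC (fun y => obC n a Q y i k) := fun i k => ⟨_, gh_b_C_bc hB _ _ hd⟩
  have hM : ∀ i k, ObuBC (fun y => obM n a Q y i k) := fun i k => ⟨_, gh_b_E_bc' hB _ hd⟩
  have h1 : ObuBC φ1 := (ObuBC.sum _ fun i _ => (hX i).sq).sq
  have h3 : ObuBC φ3 := ObuBC.sum _ fun i _ => ObuBC.sum _ fun k _ => (hC i k).sq
  have hBB : ObuBC φB := ObuBC.sum _ fun i _ => ObuBC.sum _ fun k _ => (hM i k).sq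
  have hpt : ∀ y, φB y ≤ 2 * φ1 y + 2 * φ3 y := by
    intro y
    simp only [φB, φ1, φ3]
    have hMe : ∀ i k, obM n a Q y i k = obC n a Q y i k + obX n a Q y i * obX n a Q y k := fun i k => by
      simp only [obM, obC, obX, ghC, obY]; ring
    have e1 : (∑ i, obX n a Q y i ^ 2) ^ 2 = ∑ i, ∑ k, (obX n a Q y i * obX n a Q y k) ^ 2 := by
      rw [pow_two, Finset.sum_mul_sum]
      exact Finset.sum_congr rfl fun i _ => Finset.sum_congr rfl fun k _ => by ring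
    rw [e1, Finset.mul_sum, Finset.mul_sum, ← Finset.sum_add_distrib]
    refine Finset.sum_le_sum fun i _ => ?_
    rw [Finset.mul_sum, Finset.mul_sum, ← Finset.sum_add_distrib]
    refine Finset.sum_le_sum fun k _ => ?_
    rw [hMe]
    nlinarith [sq_nonneg (obC n a Q y i k - obX n a Q y i * obX n a Q y k)]
  have pB : obB n a P z₀ j = obuIt (skBase n a) (skLvs n P) j φB z₀ := obu_path_field hB hls z₀ j φB
  have p1 : obE n a P z₀ (fun ξ _ => (∑ i, obXp n a P z₀ j ξ i ^ 2) ^ 2)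
      = obuIt (skBase n a) (skLvs n P) j φ1 z₀ := obu_path_field hB hls z₀ j φ1
  have p3 : obTrC2 n a P z₀ j = obuIt (skBase n a) (skLvs n P) j φ3 z₀ := obu_path_field hB hls z₀ j φ3
  obtain ⟨MB, hMB⟩ := hBB
  obtain ⟨MR, hMR⟩ := (h1.const_mul 2).add (h3.const_mul 2)
  have key := flb_it_mono hB hls j hMB hMR hpt z₀
  rw [obu_it_add' hB hls j (h1.const_mul 2) (h3.const_mul 2), obu_it_const_mul, obu_it_const_mul] at key
  rw [pB, p1, p3]
  exact key

/-- the chain of two admissible clocks on a finite set of positions is an admissible step path -/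
theorem flb_chain_adm (ha : 0 ≤ a) {b h : ℝ → ℝ} (hbh : CkAdm a b h) (F : Finset GhPos) :
    SkAdm a (ckStp a b h (ghPs a F)) :=
  sk_stp_chain_adm ha hbh.1 hbh.2 (ghPs a F) 0 0 (gh_os_ps_pairwise a F) (fun p hp => (gh_os_ps_mem.1 hp).2)
    (fun p hp => gh_os_at_nonneg ha hbh.1 (gh_os_ps_mem.1 hp).2.2.2.1)
    (fun p hp => gh_os_at_nonneg ha hbh.2 (gh_os_ps_mem.1 hp).2.2.2.1)

/-- (G3.b') TEX[PE:lem:found-source] `B = E‖C + XXᵀ‖² ≤ 2 E|X|⁴ + 2 E tr C²` (ask of 158, PE L7.4) -/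
theorem exit_clk_B_le (hn : 0 < n) (ha : 0 < a) {b h : ℝ → ℝ} (hbh : CkAdm a b h) {p : GhPos} (hp : p.Ok a) :
    skCB n a b h p ≤ 2 * ckX4 n a b h p + 2 * ckC2 n a b h p := by
  refine le_of_forall_pos_le_add fun ε hε => ?_
  obtain ⟨F0, hF0⟩ := exit_clk_lim_stat hn ha hbh (δ := ε / 5) (by positivity)
  obtain ⟨-, h2, -, h4, h5⟩ := hF0 (insert p F0) (Finset.subset_insert p F0) p (Finset.mem_insert_self p F0) hp
  have hfin := flb_fin (n := n) ha (ckStp a b h (ghPs a (insert p F0))) (flb_chain_adm ha.le hbh _) 0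
    (ghIdx (ghPs a (insert p F0)) p)
  have e : ckX4F n a (ckStp a b h (ghPs a (insert p F0))) (ghIdx (ghPs a (insert p F0)) p)
      = obE n a (ckStp a b h (ghPs a (insert p F0))) 0
        (fun ξ _ => (∑ i, obXp n a (ckStp a b h (ghPs a (insert p F0))) 0 (ghIdx (ghPs a (insert p F0)) p) ξ i ^ 2) ^ 2) := rfl
  rw [← e] at hfin
  have a2 := abs_le.1 h2
  have a4 := abs_le.1 h4
  have a5 := abs_le.1 h5
  linarith [a2.1, a2.2, a4.1, a4.2, a5.1, a5.2]

/-- (G3.c) TEX[PE:lem:found-source] trace consequences of `u C ≼ H ≼ a C` -/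
theorem exit_clk_H2 (hn : 0 < n) (ha : 0 < a) {b h : ℝ → ℝ} (hbh : CkAdm a b h) {p : GhPos} (hp : p.Ok a) :
    p.u ^ 2 * ckC2 n a b h p ≤ ckH2 n a b h p ∧ ckH2 n a b h p ≤ a ^ 2 * ckC2 n a b h p :=
  bst_clk_H2 hn ha hbh hp

/-- (G3.d) the functions of the mass are integrable -/
theorem exit_clk_intble (hn : 0 < n) (ha : 0 < a) {b h : ℝ → ℝ} (hbh : CkAdm a b h) :
    IntervalIntegrable (fun u => skCS n a b h (ghPosA u)) volume 0 a ∧
    IntervalIntegrable (fun u => skCB n a b h (ghPosA u)) volume 0 a ∧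
    IntervalIntegrable (fun u => ckH2 n a b h (ghPosA u)) volume 0 a ∧
    IntervalIntegrable (fun u => ckC2 n a b h (ghPosA u)) volume 0 a ∧
    IntervalIntegrable (fun u => ckVx n a b h (ghPosA u)) volume 0 a :=
  bst_clk_intble hn ha hbh

/-- (G4) = (I4) of P11 TEX[PE:lem:found-moments] pointwise concentration of `|X_u|²` from the interval variance bound (pinned inequality, `p = 2`,
weights `1/ρ` on `[u-ρ,u]` and on `[u,u+ρ]`; `E W = E tr HC ≤ E tr H²/v`) -/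
theorem exit_clk_Vx (hn : 0 < n) (ha : 0 < a) {b h : ℝ → ℝ} (hbh : CkAdm a b h) {p : GhPos} (hp : p.Ok a) {ρ : ℝ} (hρ : 0 < ρ)
    (h1 : 0 < p.u - ρ) (h2 : p.u + ρ < a) :
    Real.sqrt (ckVx n a b h p) ≤ (skCS n a b h (ghPosA (p.u + ρ)) - skCS n a b h (ghPosA (p.u - ρ)))
      + 4 / ρ * Real.sqrt (∫ v in (p.u - ρ)..(p.u + ρ), ckH2 n a b h (ghPosA v) / v) :=
  brg_vx_main hn ha hbh (exit_clk_intble hn ha hbh).2.2.1 hp hρ h1 h2

end Claimed.Agent.R286
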