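-- KEEP
import Claimed.Agent.R286.Fd.ClkDefs
import Claimed.Agent.R286.Brg.PrSk

/-!
# Row 286 (S0533), EXIT `ClkPr`      OWNER helper42 + helper150 (unit BRIDGE, under helper118);   ADV helper226, helper262
source: PE foundations.tex l.100-125 (eq. (1) line 1), l.161-225 (Lemma 2.2), l.744-862 (Prop 2.14);  = (G1) of 142, C3 of 262, (I1) of 67 / 14, (I2) of 255.

The pressure of bounded monotone clocks is `C¹` along affine segments, with the derivative of line 1 of (1), and `L¹`-Lipschitz.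
-/

set_option autoImplicit false

namespace Claimed.Agent.R286

open MeasureTheory Filter Topology Set

variable {n : ℕ} {a : ℝ}

/-- (G1.a) TEX[PE:prop:found-limits] TEX[PE:lem:found-pressure] eq. (1) line 1 for general monotone clocks; (G1.b) the derivative is continuous -/
theorem exit_clk_pr_deriv (hn : 0 < n) (ha : 0 < a) {b0 h0 b1 h1 : ℝ → ℝ} (h0' : CkAdm a b0 h0) (h1' : CkAdm a b1 h1) :
    (∀ θ ∈ Icc (0 : ℝ) 1,
      HasDerivWithinAt (fun s => skCPr n a (ckSeg s b0 b1) (ckSeg s h0 h1)) (ckDPr n a b0 h0 b1 h1 θ) (Icc 0 1) θ) ∧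
    ContinuousOn (ckDPr n a b0 h0 b1 h1) (Icc 0 1) :=
  gh_pk_pr_deriv hn ha h0' h1'

/-- (G1.c) TEX[PE:lem:found-pressure] `L¹` Lipschitz bound -/
theorem exit_clk_pr_lip (hn : 0 < n) (ha : 0 < a) {b h b' h' : ℝ → ℝ} (h1 : CkAdm a b h) (h2 : CkAdm a b' h') :
    |skCPr n a b h - skCPr n a b' h'|
      ≤ (1 / 4) * (∫ u in (0 : ℝ)..a, |b u - b' u|) + (1 / 2) * ∫ u in (0 : ℝ)..a, |h u - h' u| :=
  gh_pk_pr_lip hn ha h1 h2

end Claimed.Agent.R286
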