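-- KEEP
import Claimed.Agent.R286.Fd.ClkDefs
import Claimed.Agent.R286.Brg.Sus

/-!
# Row 286 (S0533), EXIT `ClkSus`      OWNER helper42 + helper150 (unit BRIDGE, under helper118);   ADV helper226, helper262
source: PE foundations.tex l.100-125 (eq. (1) line 2), l.161-225, l.841-858;  = (G2) of 142, C5 of 262, (I2) of 67.

Susceptibility (clock inequality) `dS ≥ n E tr H² dh` for bounded monotone clocks: increment form and integrated form.
-/

set_option autoImplicit false

namespace Claimed.Agent.R286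

open MeasureTheory Filter Topology Set

variable {n : ℕ} {a : ℝ}

/-- (G2.a) TEX[PE:prop:found-limits] between two positions, with a lower bound of `E tr H²` on all intermediate positions
(jumps with their joint linear filling included) -/
theorem exit_clk_sus_inf (hn : 0 < n) (ha : 0 < a) {b h : ℝ → ℝ} (hbh : CkAdm a b h) {p p' : GhPos} (hp : p.Ok a)
    (hp' : p'.Ok a) (hpp : p ≤ p') (c : ℝ) (hc : ∀ r : GhPos, r.Ok a → p ≤ r → r ≤ p' → c ≤ ckH2 n a b h r) :
    n * c * (ghAt a h p' - ghAt a h p) ≤ skCS n a b h p' - skCS n a b h p :=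
  brg_sus_inf hn ha hbh hp hp' hpp c hc

/-- (G2.b) TEX[PE:prop:found-limits] integrated form: `dh ≥ g dw` on `[u,v]` -/
theorem exit_clk_sus_int (hn : 0 < n) (ha : 0 < a) {b h : ℝ → ℝ} (hbh : CkAdm a b h) {u v : ℝ} (hu : 0 ≤ u) (huv : u ≤ v)
    (hv : v ≤ a) (g : ℝ → ℝ) (hg0 : ∀ w ∈ Icc u v, 0 ≤ g w) (hgi : IntervalIntegrable g volume u v)
    (hgh : ∀ s t, u ≤ s → s ≤ t → t ≤ v → ∫ w in s..t, g w ≤ h t - h s) :
    n * ∫ w in u..v, g w * ckH2 n a b h (ghPosA w) ≤ skCS n a b h (ghPosA v) - skCS n a b h (ghPosA u) :=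
  brg_sus_int hn ha hbh hu huv hv g hg0 hgi hgh

end Claimed.Agent.R286
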