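-- KEEP
import Claimed.Agent.R286.Cmp.DefsSk
import Claimed.Agent.R286.Cmp.Num
import Claimed.Agent.R286.Exit.ClkSus
import Claimed.Agent.R286.Exit.ClkStat

/-!
# Row 286 (S0533), EXIT `GeoClkInst` = INSTANCE DEBT I3 (118): the field `clock` of `CmGeo` for the SK numbers      OWNER of the proof: helper251 (with helper255)
source: PE foundations.tex eq. (1) line 2, comparisons.tex l.95-100 (`(re)' = (1-p) e`), l.193-317.

The clock inequality `dS ≥ n E tr H² dh` (`Exit/ClkSus`, mass coordinate) pulled back to the RADIUS coordinate of a feasible quantile: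
`∂_r h_q ≥ (r e)' = (1-p) e`.      NO minimality, NO regularity: any feasible quantile with admissible changed clocks.
HYPOTHESIS NOT IN `CmI.Std`: the endpoint field clock `h0` is nondecreasing on the working interval (PE l.47: "uniformly bounded and nondecreasing on the working interval").
* `exit_geo_clock_sharp`   `n ∫_s^t (1-p) e · E tr H²(α r) dr ≤ S(α t) - S(α s)`
* `exit_geo_clock`         the field `CmGeo.clock`, for every `Kg ≥ 1` and every `Lp` with `1 ≤ Lp (1-p)` on `[rmin,1]`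
-/

set_option autoImplicit false

namespace Claimed.Agent.R286

open MeasureTheory Set
open scoped NNReal ENNReal

/-- **change of variable without derivatives**: the image under a strictly increasing continuous map `al`, whose inverse is Lipschitz, of the measure `w dρ`
has a density `g` with respect to the Lebesgue measure -/
theorem gci_pull {al r : ℝ → ℝ} {ρ0 ρ1 : ℝ}
    (hal : ContinuousOn al (Icc ρ0 ρ1)) (halm : StrictMonoOn al (Icc ρ0 ρ1))
    (hr : ∀ x ∈ Icc ρ0 ρ1, r (al x) = x) {K : ℝ≥0} (hrl : LipschitzOnWith K r (Icc (al ρ0) (al ρ1)))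
    {w : ℝ → ℝ} (hw : Continuous w) (hw0 : ∀ x, 0 ≤ w x)
    {F : ℝ → ℝ} (hF : IntervalIntegrable F volume (al ρ0) (al ρ1)) (h01 : ρ0 ≤ ρ1) :
    ∃ g : ℝ → ℝ, (∀ x, 0 ≤ g x) ∧ IntervalIntegrable g volume (al ρ0) (al ρ1) ∧
      (∀ x y, ρ0 ≤ x → x ≤ y → y ≤ ρ1 → ∫ u in al x..al y, g u = ∫ ρ in x..y, w ρ) ∧
      ∫ u in al ρ0..al ρ1, g u * F u = ∫ ρ in ρ0..ρ1, w ρ * F (al ρ) := by
  -- a continuous extension
  set A : ℝ → ℝ := fun x => al (max ρ0 (min x ρ1)) with hAdef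
  have hclamp : ∀ x, max ρ0 (min x ρ1) ∈ Icc ρ0 ρ1 := fun x => ⟨le_max_left _ _, max_le h01 (min_le_right _ _)⟩
  have hA : Continuous A := hal.comp_continuous (by fun_prop) hclamp
  have hAeq : ∀ x ∈ Icc ρ0 ρ1, A x = al x := fun x hx => by
    simp only [hAdef]
    rw [min_eq_left hx.2, max_eq_right hx.1]
  have hIocIcc : Ioc ρ0 ρ1 ⊆ Icc ρ0 ρ1 := Ioc_subset_Icc_self
  set μ : Measure ℝ := (volume.restrict (Ioc ρ0 ρ1)).withDensity (fun ρ => ENNReal.ofReal (w ρ)) with hμ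
  have hwint : ∀ x y : ℝ, IntegrableOn w (Ioc x y) volume := fun x y => (hw.integrableOn_Icc (a := x) (b := y)).mono_set Ioc_subset_Icc_self
  have : IsFiniteMeasure μ := isFiniteMeasure_withDensity_ofReal (hwint ρ0 ρ1).2
  set ν : Measure ℝ := μ.map A with hν
  have hwm : Measurable (fun ρ => ENNReal.ofReal (w ρ)) := hw.measurable.ennreal_ofReal
  have hμac : μ ≪ volume.restrict (Ioc ρ0 ρ1) := withDensity_absolutelyContinuous _ _
  have hmemJ : ∀ x ∈ Icc ρ0 ρ1, al x ∈ Icc (al ρ0) (al ρ1) := fun x hx =>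
    ⟨halm.monotoneOn (left_mem_Icc.2 h01) hx hx.1, halm.monotoneOn hx (right_mem_Icc.2 h01) hx.2⟩
  have hac : ν ≪ volume := by
    refine Measure.AbsolutelyContinuous.mk fun B hB h0 => ?_
    rw [hν, Measure.map_apply hA.measurable hB]
    refine hμac ?_
    rw [Measure.restrict_apply (hA.measurable hB)]
    have hsub : A ⁻¹' B ∩ Ioc ρ0 ρ1 ⊆ r '' (B ∩ Icc (al ρ0) (al ρ1)) := by
      rintro x ⟨hxB, hx⟩
      have hx' := hIocIcc hx
      refine ⟨al x, ⟨?_, hmemJ x hx'⟩, hr x hx'⟩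
      rw [← hAeq x hx']
      exact hxB
    refine measure_mono_null hsub ?_
    have h1 := (hrl.mono (inter_subset_right : B ∩ Icc (al ρ0) (al ρ1) ⊆ _)).hausdorffMeasure_image_le (d := 1) zero_le_one
    rw [hausdorffMeasure_real] at h1
    have h2 : volume (B ∩ Icc (al ρ0) (al ρ1)) = 0 := measure_mono_null inter_subset_left h0
    rw [h2, mul_zero] at h1
    exact nonpos_iff_eq_zero.1 h1
  -- preimages of intervals
  have hpre : ∀ x y, ρ0 ≤ x → x ≤ y → y ≤ ρ1 → A ⁻¹' (Ioc (al x) (al y)) ∩ Ioc ρ0 ρ1 = Ioc x y := by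
    intro x y hx hxy hy
    have hxm : x ∈ Icc ρ0 ρ1 := ⟨hx, hxy.trans hy⟩
    have hym : y ∈ Icc ρ0 ρ1 := ⟨hx.trans hxy, hy⟩
    ext z
    constructor
    · rintro ⟨hz1, hz⟩
      have hz' := hIocIcc hz
      rw [mem_preimage, hAeq z hz'] at hz1
      exact ⟨(halm.lt_iff_lt hxm hz').1 hz1.1, (halm.le_iff_le hz' hym).1 hz1.2⟩
    · intro hz
      have hz' : z ∈ Icc ρ0 ρ1 := ⟨hx.trans hz.1.le, hz.2.trans hy⟩
      refine ⟨?_, lt_of_le_of_lt hx hz.1, hz.2.trans hy⟩
      rw [mem_preimage, hAeq z hz']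
      exact ⟨(halm.lt_iff_lt hxm hz').2 hz.1, (halm.le_iff_le hz' hym).2 hz.2⟩
  refine ⟨fun u => (ν.rnDeriv volume u).toReal, fun _ => ENNReal.toReal_nonneg, ?_, ?_, ?_⟩
  · rw [intervalIntegrable_iff]
    exact Measure.integrableOn_toReal_rnDeriv (measure_ne_top _ _)
  · intro x y hx hxy hy
    have hxm : x ∈ Icc ρ0 ρ1 := ⟨hx, hxy.trans hy⟩
    have hym : y ∈ Icc ρ0 ρ1 := ⟨hx.trans hxy, hy⟩
    rw [intervalIntegral.integral_of_le (halm.monotoneOn hxm hym hxy), intervalIntegral.integral_of_le hxy,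
      Measure.setIntegral_toReal_rnDeriv hac, measureReal_def, hν, Measure.map_apply hA.measurable measurableSet_Ioc, hμ,
      withDensity_apply _ (hA.measurable measurableSet_Ioc), Measure.restrict_restrict (hA.measurable measurableSet_Ioc), hpre x y hx hxy hy,
      ← ofReal_integral_eq_lintegral_ofReal (hwint x y) (Filter.Eventually.of_forall hw0), ENNReal.toReal_ofReal (integral_nonneg hw0)]
  · have hFm : AEStronglyMeasurable F ν := by
      have h1 : AEStronglyMeasurable F (volume.restrict (Ioc (al ρ0) (al ρ1))) := by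
        have := hF.1
        exact this.aestronglyMeasurable
      have h2 : AEStronglyMeasurable F (ν.restrict (Ioc (al ρ0) (al ρ1))) := AEStronglyMeasurable.mono_ac (hac.restrict _) h1
      have h3 : ∀ᵐ u ∂ν, u ∈ Ioc (al ρ0) (al ρ1) := by
        rw [hν]
        refine (ae_map_iff hA.aemeasurable (p := fun u => u ∈ Ioc (al ρ0) (al ρ1)) measurableSet_Ioc).2 ?_
        refine hμac.ae_le ?_
        filter_upwards [ae_restrict_mem (measurableSet_Ioc : MeasurableSet (Ioc ρ0 ρ1))] with x hx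
        have := (hpre ρ0 ρ1 le_rfl h01 le_rfl).symm ▸ hx
        exact this.1
      rwa [Measure.restrict_eq_self_of_ae_mem h3] at h2
    have hle : al ρ0 ≤ al ρ1 := halm.monotoneOn (left_mem_Icc.2 h01) (right_mem_Icc.2 h01) h01
    rw [intervalIntegral.integral_of_le hle, intervalIntegral.integral_of_le h01,
      setIntegral_toReal_rnDeriv_mul' hac, hν, setIntegral_map measurableSet_Ioc (by rw [← hν]; exact hFm) hA.aemeasurable, hμ,
      setIntegral_withDensity_eq_setIntegral_toReal_smul hwm (Filter.Eventually.of_forall fun _ => ENNReal.ofReal_lt_top) _ (hA.measurable measurableSet_Ioc),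
      Measure.restrict_restrict (hA.measurable measurableSet_Ioc), hpre ρ0 ρ1 le_rfl h01 le_rfl]
    refine setIntegral_congr_fun measurableSet_Ioc fun x hx => ?_
    simp only [smul_eq_mul]
    rw [ENNReal.toReal_ofReal (hw0 x), hAeq x (hIocIcc hx)]

theorem gci_posA_ok {u : ℝ} (h0 : 0 ≤ u) (h1 : u ≤ 1) : (ghPosA u).Ok 1 :=
  ⟨h0, h1, zero_le_one, le_rfl⟩

theorem gci_posA_le {u u' : ℝ} (h : u ≤ u') : ghPosA u ≤ ghPosA u' := by
  rcases h.lt_or_eq with h | rfl
  · exact le_of_lt (Prod.Lex.toLex_lt_toLex.2 (Or.inl h))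
  · exact le_rfl

/-- the clamp of `cmkNum` does nothing on `[0,1]` -/
theorem gci_cl {u : ℝ} (h0 : 0 ≤ u) (h1 : u ≤ 1) : cmkCl u = u := by
  unfold cmkCl
  rw [min_eq_left h1, max_eq_right h0]

/-- TEX[PE:lem:found-pressure] TEX[PE:comp:geometry] (1) line 2 in the radius coordinate, sharp form -/
theorem exit_geo_clock_sharp {cE D0 : ℝ} (hc : 0 < cE) (I : CmI) (hok : I.P.Ok cE D0) (hl0 : 0 ≤ I.lam)
    (hadm : CkAdm 1 I.b I.h) (hh0 : MonotoneOn I.h0 (Icc I.P.u0 1)) {s t : ℝ} (hs : I.P.rmin ≤ s) (hst : s ≤ t) (ht : t ≤ 1) :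
    I.P.N * ∫ r in s..t, (1 - I.P.pp I.lam r) * I.P.e I.lam r * I.num.TH (I.q.al r) ≤ I.num.S (I.q.al t) - I.num.S (I.q.al s) := by
  have hn : 0 < I.P.n := lt_of_lt_of_le (by norm_num) hok.n3
  have hsub : Icc s t ⊆ Icc I.P.rmin 1 := Icc_subset_Icc hs ht
  have hsm : s ∈ Icc I.P.rmin 1 := ⟨hs, hst.trans ht⟩
  have htm : t ∈ Icc I.P.rmin 1 := ⟨hs.trans hst, ht⟩
  have has := cm_q_al_mem hc hok I.q hsm
  have hat := cm_q_al_mem hc hok I.q htm
  have hmono := (cm_q_al_strictMono hc hok I.q).monotoneOn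
  have hrmono := (cm_q_r_strictMono hc hok I.q).monotoneOn
  have hk1 : 0 < I.P.k 1 := cm_k_pos hc hok zero_le_one
  have hsubJ : Icc (I.q.al s) (I.q.al t) ⊆ Icc I.P.u0 1 := Icc_subset_Icc has.1 hat.2
  have hlip : LipschitzOnWith (1 / I.P.k 1).toNNReal I.q.r (Icc (I.q.al s) (I.q.al t)) := by
    refine LipschitzOnWith.of_le_add_mul _ fun x hx y hy => ?_
    rw [Real.coe_toNNReal _ (by positivity), Real.dist_eq]
    have hx' := hsubJ hx
    have hy' := hsubJ hy
    rcases le_total x y with hxy | hxy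
    · have := hrmono hx' hy' hxy
      have h2 : 0 ≤ 1 / I.P.k 1 * |x - y| := by positivity
      linarith
    · have := cm_q_r_lip hc hok I.q hy'.1 hxy hx'.2
      rw [abs_of_nonneg (sub_nonneg.2 hxy)]
      rw [div_eq_mul_one_div, mul_comm] at this
      linarith
  have hwc : Continuous fun r => (1 - I.P.pp I.lam r) * I.P.e I.lam r := (continuous_const.sub (cm_pp_cont I.P I.lam)).mul (cm_e_cont I.P I.lam)
  have hw0 : ∀ r, 0 ≤ (1 - I.P.pp I.lam r) * I.P.e I.lam r := fun r => mul_nonneg (cm_pp_gap_pos I.P I.lam r).le (cm_e_nonneg I.P hl0 r)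
  have hF : IntervalIntegrable (fun u => ckH2 I.P.n 1 I.b I.h (ghPosA u)) volume (I.q.al s) (I.q.al t) := by
    refine (exit_clk_intble hn one_pos hadm).2.2.1.mono_set ?_
    rw [uIcc_of_le (hmono hsm htm hst), uIcc_of_le zero_le_one]
    exact hsubJ.trans (Icc_subset_Icc hok.u00 le_rfl)
  obtain ⟨g, hg0, hgi, hg1, hg2⟩ := gci_pull ((cm_q_al_cont hc hok I.q).mono hsub) ((cm_q_al_strictMono hc hok I.q).mono hsub)
    (fun x hx => I.q.r_al x (hsub hx)) hlip hwc hw0 hF hst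
  have hmain := exit_clk_sus_int hn one_pos hadm (hok.u00.trans has.1) (hmono hsm htm hst) hat.2 g (fun w _ => hg0 w) hgi
    (fun s' t' h1 h2 h3 => by
      have hs' : s' ∈ Icc I.P.u0 1 := hsubJ ⟨h1, h2.trans h3⟩
      have ht' : t' ∈ Icc I.P.u0 1 := hsubJ ⟨h1.trans h2, h3⟩
      have e1 := I.q.al_r s' hs'
      have e2 := I.q.al_r t' ht'
      have hx0 : s ≤ I.q.r s' := by
        have := hrmono has hs' h1
        rwa [I.q.r_al s hsm] at this
      have hxy : I.q.r s' ≤ I.q.r t' := hrmono hs' ht' h2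
      have hy1 : I.q.r t' ≤ t := by
        have := hrmono ht' hat h3
        rwa [I.q.r_al t htm] at this
      have h4 := hg1 (I.q.r s') (I.q.r t') hx0 hxy hy1
      rw [e1, e2] at h4
      rw [h4, ← cm_re_integral I.P hok.d0 hl0 (hok.r0.trans (hs.trans hx0)) hxy]
      have h5 := cm_q_h_gain hc hok I.q (lam := I.lam) I.h0 hh0 (hs.trans hx0) hxy (hy1.trans ht)
      rw [e1, e2] at h5
      exact h5)
  rw [hg2] at hmain
  have hcl : ∀ r ∈ Icc s t, cmkCl (I.q.al r) = I.q.al r := fun r hr => by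
    have hm := cm_q_al_mem hc hok I.q (hsub hr)
    exact gci_cl (hok.u00.trans hm.1) hm.2
  have e1 : ∫ r in s..t, (1 - I.P.pp I.lam r) * I.P.e I.lam r * I.num.TH (I.q.al r)
      = ∫ r in s..t, (1 - I.P.pp I.lam r) * I.P.e I.lam r * ckH2 I.P.n 1 I.b I.h (ghPosA (I.q.al r)) := by
    refine intervalIntegral.integral_congr fun r hr => ?_
    rw [uIcc_of_le hst] at hr
    show _ * ckH2 I.P.n 1 I.b I.h (ghPosA (cmkCl (I.q.al r))) = _
    rw [hcl r hr]
  rw [e1]
  show _ ≤ skCS I.P.n 1 I.b I.h (ghPosA (cmkCl (I.q.al t))) - skCS I.P.n 1 I.b I.h (ghPosA (cmkCl (I.q.al s)))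
  rw [hcl t ⟨hst, le_rfl⟩, hcl s ⟨le_rfl, hst⟩]
  exact hmain

/-- TEX[PE:comp:geometry] the field `clock` of `CmGeo` -/
theorem exit_geo_clock {cE D0 : ℝ} (hc : 0 < cE) (I : CmI) (hok : I.P.Ok cE D0) (hl0 : 0 ≤ I.lam)
    (hadm : CkAdm 1 I.b I.h) (hh0 : MonotoneOn I.h0 (Icc I.P.u0 1)) {Kg Lp : ℝ} (hKg : 1 ≤ Kg) (hLp0 : 0 < Lp)
    (hLp : ∀ r ∈ Icc I.P.rmin 1, 1 ≤ Lp * (1 - I.P.pp I.lam r)) :
    ∀ s t, I.P.rmin ≤ s → s ≤ t → t ≤ 1 →
      I.P.N / (Kg * Lp) * ∫ r in s..t, I.P.e I.lam r * I.num.TH (I.q.al r) ≤ I.num.S (I.q.al t) - I.num.S (I.q.al s) := by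
  intro s t hs hst ht
  have hn : 0 < I.P.n := lt_of_lt_of_le (by norm_num) hok.n3
  have hN : 0 ≤ I.P.N := Nat.cast_nonneg _
  have hsub : Icc s t ⊆ Icc I.P.rmin 1 := Icc_subset_Icc hs ht
  have hsm : s ∈ Icc I.P.rmin 1 := ⟨hs, hst.trans ht⟩
  have htm : t ∈ Icc I.P.rmin 1 := ⟨hs.trans hst, ht⟩
  have hTH : ∀ r ∈ Icc s t, 0 ≤ I.num.TH (I.q.al r) := fun r hr => by
    have hm := cm_q_al_mem hc hok I.q (hsub hr)
    have hp := gci_posA_ok (hok.u00.trans hm.1) hm.2
    have h1 := (exit_clk_H2 hn one_pos hadm hp).1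
    have h2 := (exit_clk_D2 hn one_pos hadm hp).2.1
    show 0 ≤ ckH2 I.P.n 1 I.b I.h (ghPosA (cmkCl (I.q.al r)))
    rw [gci_cl (hok.u00.trans hm.1) hm.2]
    exact (mul_nonneg (sq_nonneg _) h2).trans h1
  by_cases hint : IntervalIntegrable (fun r => I.P.e I.lam r * I.num.TH (I.q.al r)) volume s t
  · have hsharp := exit_geo_clock_sharp hc I hok hl0 hadm hh0 hs hst ht
    have hint2 : IntervalIntegrable (fun r => Lp * ((1 - I.P.pp I.lam r) * I.P.e I.lam r * I.num.TH (I.q.al r))) volume s t := by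
      have hcc : Continuous fun r => 1 - I.P.pp I.lam r := continuous_const.sub (cm_pp_cont I.P I.lam)
      have h1 := (hint.continuousOn_mul hcc.continuousOn).const_mul Lp
      refine h1.congr ?_
      intro r _
      simp only
      ring
    have hle := intervalIntegral.integral_mono_on (μ := volume) hst hint hint2 (fun r hr => by
      have h1 := hLp r (hsub hr)
      have h2 : 0 ≤ I.P.e I.lam r * I.num.TH (I.q.al r) := mul_nonneg (cm_e_nonneg I.P hl0 r) (hTH r hr)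
      nlinarith)
    rw [intervalIntegral.integral_const_mul] at hle
    have hnn : 0 ≤ ∫ r in s..t, (1 - I.P.pp I.lam r) * I.P.e I.lam r * I.num.TH (I.q.al r) :=
      intervalIntegral.integral_nonneg hst fun r hr =>
        mul_nonneg (mul_nonneg (cm_pp_gap_pos I.P I.lam r).le (cm_e_nonneg I.P hl0 r)) (hTH r hr)
    have hKL : 0 < Kg * Lp := by positivity
    calc I.P.N / (Kg * Lp) * ∫ r in s..t, I.P.e I.lam r * I.num.TH (I.q.al r)
        ≤ I.P.N / (Kg * Lp) * (Lp * ∫ r in s..t, (1 - I.P.pp I.lam r) * I.P.e I.lam r * I.num.TH (I.q.al r)) :=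
          mul_le_mul_of_nonneg_left hle (by positivity)
      _ = I.P.N / Kg * ∫ r in s..t, (1 - I.P.pp I.lam r) * I.P.e I.lam r * I.num.TH (I.q.al r) := by
          field_simp
      _ ≤ I.P.N * ∫ r in s..t, (1 - I.P.pp I.lam r) * I.P.e I.lam r * I.num.TH (I.q.al r) :=
          mul_le_mul_of_nonneg_right (div_le_self hN hKg) hnn
      _ ≤ _ := hsharp
  · rw [intervalIntegral.integral_undef hint, mul_zero]
    have hm1 := cm_q_al_mem hc hok I.q hsm
    have hm2 := cm_q_al_mem hc hok I.q htm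
    have h1 := (exit_clk_SB hn one_pos hadm (gci_posA_ok (hok.u00.trans hm1.1) hm1.2) (gci_posA_ok (hok.u00.trans hm2.1) hm2.2)
      (gci_posA_le ((cm_q_al_strictMono hc hok I.q).monotoneOn hsm htm hst))).2.1
    show 0 ≤ skCS I.P.n 1 I.b I.h (ghPosA (cmkCl (I.q.al t))) - skCS I.P.n 1 I.b I.h (ghPosA (cmkCl (I.q.al s)))
    rw [gci_cl (hok.u00.trans hm1.1) hm1.2, gci_cl (hok.u00.trans hm2.1) hm2.2]
    exact sub_nonneg.2 h1

end Claimed.Agent.R286
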