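-- KEEP
import Claimed.Agent.R286.Cmp.DefsSk
import Claimed.Agent.R286.Cmp.Inst
import Claimed.Agent.R286.Cmp.P04Inst
import Claimed.Agent.R286.Cmp.P04GeoC
import Claimed.Agent.R286.Exit.GeoClkInst

/-!
# Row 286 (S0533), EXIT `CmpGeo`      OWNER helper255 (package P04, files R286/Cmp/P04*.lean), bridge to `CmGeo`: helper106;   ADV helper106, helper294;   section head helper295
source: PE comparisons.tex l.186-290 (definition of `G`, Lemma 3.3: statement and proof), l.294-297 (`∂_r h`)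

**PE Lemma 3.3 (contact, cap, floor)** at a minimiser of (6).
* `exit_cmp_pot`    the potential: `H' = J G`, `α' = M(α)` on `{H<0}`, `α' = k` on `{H>0}`, bounded distortion of `J`      (consumers: PE Lemma 5.6, LL 07);
* `exit_cmp_geo`    the closed geometry `CmGeo` of `Cmp/P6Defs.lean` with `Kg` ABSOLUTE, `Lp = 1/(1 - p(1))` (the only source of `n^{o(1)}` in (9), (10)), and the two length bounds of the caps.
  The sets of `Z` are the ones of the potential of `exit_cmp_pot`: caps = components of `{H<0}`, `Fl = {H>0}`, `Ct ⊆ {H=0}`.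
HYPOTHESIS MADE EXPLICIT: `h0` nondecreasing on the working interval (only for the field `clock` of `CmGeo`).
PROOF = `cmk_pr_ok` (295) + `cm4_geo` + consequences (`Cmp/P04Contract.lean`, `Cmp/P04Geo*.lean`) + `Exit/ClkSus` (field `clock`).
-/

set_option autoImplicit false

namespace Claimed.Agent.R286

open MeasureTheory Set Filter Topology

/-- the potential of PE Lemma 3.3 for the instance `I` -/
structure CmkPot (I : CmI) (H J : ℝ → ℝ) : Prop where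
  J_pos : ∀ r ∈ Icc I.P.rmin 1, 0 < J r
  J_cont : ContinuousOn J (Icc I.P.rmin 1)
  /-- bounded distortion -/
  J_dist : ∀ r1 r2 : ℝ, I.P.rmin ≤ r1 → r1 ≤ r2 → r2 ≤ 1 →
    J r1 ≤ J r2 ∧ J r2 ≤ ((I.q.al r2 + I.P.us) / (I.q.al r1 + I.P.us)) ^ 2 * J r1
  /-- `H' = J G` -/
  H_sub : ∀ r1 ∈ Icc I.P.rmin 1, ∀ r2 ∈ Icc I.P.rmin 1,
    H r2 - H r1 = ∫ x in r1..r2, J x * (I.P.e I.lam x * cmBr (I.P.pp I.lam x) x (skCS I.P.n 1 I.b I.h (ghPosA (I.q.al x)))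
      (skCB I.P.n 1 I.b I.h (ghPosA (I.q.al x))))
  /-- `α' = M(α)` on `{H < 0}` -/
  cap : ∀ᵐ r, r ∈ Icc I.P.rmin 1 → H r < 0 → HasDerivAt I.q.al (I.P.M (I.q.al r)) r
  /-- `α' = k` on `{H > 0}` -/
  floor : ∀ᵐ r, r ∈ Icc I.P.rmin 1 → 0 < H r → HasDerivAt I.q.al (I.P.k r) r

/-- TEX[PE:comp:geometry] the potential -/
theorem exit_cmp_pot {mm cE D0 Tm : ℝ} (hmm : 0 < mm) (hcE : 0 < cE) :
    ∃ n0 : ℕ, ∀ I : CmI, I.Std cE D0 Tm → mm ≤ I.P.m → n0 ≤ I.P.n → ∃ H J : ℝ → ℝ, CmkPot I H J := by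
  obtain ⟨N0, h⟩ := cm4i_geo (D0 := D0) hcE hmm
  refine ⟨N0, fun I hI hm hn => ?_⟩
  obtain ⟨H, J, g1, g2, g3, g4, g5, g6⟩ := h I.P hI.ok hm hn (cmkPr I.P.n) (cmk_pr_ok I.P.n (by have := hI.ok.n3; omega))
    I.lam I.b0 I.h0 hI.adm I.q hI.min
  exact ⟨H, J, ⟨g1, g2, g3, g4, g5, g6⟩⟩

/-- TEX[PE:comp:geometry] the closed geometry -/
theorem exit_cmp_geo {mm cE D0 Tm : ℝ} (hmm : 0 < mm) (hcE : 0 < cE) :
    ∃ (Kg : ℝ) (n0 : ℕ), ∀ I : CmI, I.Std cE D0 Tm → MonotoneOn I.h0 (Icc I.P.u0 1) → mm ≤ I.P.m → n0 ≤ I.P.n →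
      ∀ H J : ℝ → ℝ, CmkPot I H J → ∃ Z : CmCaps, CmGeo I.P I.lam I.q I.num Z Kg (1 / (1 - I.P.pp I.lam 1)) ∧
        Z.caps = {r | r ∈ Ioo I.P.rmin 1 ∧ H r < 0} ∧ Z.Fl = {r | r ∈ Icc I.P.rmin 1 ∧ 0 < H r} ∧ (∀ r ∈ Z.Ct, H r = 0) ∧
        (∀ i, Z.len i ≤ I.P.N ^ (-I.P.dl) * I.P.L * Real.log ((I.q.al (Z.cR i) + I.P.us) / (I.q.al (Z.cL i) + I.P.us))) ∧
        (∀ i, I.q.al (Z.cL i) * Z.len i ≤ I.P.N ^ (-I.P.dl) * I.P.E / I.P.d ^ 3) := by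
  refine ⟨200, 0, fun I hI hh0 _ _ H J hpot => ?_⟩
  have hn0 : 0 < I.P.n := by have := hI.ok.n3; omega
  have hPr := cmk_pr_ok I.P.n hn0
  have hA : CkAdm 1 I.b I.h := hI.adm I.q
  have g : Cm4Geo I.P I.lam I.q (fun u => skCS I.P.n 1 I.b I.h (ghPosA u)) (fun u => skCB I.P.n 1 I.b I.h (ghPosA u)) H J :=
    ⟨hPr.S_mono _ _ hA, hPr.B_mono _ _ hA, hPr.S_nonneg _ _ hA, hPr.S_sq _ _ hA, hPr.B_le _ _ hA,
      hpot.J_pos, hpot.J_cont, hpot.J_dist, hpot.H_sub, hpot.cap, hpot.floor⟩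
  have hcl : ∀ u ∈ Icc (0:ℝ) 1, cmkCl u = u := fun u hu => by
    unfold cmkCl
    rw [min_eq_left hu.2, max_eq_right hu.1]
  have hgap := cm_pp_gap_pos I.P I.lam 1
  have hLp1 : 1 ≤ 1 / (1 - I.P.pp I.lam 1) := by
    rw [le_div_iff₀ hgap]
    linarith [cm_pp_nonneg I.P I.lam 1]
  have hLp : ∀ r ∈ Icc I.P.rmin 1, 1 / (1 - I.P.pp I.lam r) ≤ 1 / (1 - I.P.pp I.lam 1) := fun r hr =>
    one_div_le_one_div_of_le hgap (by linarith [cm_pp_mono I.P hI.ok.d0 hI.lam0.le hr.2])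
  have hclock := exit_geo_clock hcE I hI.ok hI.lam0.le hA hh0 (Kg := 200) (Lp := 1 / (1 - I.P.pp I.lam 1)) (by norm_num)
    (by linarith) (fun r hr => by
      have h1 := hLp r hr
      have h2 := cm_pp_gap_pos I.P I.lam r
      rw [div_le_iff₀ h2] at h1
      exact h1)
  obtain ⟨Z, hZ, -, -, h1, h2, h3, h4, h5⟩ := cm4_geo_closed hcE hI.ok hI.lam0 g I.num
    (fun u hu => by
      show skCS I.P.n 1 I.b I.h (ghPosA (cmkCl u)) = _
      rw [hcl u hu])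
    (fun u hu => by
      show Real.sqrt (cmkD2 I.P.n I.b I.h (ghPosA (cmkCl u))) ^ 2 = _
      rw [hcl u hu, Real.sq_sqrt]
      · rfl
      · exact sub_nonneg.2 (hPr.S_sq _ _ hA u hu))
    le_rfl hLp1 hLp hclock
  exact ⟨Z, hZ, h1, h2, h3, h4, h5⟩

end Claimed.Agent.R286
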