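-- KEEP
import Claimed.Agent.R286.Bud.PSys
import Claimed.Agent.R286.Exit.ClkPr
import Claimed.Agent.R286.Exit.ClkStat
import Claimed.Agent.R286.Exit.ClkLip

/-!
# Row 286 (S0533), EXIT `PSysInst`      OWNER helper207      (prefix `psi_`, defs `clkExt`, `skPf`, `skPS`, `skPB`, `skPSys`)

**THE INSTANCE of the abstract pressure system `PSys` (Bud/PSys.lean, helper2)**: SK hierarchy with `n` sites and terminal mass `a`, from the clock API
`Exit/ClkPr`, `Exit/ClkStat`, `Exit/ClkLip`.      Clocks are read on `(0,a)` only: `clkExt a c` = `0` at `u ≤ 0`, `c` on `(0,a)`, `sup c` from `a` on.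
CANONICAL path numbers as functions of the mass:   `skPf n a b h = f_n(b,h)`,   `skPS n a b h v = S_v`,   `skPB n a b h v = B_v` (cut AFTER the revelation at `v`).
Other abstract interfaces (`CmPr.Ok` 255, `MvIface` 67, `LlBase` 272) : build your instance on these three functions.
-/

set_option autoImplicit false

namespace Claimed.Agent.R286

open MeasureTheory Set Filter Topology

noncomputable section

/-- the clock `c`, read on `(0,a)` only -/
def clkExt (a : ℝ) (c : ℝ → ℝ) (u : ℝ) : ℝ := if u ≤ 0 then 0 else if u < a then c u else sSup (c '' Ioo 0 a)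

/-- `f_n(b,h)`, clocks on `(0,a)` -/
def skPf (n : ℕ) (a : ℝ) (b h : ℝ → ℝ) : ℝ := skCPr n a (clkExt a b) (clkExt a h)
/-- `S_v` -/
def skPS (n : ℕ) (a : ℝ) (b h : ℝ → ℝ) (v : ℝ) : ℝ := skCS n a (clkExt a b) (clkExt a h) (ghPosA v)
/-- `B_v` -/
def skPB (n : ℕ) (a : ℝ) (b h : ℝ → ℝ) (v : ℝ) : ℝ := skCB n a (clkExt a b) (clkExt a h) (ghPosA v)

theorem psi_eqns_cite : True := by
  have := @clkExt.eq_1
  have := @skPf.eq_1
  have := @skPS.eq_1
  have := @skPB.eq_1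
  trivial

theorem psi_ext_congr {a : ℝ} {c c' : ℝ → ℝ} (h : ∀ v ∈ Ioo 0 a, c v = c' v) : clkExt a c = clkExt a c' := by
  funext u
  unfold clkExt
  have h2 : c '' Ioo 0 a = c' '' Ioo 0 a := Set.image_congr h
  by_cases h0 : u ≤ 0
  · simp [h0]
  · by_cases h1 : u < a
    · simp [h0, h1, h u ⟨not_le.1 h0, h1⟩]
    · simp [h0, h1, h2]

theorem psi_ext_of_mem {a : ℝ} (c : ℝ → ℝ) {u : ℝ} (hu : u ∈ Ioo 0 a) : clkExt a c u = c u := by
  unfold clkExt
  simp [not_le.2 hu.1, hu.2]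

theorem psi_bdd {a : ℝ} {c : ℝ → ℝ} (hc : IsClock a c) : BddAbove (c '' Ioo 0 a) := by
  obtain ⟨C, hC⟩ := hc.bdd
  exact ⟨C, by rintro _ ⟨v, hv, rfl⟩; exact hC v hv⟩

theorem psi_sup_nonneg {a : ℝ} (ha : 0 < a) {c : ℝ → ℝ} (hc : IsClock a c) : 0 ≤ sSup (c '' Ioo 0 a) := by
  have hm : a / 2 ∈ Ioo 0 a := ⟨by linarith, by linarith⟩
  exact (hc.nonneg _ hm).trans (le_csSup (psi_bdd hc) ⟨_, hm, rfl⟩)

theorem psi_ext_clk {a : ℝ} (ha : 0 < a) {c : ℝ → ℝ} (hc : IsClock a c) : GhClk1 a (clkExt a c) := by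
  refine ⟨?_, by simp [clkExt]⟩
  intro x _ y _ hxy
  unfold clkExt
  by_cases hx0 : x ≤ 0
  · simp only [hx0, if_true]
    by_cases hy0 : y ≤ 0
    · simp [hy0]
    · by_cases hy1 : y < a
      · simp only [hy0, hy1, if_true, if_false]
        exact hc.nonneg y ⟨not_le.1 hy0, hy1⟩
      · simp only [hy0, hy1, if_false]
        exact psi_sup_nonneg ha hc
  · have hy0 : ¬ y ≤ 0 := fun h => hx0 (hxy.trans h)
    by_cases hx1 : x < a
    · by_cases hy1 : y < a
      · simp only [hx0, hy0, hx1, hy1, if_true, if_false]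
        exact hc.mono ⟨not_le.1 hx0, hx1⟩ ⟨not_le.1 hy0, hy1⟩ hxy
      · simp only [hx0, hy0, hx1, hy1, if_true, if_false]
        exact le_csSup (psi_bdd hc) ⟨x, ⟨not_le.1 hx0, hx1⟩, rfl⟩
    · have hy1 : ¬ y < a := fun h => hx1 (lt_of_le_of_lt hxy h)
      simp [hx0, hy0, hx1, hy1]

theorem psi_adm {a : ℝ} (ha : 0 < a) {b h : ℝ → ℝ} (hb : IsClock a b) (hh : IsClock a h) :
    CkAdm a (clkExt a b) (clkExt a h) := ⟨psi_ext_clk ha hb, psi_ext_clk ha hh⟩

theorem psi_tendsto {a : ℝ} (ha : 0 < a) {c : ℝ → ℝ} (hc : IsClock a c) :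
    Tendsto c (𝓝[<] a) (𝓝 (sSup (c '' Ioo 0 a))) :=
  MonotoneOn.tendsto_nhdsWithin_Ioo_left (nonempty_Ioo.2 ha) hc.mono (psi_bdd hc)

/-- the extension commutes with affine interpolation -/
theorem psi_ext_clerp {a : ℝ} (ha : 0 < a) {c0 c1 : ℝ → ℝ} (h0 : IsClock a c0) (h1 : IsClock a c1) {t : ℝ}
    (ht : t ∈ Icc (0:ℝ) 1) : clkExt a (clerp t c0 c1) = ckSeg t (clkExt a c0) (clkExt a c1) := by
  funext u
  unfold ckSeg
  by_cases hu0 : u ≤ 0
  · simp [clkExt, hu0]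
  · by_cases hu1 : u < a
    · simp only [clkExt, hu0, hu1, if_true, if_false, clerp]
      ring
    · simp only [clkExt, hu0, hu1, if_false]
      have l1 := psi_tendsto ha (h0.clerp h1 ht)
      have l2 : Tendsto (clerp t c0 c1) (𝓝[<] a)
          (𝓝 (sSup (c0 '' Ioo 0 a) + t * (sSup (c1 '' Ioo 0 a) - sSup (c0 '' Ioo 0 a)))) :=
        (psi_tendsto ha h0).add (((psi_tendsto ha h1).sub (psi_tendsto ha h0)).const_mul t)
      rw [tendsto_nhds_unique l1 l2]
      ring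

/-! ### positions -/

theorem psi_posA_le {v v' : ℝ} (h : v ≤ v') : ghPosA v ≤ ghPosA v' := by
  unfold ghPosA
  rw [Prod.Lex.toLex_le_toLex]
  rcases h.lt_or_eq with h | h
  · exact Or.inl h
  · exact Or.inr ⟨h, le_rfl⟩

theorem psi_posA_ok {a v : ℝ} (hv : v ∈ Icc 0 a) : (ghPosA v).Ok a := by
  refine ⟨?_, ?_, ?_, ?_⟩ <;> simp [ghPosA, GhPos.u, GhPos.lam, hv.1, hv.2]

theorem psi_R2 {a : ℝ} {p : GhPos} (hp : p.Ok a) : GhIsRT a 2 (ghR2 p) where
  diag := fun x _ => by simp [ghR2]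
  symm := fun x y _ _ => by simp [ghR2, eq_comm]
  ultra := fun x y z _ _ _ => by
    unfold ghR2
    by_cases hxz : x = z
    · simp [hxz]
    · by_cases hxy : x = y
      · subst hxy
        simp [hxz]
      · simp [hxz, hxy]
  ok := fun x y _ _ p' h => by
    unfold ghR2 at h
    by_cases hxy : x = y
    · simp [hxy] at h
    · simp only [hxy, if_false] at h
      rw [← WithTop.coe_injective h]
      exact hp

theorem psi_ov_abs {n : ℕ} (σ τ : SkCfg n) : |skOv σ τ| ≤ 1 := by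
  unfold skOv
  rcases Nat.eq_zero_or_pos n with h0 | h0
  · subst h0
    simp
  have hn : (0:ℝ) < n := by exact_mod_cast h0
  rw [abs_div, abs_of_pos hn, div_le_one hn]
  calc |∑ i, skSp σ i * skSp τ i| ≤ ∑ i, |skSp σ i * skSp τ i| := Finset.abs_sum_le_sum_abs _ _
    _ = ∑ _i : Fin n, (1:ℝ) := by
        refine Finset.sum_congr rfl fun i _ => ?_
        have e : ∀ (ρ : SkCfg n), |skSp ρ i| = 1 := fun ρ => by
          unfold skSp Claims.C0461.pmSpin
          split <;> simp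
        rw [abs_mul, e, e, one_mul]
    _ = n := by simp

/-! ### continuity in the clocks -/

theorem psi_ext_close {a : ℝ} (ha : 0 < a) {c c' : ℝ → ℝ} (hc : IsClock a c) (hc' : IsClock a c') {δ : ℝ} (hδ : 0 ≤ δ)
    (h : ∀ v ∈ Ioo 0 a, |c v - c' v| ≤ δ) : ∀ u ∈ Icc 0 a, |clkExt a c u - clkExt a c' u| ≤ δ := by
  intro u _
  by_cases hu0 : u ≤ 0
  · simp [clkExt, hu0, hδ]
  · by_cases hu1 : u < a
    · simp only [clkExt, hu0, hu1, if_true, if_false]
      exact h u ⟨not_le.1 hu0, hu1⟩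
    · simp only [clkExt, hu0, hu1, if_false]
      refine le_of_tendsto ((psi_tendsto ha hc).sub (psi_tendsto ha hc')).abs ?_
      filter_upwards [Ioo_mem_nhdsLT ha] with v hv using h v hv

/-- tree numbers of two labels are continuous for the uniform convergence of the clocks -/
theorem psi_nu_tendsto {n : ℕ} (hn : 0 < n) {a : ℝ} (ha : 0 < a) (bk hk : ℕ → ℝ → ℝ) (b h : ℝ → ℝ)
    (hbk : ∀ k, IsClock a (bk k)) (hhk : ∀ k, IsClock a (hk k)) (hb : IsClock a b) (hh : IsClock a h)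
    (ub : TendstoUniformlyOn bk b atTop (Ioo 0 a)) (uh : TendstoUniformlyOn hk h atTop (Ioo 0 a))
    (P : (Fin 2 → SkCfg n) → ℝ) (hP : ∀ σ, |P σ| ≤ 1) {p : GhPos} (hp : p.Ok a) :
    Tendsto (fun k => skCNu n a (clkExt a (bk k)) (clkExt a (hk k)) 2 (ghR2 p) P) atTop
      (𝓝 (skCNu n a (clkExt a b) (clkExt a h) 2 (ghR2 p) P)) := by
  rw [Metric.tendsto_atTop]
  intro ε hε
  set C : ℝ := 2 * ((2:ℕ):ℝ) * (((2:ℕ):ℝ) + 1) * a ^ 2 * n with hC
  have hC0 : 0 ≤ C := by positivity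
  set δ : ℝ := ε / (2 * (C + 1)) with hδ
  have hδ0 : 0 < δ := by positivity
  rw [Metric.tendstoUniformlyOn_iff] at ub uh
  obtain ⟨N, hN⟩ := eventually_atTop.1 ((ub δ hδ0).and (uh δ hδ0))
  refine ⟨N, fun k hk' => ?_⟩
  obtain ⟨h1, h2⟩ := hN k hk'
  have e1 := psi_ext_close ha (hbk k) hb hδ0.le (fun v hv => by
    have := h1 v hv
    rw [Real.dist_eq, abs_sub_comm] at this
    exact this.le)
  have e2 := psi_ext_close ha (hhk k) hh hδ0.le (fun v hv => by
    have := h2 v hv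
    rw [Real.dist_eq, abs_sub_comm] at this
    exact this.le)
  have key := exit_clk_nu_lip hn ha (psi_adm ha (hbk k) (hhk k)) (psi_adm ha hb hh) 2 (ghR2 p) (psi_R2 hp) P 1 δ δ hP e1 e2
  rw [Real.dist_eq]
  refine lt_of_le_of_lt key ?_
  have : C * (δ / 2 + δ) * 1 < ε := by
    have h3 : C * (δ / 2 + δ) * 1 = (3 / 4) * (C / (C + 1)) * ε := by
      rw [hδ]
      field_simp
      ring
    rw [h3]
    have h4 : C / (C + 1) ≤ 1 := by
      rw [div_le_one (by linarith)]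
      linarith
    nlinarith
  exact this

/-- dominated convergence for the weighted integrals -/
theorem psi_int_tendsto {a : ℝ} (Fk : ℕ → ℝ → ℝ) (F : ℝ → ℝ)
    (hm : ∀ k, AEStronglyMeasurable (Fk k) (volume.restrict (Ioo 0 a)))
    (hb : ∀ k, ∀ v ∈ Ioo 0 a, |Fk k v| ≤ 1) (hl : ∀ v ∈ Ioo 0 a, Tendsto (fun k => Fk k v) atTop (𝓝 (F v)))
    (φ : ℝ → ℝ) (hφ : IntegrableOn φ (Ioo 0 a)) :
    Tendsto (fun k => ∫ v in Ioo 0 a, Fk k v * φ v) atTop (𝓝 (∫ v in Ioo 0 a, F v * φ v)) := by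
  refine tendsto_integral_of_dominated_convergence (fun v => |φ v|) (fun k => (hm k).mul hφ.aestronglyMeasurable) hφ.abs ?_ ?_
  · intro k
    filter_upwards [ae_restrict_mem measurableSet_Ioo] with v hv
    rw [Real.norm_eq_abs, abs_mul]
    exact mul_le_of_le_one_left (abs_nonneg _) (hb k v hv)
  · filter_upwards [ae_restrict_mem measurableSet_Ioo] with v hv
    exact (hl v hv).mul_const _

theorem psi_meas_of_ii {a : ℝ} (ha : 0 < a) {F : ℝ → ℝ} (h : IntervalIntegrable F volume 0 a) :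
    AEStronglyMeasurable F (volume.restrict (Ioo 0 a)) := by
  rw [intervalIntegrable_iff_integrableOn_Ioc_of_le ha.le] at h
  exact h.aestronglyMeasurable.mono_measure (Measure.restrict_mono Ioo_subset_Ioc_self le_rfl)

/-! ### the instance -/

/-- **the SK pressure system** with `n` sites and terminal mass `a` -/
def skPSys (n : ℕ) (hn : 0 < n) (a : ℝ) (ha : 0 < a) : PSys where
  a := a
  a_pos := ha
  f := skPf n a
  S := skPS n a
  B := skPB n a
  f_congr := fun b h b' h' e1 e2 => by unfold skPf; rw [psi_ext_congr e1, psi_ext_congr e2]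
  S_congr := fun b h b' h' e1 e2 => by unfold skPS; rw [psi_ext_congr e1, psi_ext_congr e2]
  B_congr := fun b h b' h' e1 e2 => by unfold skPB; rw [psi_ext_congr e1, psi_ext_congr e2]
  S_mono := fun b h hb hh x hx y hy hxy =>
    (exit_clk_SB hn ha (psi_adm ha hb hh) (psi_posA_ok ⟨hx.1.le, hx.2.le⟩) (psi_posA_ok ⟨hy.1.le, hy.2.le⟩) (psi_posA_le hxy)).2.1
  B_mono := fun b h hb hh x hx y hy hxy =>
    (exit_clk_SB hn ha (psi_adm ha hb hh) (psi_posA_ok ⟨hx.1.le, hx.2.le⟩) (psi_posA_ok ⟨hy.1.le, hy.2.le⟩) (psi_posA_le hxy)).2.2.1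
  S_nonneg := fun b h hb hh v hv =>
    (exit_clk_SB hn ha (psi_adm ha hb hh) (psi_posA_ok ⟨hv.1.le, hv.2.le⟩) (psi_posA_ok ⟨hv.1.le, hv.2.le⟩) le_rfl).1
  S_sq_le := fun b h hb hh v hv =>
    (exit_clk_SB hn ha (psi_adm ha hb hh) (psi_posA_ok ⟨hv.1.le, hv.2.le⟩) (psi_posA_ok ⟨hv.1.le, hv.2.le⟩) le_rfl).2.2.2.1
  B_le := fun b h hb hh v hv =>
    (exit_clk_SB hn ha (psi_adm ha hb hh) (psi_posA_ok ⟨hv.1.le, hv.2.le⟩) (psi_posA_ok ⟨hv.1.le, hv.2.le⟩) le_rfl).2.2.2.2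
  seg := fun b0 h0 b1 h1 hb0 hh0 hb1 hh1 t ht => by
    have key := (exit_clk_pr_deriv hn ha (psi_adm ha hb0 hh0) (psi_adm ha hb1 hh1)).1 t ht
    have e : ∀ s ∈ Icc (0:ℝ) 1, skPf n a (clerp s b0 b1) (clerp s h0 h1)
        = skCPr n a (ckSeg s (clkExt a b0) (clkExt a b1)) (ckSeg s (clkExt a h0) (clkExt a h1)) := fun s hs => by
      unfold skPf
      rw [psi_ext_clerp ha hb0 hb1 hs, psi_ext_clerp ha hh0 hh1 hs]
    refine (key.congr e (e t ht)).congr_deriv ?_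
    unfold ckDPr skPB skPS
    rw [psi_ext_clerp ha hb0 hb1 ht, psi_ext_clerp ha hh0 hh1 ht, intervalIntegral.integral_of_le ha.le,
      intervalIntegral.integral_of_le ha.le, integral_Ioc_eq_integral_Ioo, integral_Ioc_eq_integral_Ioo]
    congr 2
    · exact setIntegral_congr_fun measurableSet_Ioo fun v hv => by
        simp only [psi_ext_of_mem b1 hv, psi_ext_of_mem b0 hv]
    · exact setIntegral_congr_fun measurableSet_Ioo fun v hv => by
        simp only [psi_ext_of_mem h1 hv, psi_ext_of_mem h0 hv]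
  cont_S := fun bk hk b h hbk hhk hb hh ub uh φ hφ => by
    refine psi_int_tendsto (fun k => skPS n a (bk k) (hk k)) (skPS n a b h)
      (fun k => psi_meas_of_ii ha (exit_clk_intble hn ha (psi_adm ha (hbk k) (hhk k))).1) ?_ ?_ φ hφ
    · intro k v hv
      have h1 := exit_clk_SB hn ha (psi_adm ha (hbk k) (hhk k)) (psi_posA_ok ⟨hv.1.le, hv.2.le⟩) (psi_posA_ok ⟨hv.1.le, hv.2.le⟩) le_rfl
      show |skCS n a _ _ _| ≤ 1
      rw [abs_of_nonneg h1.1]
      nlinarith [h1.2.2.2.1, h1.2.2.2.2, h1.1]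
    · intro v hv
      exact psi_nu_tendsto hn ha bk hk b h hbk hhk hb hh ub uh _ (fun σ => psi_ov_abs _ _) (psi_posA_ok ⟨hv.1.le, hv.2.le⟩)
  cont_B := fun bk hk b h hbk hhk hb hh ub uh φ hφ => by
    refine psi_int_tendsto (fun k => skPB n a (bk k) (hk k)) (skPB n a b h)
      (fun k => psi_meas_of_ii ha (exit_clk_intble hn ha (psi_adm ha (hbk k) (hhk k))).2.1) ?_ ?_ φ hφ
    · intro k v hv
      have h1 := exit_clk_SB hn ha (psi_adm ha (hbk k) (hhk k)) (psi_posA_ok ⟨hv.1.le, hv.2.le⟩) (psi_posA_ok ⟨hv.1.le, hv.2.le⟩) le_rfl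
      show |skCB n a _ _ _| ≤ 1
      rw [abs_of_nonneg ((sq_nonneg _).trans h1.2.2.2.1)]
      exact h1.2.2.2.2
    · intro v hv
      refine psi_nu_tendsto hn ha bk hk b h hbk hhk hb hh ub uh _ (fun σ => ?_) (psi_posA_ok ⟨hv.1.le, hv.2.le⟩)
      rw [abs_pow]
      exact pow_le_one₀ (abs_nonneg _) (psi_ov_abs _ _)

theorem psi_sys_eqns_cite : True := by
  have := @skPSys.eq_1
  trivial

end

end Claimed.Agent.R286
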