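-- KEEP
import Claimed.Agent.R286.Bud.Mom
import Claimed.Agent.R286.Exit.PSysInst
import Claimed.Agent.R286.Brg.Osc

/-!
# Row 286 (S0533), EXIT `BudWorld`      OWNER helper162      (prefix `bw_`, def `skWorld`)

**THE INSTANCE of the placeholder world `BdWorld` of LL sec. 7** (`Bud/Defs.lean`, 157): pressure systems = `skPSys m 1` (`Exit/PSysInst`, 207),
scalar response, one-site pressure, tree numbers, single-path norms = the numbers of `Defs/Clk.lean` (`Bud/Mom.lean`, 198).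
`skWorld_isHub : skWorld.IsHub` (= `skWorld.IsSk` of `Bud/L8Defs`), 0 own sorry.      All theorems of `R286/Bud` with `(hW : W.IsHub)` are applied to `skWorld`.

BRIDGE raw clocks <-> clocks read on `(0,a)`:  `ClkEnd a c` (no jump at the terminal mass: `c a = sup_{(0,a)} c`).  For `IsClock a b`, `IsClock a h`, `ClkEnd a b`, `ClkEnd a h`:
`bw_pf_eq : skPf n a b h = skCPr n a b h`, `bw_pS_eq`, `bw_pB_eq`, `bw_nu_eq` (all tree numbers).   (`llBase.pres = skCPr` reads `c a`; `skPSys`, `skWorld` do not.)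
-/

set_option autoImplicit false

namespace Claimed.Agent.R286

open MeasureTheory Set Filter Topology

noncomputable section

/-- the two extensions of a clock on `(0,1)` are the same function -/
theorem bw_ext_eq : bmExt = clkExt 1 := rfl

/-- **the SK world** at terminal mass `1` (`ps 0` is a dummy) -/
def skWorld : BdWorld where
  ps m := if hm : 0 < m then skPSys m hm 1 one_pos else skPSys 1 one_pos 1 one_pos
  Gam := bmGam
  fsp K := skCPr 1 1 0 (bmExt K)
  nu m b h q cut P := skCNu m 1 (bmExt b) (bmExt h) q (bmTree cut) (bmTest m q P)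
  nLc m b h p κ := limsup (fun F : Finset GhPos => bmN1 m 1 (skCStp 1 (bmExt b) (bmExt h) 0 0 (ghPs 1 F)) p fun ξ σ =>
      ∫ v in (0 : ℝ)..1, κ v * bmLc m 1 (skCStp 1 (bmExt b) (bmExt h) 0 0 (ghPs 1 F))
        (ghIdx (ghPs 1 F) ((ghPosA v : GhPos) : WithTop GhPos)) ξ σ) atTop
  nWw m b h p κ := limsup (fun F : Finset GhPos => bmN1 m 1 (skCStp 1 (bmExt b) (bmExt h) 0 0 (ghPs 1 F)) p fun ξ σ =>
      ∫ v in (0 : ℝ)..1, κ v * obW m 1 (skCStp 1 (bmExt b) (bmExt h) 0 0 (ghPs 1 F)) 0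
        (ghIdx (ghPs 1 F) ((ghPosA v : GhPos) : WithTop GhPos)) ξ σ) atTop
  trC2 m b h v := limsup (fun F : Finset GhPos => obTrC2 m 1 (skCStp 1 (bmExt b) (bmExt h) 0 0 (ghPs 1 F)) 0
      (ghIdx (ghPs 1 F) ((ghPosA v : GhPos) : WithTop GhPos))) atTop

theorem bw_eqns_cite : True := by
  have := @skWorld.eq_1
  trivial

theorem bw_ps {m : ℕ} (hm : 0 < m) : skWorld.ps m = skPSys m hm 1 one_pos := by
  simp [skWorld, hm]

theorem skWorld_isHub : skWorld.IsHub where
  a1 := fun m => by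
    by_cases hm : 0 < m
    · rw [bw_ps hm]; rfl
    · simp only [skWorld, hm, dif_neg, not_false_eq_true]; rfl
  f := fun m hm b h _ _ => by rw [bw_ps hm]; rfl
  S := fun m hm b h _ _ v _ => by rw [bw_ps hm]; rfl
  B := fun m hm b h _ _ v _ => by rw [bw_ps hm]; rfl
  Gam := fun _ _ _ _ => rfl
  fsp := fun _ _ => rfl
  nu := fun _ _ _ _ _ _ _ _ => rfl
  nLc := fun _ _ _ _ _ _ _ => rfl
  nWw := fun _ _ _ _ _ _ _ => rfl
  trC2 := fun _ _ _ _ _ _ _ => rfl

/-! ### raw clocks and clocks read on `(0,a)` -/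

/-- no jump at the terminal mass -/
def ClkEnd (a : ℝ) (c : ℝ → ℝ) : Prop := c a = sSup (c '' Ioo 0 a)

theorem bw_end_eqns_cite : True := by
  have := @ClkEnd.eq_1
  trivial

theorem bw_clamp_eq {a : ℝ} (ha : 0 < a) {c : ℝ → ℝ} (he : ClkEnd a c) {u : ℝ} (hu : u ≠ 0) :
    ghClamp a c u = ghClamp a (clkExt a c) u := by
  unfold ghClamp
  by_cases h0 : u < 0
  · simp [h0]
  · have hpos : 0 < u := lt_of_le_of_ne (not_lt.1 h0) (Ne.symm hu)
    simp only [h0, if_false]
    by_cases h1 : u < a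
    · rw [min_eq_left h1.le, psi_ext_of_mem c ⟨hpos, h1⟩]
    · rw [min_eq_right (not_lt.1 h1)]
      unfold clkExt
      simp only [not_le.2 ha, lt_irrefl, if_false]
      exact he

theorem bw_at_eq {a : ℝ} (ha : 0 < a) {c : ℝ → ℝ} (hc : IsClock a c) (he : ClkEnd a c) (p : GhPos) :
    ghAt a c p = ghAt a (clkExt a c) p := by
  have hm : Monotone (ghClamp a (clkExt a c)) := gh_os_clamp_mono ha.le (psi_ext_clk ha hc)
  have hl : Function.leftLim (ghClamp a c) p.u = Function.leftLim (ghClamp a (clkExt a c)) p.u := by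
    refine leftLim_eq_of_tendsto ((hm.tendsto_leftLim p.u).congr' ?_)
    have h1 : ∀ᶠ u in 𝓝[<] p.u, u ≠ 0 := by
      rcases lt_or_ge 0 p.u with h | h
      · filter_upwards [Ioo_mem_nhdsLT h] with u hu using hu.1.ne'
      · filter_upwards [self_mem_nhdsWithin] with u hu using (lt_of_lt_of_le hu h).ne
    filter_upwards [h1] with u hu using (bw_clamp_eq ha he hu).symm
  have hr : Function.rightLim (ghClamp a c) p.u = Function.rightLim (ghClamp a (clkExt a c)) p.u := by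
    refine rightLim_eq_of_tendsto ((hm.tendsto_rightLim p.u).congr' ?_)
    have h1 : ∀ᶠ u in 𝓝[>] p.u, u ≠ 0 := by
      rcases lt_or_ge p.u 0 with h | h
      · filter_upwards [Ioo_mem_nhdsGT h] with u hu using hu.2.ne
      · filter_upwards [self_mem_nhdsWithin] with u hu using (lt_of_le_of_lt h hu).ne'
    filter_upwards [h1] with u hu using (bw_clamp_eq ha he hu).symm
  unfold ghAt
  rw [hl, hr]

theorem bw_stp_eq {a : ℝ} (ha : 0 < a) {b h : ℝ → ℝ} (hb : IsClock a b) (hh : IsClock a h) (eb : ClkEnd a b)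
    (eh : ClkEnd a h) (ps : List GhPos) (b0 h0 : ℝ) :
    skCStp a b h b0 h0 ps = skCStp a (clkExt a b) (clkExt a h) b0 h0 ps := by
  induction ps generalizing b0 h0 with
  | nil => rfl
  | cons p ps ih =>
    simp only [skCStp]
    rw [bw_at_eq ha hb eb p, bw_at_eq ha hh eh p, ih]

theorem bw_pf_eq (n : ℕ) {a : ℝ} (ha : 0 < a) {b h : ℝ → ℝ} (hb : IsClock a b) (hh : IsClock a h) (eb : ClkEnd a b)
    (eh : ClkEnd a h) : skPf n a b h = skCPr n a b h := by
  unfold skPf skCPr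
  simp only [bw_stp_eq ha hb hh eb eh]

theorem bw_nu_eq (n : ℕ) {a : ℝ} (ha : 0 < a) {b h : ℝ → ℝ} (hb : IsClock a b) (hh : IsClock a h) (eb : ClkEnd a b)
    (eh : ClkEnd a h) (q : ℕ) (τ : ℕ → ℕ → WithTop GhPos) (P : (Fin q → SkCfg n) → ℝ) :
    skCNu n a (clkExt a b) (clkExt a h) q τ P = skCNu n a b h q τ P := by
  unfold skCNu
  simp only [bw_stp_eq ha hb hh eb eh]

theorem bw_pS_eq (n : ℕ) {a : ℝ} (ha : 0 < a) {b h : ℝ → ℝ} (hb : IsClock a b) (hh : IsClock a h) (eb : ClkEnd a b)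
    (eh : ClkEnd a h) (v : ℝ) : skPS n a b h v = skCS n a b h (ghPosA v) :=
  bw_nu_eq n ha hb hh eb eh _ _ _

theorem bw_pB_eq (n : ℕ) {a : ℝ} (ha : 0 < a) {b h : ℝ → ℝ} (hb : IsClock a b) (hh : IsClock a h) (eb : ClkEnd a b)
    (eh : ClkEnd a h) (v : ℝ) : skPB n a b h v = skCB n a b h (ghPosA v) :=
  bw_nu_eq n ha hb hh eb eh _ _ _

/-- a clock which is continuous from the left at the terminal mass has no jump there -/
theorem bw_end_of_tendsto {a : ℝ} (ha : 0 < a) {c : ℝ → ℝ} (hc : IsClock a c) (h : Tendsto c (𝓝[<] a) (𝓝 (c a))) :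
    ClkEnd a c :=
  tendsto_nhds_unique h (psi_tendsto ha hc)

/-- **EXIT**: the world of LL sec. 7 exists -/
theorem exit_bud_world : ∃ W : BdWorld, W.IsHub := ⟨skWorld, skWorld_isHub⟩

end

end Claimed.Agent.R286
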