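-- KEEP
import Claimed.Agent.R286.Cav.Gam

/-!
# Row 286 (S0533), EXIT `CavGam`      PROVED by helper266 (`Cav/Gam.lean`, `cvg_exit`; this file and `Cav/Gam` must NOT import `Cav/Contract`);   asked by 142 (O2), 98, 33

**`Γ(K)` of PE Prop 4.1 on the PATH clock.**   `cvGamC n b h p` is DEFINED as the limit along the net of chains of the step numbers `cvGam` (scalar site with the clock `K_F = h + b S_F` of the chain `F`).   This exit says:
(1) the limit exists;   (2) `K(u) = h(u) + b(u) S_u` is an admissible clock;   (3) at the positions after the jumps `cvGamC` is the number `S` of the system of size `1` with the field clock `K`.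
Proof: `S_F → S` uniformly on the chain (`exit_clk_lim_stat`) + `exit_clkLip` for `n = 1` + `exit_clk_lim_nu` for `n = 1`.      Then `Sc/Link` (205/102) turns `skCS 1 1 0 K` into the scalar library.
-/

set_option autoImplicit false

namespace Claimed.Agent.R286

theorem exit_cav_gam (n : ℕ) (hn : 0 < n) (b h : ℝ → ℝ) (hb : GhClk1 1 b) (hh : GhClk1 1 h) :
    (∀ p : GhPos, p.Ok 1 → GhLimEx 1 fun l => cvGam n (skCStp 1 b h 0 0 l) (ghIdx l p)) ∧ GhClk1 1 (cvKf n b h) ∧
      ∀ u : ℝ, 0 ≤ u → u ≤ 1 → cvGamC n b h (ghPosA u) = cvGamP n b h u :=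
  cvg_exit hn hb hh

end Claimed.Agent.R286
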