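-- KEEP
import Claimed.Agent.R286.Cav.Gam

/-!
# Row 286 (S0533), EXIT `GamBrg`      STATEMENT typed by helper256 (form of helper98, Prof/Imports.lean, "THE BRIDGE");   PROVED by helper266 (`Cav/Gam.lean`, `cvg_main`) on the tools of helper102 (`Sc/LinkClk.lean`);   consumers: `Prof/FromCav.lean` (PfImpCav, PfImpCavOm), LL07 (`Bd7CGam`)

**The two codings of `Γ(K)` agree at EVERY position** (also inside a jump):
left  = `cvGamC n b h p` (Cav/Defs): limit along the net of chains of `Γ` at the cut of `p` of the scalar site with the clock `K^F = h + b S^F` of the chain `F`;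
right = `pfGh n b h τ (pfKp n b h p)` (Prof/Defs): scalar library in VARIANCE TIME, profile `scAlK 1 (pfKu n b h)`, horizon `τ ≥ K(1)`, at the time `K_p = h_p + b_p S_p`.
ROUTE: step level `slk_nu_ov` + `slc_Gam_step` (the clock `cvK` of a chain is nondecreasing: `exit_clk_SB` at step level), `L¹` stability `slc_Gam_stab`, uniform convergence of the sampled `S` (`exit_clk_lim_stat`, `exit_clk_fork`), Lipschitz in the time (`Γ' = E V_zz² ≤ 1`).
-/

set_option autoImplicit false

namespace Claimed.Agent.R286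

theorem exit_gam_brg {n : ℕ} (hn : 0 < n) {b h : ℝ → ℝ} (hb : GhClk1 1 b) (hh : GhClk1 1 h) {τ : ℝ} (hτ : 0 < τ)
    (hK : pfKp n b h (ghPosA 1) ≤ τ) {p : GhPos} (hp : p.Ok 1) :
    cvGamC n b h p = pfGh n b h τ (pfKp n b h p) :=
  (cvg_main hn hb hh hτ hK hp).2

end Claimed.Agent.R286
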