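import Claimed.Agent.R286.Bud.L07S
import Claimed.Agent.R286.Bud.Mom
import Claimed.Agent.R286.Sc.Contract
import Claimed.Agent.R286.Brg.Osc

/-!
# Row 286 (S0533), EXIT `ScBd7`: THE INSTANCE of the scalar API `Bd7Sc.Ok` of LL sec. 7, Step 2 (`Bud/L07S.lean`, helper12)      OWNER: helper265 (prefix `sb7_`)

`sb7Sc τ : Bd7Sc`:  `G1 K = E V_zz²`, `P3 K = E V_zzz²`, `B2 K = 2 E V_zz³`, `a2 K = V_zz(0,0)`, `a4 K = V_zzzz(0,0)` of the scalar Parisi equation in variance time on `[0,τ]`,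
terminal datum `log cosh`, coefficient `α = scAlK 1 K = bdDist K` (`= 1` after the end of the clock: horizon extension at the mass `1`).
EXIT: `sb7_ok = exit_sc_bd7 : W.IsHub → 0 < Tmax → Kmax ≤ Tmax → ∃ c2 C2 c4 C4 Csc, (sb7Sc Tmax).Ok W ⟨Kmax, Tmax, c2, C2, c4, C4, Csc⟩`.
ALSO (users: helper250 `sc2_req`, helper6 N12, helper33 `Bd7CGam`): `sb7_gam : bmGam K t = scaGam (scLC 1) (scAlK 1 K) τ t` for a clock `K ≤ τ` on `(0,1)`, `0 ≤ t ≤ τ`;   `sb7_alK_eq : scAlK 1 K = bdDist K`.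
Proved from the contract `Sc/Contract.lean` (`sc_x_S, sc_x_Gam, sc_x_M2, sc_x_cont, sc_x_exp, sc_x_hopf, sc_x_alK`) + the position lemma `sb7_pos` (the clock reaches the time `t` at `bmPosT`).
-/

set_option autoImplicit false

namespace Claimed.Agent.R286

open MeasureTheory Set Filter Topology Function

noncomputable section

/-! ## 1. the position at which a clock reaches the time `t` -/

/-- generalised inverse of a monotone function -/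
theorem sb7_inv {C : ℝ → ℝ} (hC : Monotone C) {t : ℝ} (h0 : ∀ u < 0, C u ≤ t) (h1 : t ≤ rightLim C 1) :
    0 ≤ sInf {v : ℝ | 0 ≤ v ∧ t ≤ rightLim C v} ∧ sInf {v : ℝ | 0 ≤ v ∧ t ≤ rightLim C v} ≤ 1 ∧
      leftLim C (sInf {v : ℝ | 0 ≤ v ∧ t ≤ rightLim C v}) ≤ t ∧ t ≤ rightLim C (sInf {v : ℝ | 0 ≤ v ∧ t ≤ rightLim C v}) := by
  set A : Set ℝ := {v : ℝ | 0 ≤ v ∧ t ≤ rightLim C v} with hA
  have h1A : (1 : ℝ) ∈ A := ⟨zero_le_one, h1⟩
  have hbd : BddBelow A := ⟨0, fun b hb => hb.1⟩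
  refine ⟨le_csInf ⟨1, h1A⟩ fun b hb => hb.1, csInf_le hbd h1A, ?_, ?_⟩
  · refine le_of_tendsto (hC.tendsto_leftLim (sInf A)) ?_
    filter_upwards [self_mem_nhdsWithin] with u hu
    by_cases hu0 : u < 0
    · exact h0 u hu0
    · by_contra hc
      rw [not_le] at hc
      have : u ∈ A := ⟨not_lt.1 hu0, hc.le.trans (hC.le_rightLim le_rfl)⟩
      exact absurd (csInf_le hbd this) (not_le.2 hu)
  · refine ge_of_tendsto (hC.tendsto_rightLim (sInf A)) ?_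
    filter_upwards [self_mem_nhdsWithin] with u hu
    obtain ⟨v', hv', hv'u⟩ := exists_lt_of_csInf_lt ⟨1, h1A⟩ hu
    exact hv'.2.trans (hC.rightLim_le hv'u)

/-- **the position lemma** -/
theorem sb7_pos {c : ℝ → ℝ} (hc : GhClk1 1 c) {t : ℝ} (ht0 : 0 ≤ t) (ht1 : t ≤ c 1) :
    (bmPosT c t).Ok 1 ∧ ghAt 1 c (bmPosT c t) = t := by
  have hC := gh_os_clamp_mono zero_le_one hc
  obtain ⟨a1, a2, a3, a4⟩ := sb7_inv hC (t := t) (fun u hu => by simp [ghClamp, hu, ht0])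
    (by rw [gh_os_right_top 1 c zero_le_one le_rfl]; exact ht1)
  set v := sInf {v : ℝ | 0 ≤ v ∧ t ≤ rightLim (ghClamp 1 c) v} with hv
  have hp : bmPosT c t = ghPosF v (if rightLim (ghClamp 1 c) v = leftLim (ghClamp 1 c) v then 1
      else (t - leftLim (ghClamp 1 c) v) / (rightLim (ghClamp 1 c) v - leftLim (ghClamp 1 c) v)) := by
    simp only [bmPosT, gh_os_at_posA, gh_os_at_posB]
    rfl
  rw [hp]
  by_cases h : rightLim (ghClamp 1 c) v = leftLim (ghClamp 1 c) v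
  · rw [if_pos h]
    refine ⟨⟨a1, a2, zero_le_one, le_rfl⟩, ?_⟩
    simp only [ghAt, ghPosF, GhPos.u, GhPos.lam, ofLex_toLex]
    rw [h] at a4 ⊢
    linarith
  · rw [if_neg h]
    have hlt : 0 < rightLim (ghClamp 1 c) v - leftLim (ghClamp 1 c) v := by
      have : leftLim (ghClamp 1 c) v ≤ rightLim (ghClamp 1 c) v := a3.trans a4
      rcases this.eq_or_lt with h' | h'
      · exact absurd h'.symm h
      · linarith
    refine ⟨⟨a1, a2, div_nonneg (by linarith) hlt.le, (div_le_one hlt).2 (by linarith)⟩, ?_⟩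
    simp only [ghAt, ghPosF, GhPos.u, GhPos.lam, ofLex_toLex]
    field_simp
    ring

/-! ## 2. the extended clock -/

theorem sb7_sSup_le {K : ℝ → ℝ} {M : ℝ} (hM : ∀ v ∈ Ioo (0 : ℝ) 1, K v ≤ M) : sSup (K '' Ioo 0 1) ≤ M := by
  refine csSup_le ⟨K (1 / 2), 1 / 2, by constructor <;> norm_num, rfl⟩ ?_
  rintro _ ⟨v, hv, rfl⟩
  exact hM v hv

theorem sb7_ext_one (K : ℝ → ℝ) : bmExt K 1 = sSup (K '' Ioo 0 1) := by
  simp [bmExt]

theorem sb7_extT_one (K : ℝ → ℝ) (t : ℝ) : bmExtT K t 1 = max (sSup (K '' Ioo 0 1)) t := by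
  simp [bmExtT, sb7_ext_one]

theorem sb7_extT_of_mem (K : ℝ → ℝ) (t : ℝ) {v : ℝ} (hv : v ∈ Ioo (0 : ℝ) 1) : bmExtT K t v = K v := by
  simp [bmExtT, bmExt, hv.2, not_le.2 hv.1]

theorem sb7_ext_clk {c : ℝ → ℝ} (h : IsClock 1 c) : GhClk1 1 (bmExt c) := by
  obtain ⟨C, hC⟩ := h.bdd
  have hbdd : BddAbove (c '' Ioo 0 1) := ⟨C, by rintro _ ⟨v, hv, rfl⟩; exact hC v hv⟩
  refine ⟨?_, by simp [bmExt]⟩
  intro u _ u' _ huu
  simp only [bmExt]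
  by_cases h0 : u ≤ 0
  · rw [if_pos h0]
    by_cases h0' : u' ≤ 0
    · rw [if_pos h0']
    · rw [if_neg h0']
      by_cases h1' : u' < 1
      · rw [if_pos h1']; exact h.nonneg u' ⟨not_le.1 h0', h1'⟩
      · rw [if_neg h1']
        have hm : (1 / 2 : ℝ) ∈ Ioo (0 : ℝ) 1 := by constructor <;> norm_num
        exact (h.nonneg _ hm).trans (le_csSup hbdd ⟨_, hm, rfl⟩)
  · have h0' : ¬ u' ≤ 0 := fun hh => h0 (huu.trans hh)
    rw [if_neg h0, if_neg h0']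
    by_cases h1' : u' < 1
    · have h1 : u < 1 := lt_of_le_of_lt huu h1'
      rw [if_pos h1, if_pos h1']
      exact h.mono ⟨not_le.1 h0, h1⟩ ⟨not_le.1 h0', h1'⟩ huu
    · rw [if_neg h1']
      by_cases h1 : u < 1
      · rw [if_pos h1]; exact le_csSup hbdd ⟨u, ⟨not_le.1 h0, h1⟩, rfl⟩
      · rw [if_neg h1]

theorem sb7_extT_clk {K : ℝ → ℝ} (h : IsClock 1 K) (t : ℝ) : GhClk1 1 (bmExtT K t) := by
  have hE := sb7_ext_clk h
  refine ⟨?_, by simp [bmExtT, bmExt]⟩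
  intro u hu u' hu' huu
  simp only [bmExtT]
  by_cases h1' : u' < 1
  · rw [if_pos (lt_of_le_of_lt huu h1'), if_pos h1']
    exact hE.1 hu hu' huu
  · rw [if_neg h1']
    by_cases h1 : u < 1
    · rw [if_pos h1]
      exact (hE.1 hu (right_mem_Icc.2 zero_le_one) hu.2).trans (le_max_left _ _)
    · rw [if_neg h1]

/-- the mass profile only sees the clock on `(0,1)` -/
theorem sb7_alK_extT (K : ℝ → ℝ) (t : ℝ) : scAlK 1 (bmExtT K t) = scAlK 1 K := by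
  funext s
  have e : {v : ℝ | v ∈ Ioo (0 : ℝ) 1 ∧ bmExtT K t v ≤ s} = {v : ℝ | v ∈ Ioo (0 : ℝ) 1 ∧ K v ≤ s} := by
    ext v
    constructor
    · rintro ⟨hv, h⟩; exact ⟨hv, by rwa [sb7_extT_of_mem K t hv] at h⟩
    · rintro ⟨hv, h⟩; exact ⟨hv, by rwa [sb7_extT_of_mem K t hv]⟩
  show (volume {v : ℝ | v ∈ Ioo (0 : ℝ) 1 ∧ bmExtT K t v ≤ s}).toReal = (volume {v : ℝ | v ∈ Ioo (0 : ℝ) 1 ∧ K v ≤ s}).toReal
  rw [e]

theorem sb7_alK_eq (K : ℝ → ℝ) : scAlK 1 K = bdDist K := rfl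

/-- **the scalar response of the world is `scaGam`** -/
theorem sb7_gam {K : ℝ → ℝ} (hK : IsClock 1 K) {τ t : ℝ} (hKτ : ∀ v ∈ Ioo (0 : ℝ) 1, K v ≤ τ) (ht0 : 0 ≤ t) (htτ : t ≤ τ)
    (hτ : 0 < τ) : bmGam K t = scaGam (scLC 1) (scAlK 1 K) τ t := by
  have hc := sb7_extT_clk hK t
  have h1 : bmExtT K t 1 ≤ τ := by
    rw [sb7_extT_one]
    exact max_le (sb7_sSup_le hKτ) htτ
  obtain ⟨hok, hat⟩ := sb7_pos hc ht0 (by rw [sb7_extT_one]; exact le_max_right _ _)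
  have := sc_x_S one_pos hτ hc h1 hok
  rw [hat, sb7_alK_extT] at this
  exact this

/-! ## 3. the instance -/

/-- the scalar data at the horizon `τ` -/
def sb7Sc (τ : ℝ) : Bd7Sc where
  G1 K t := scaM2 (scLC 1) (scAlK 1 K) τ t
  P3 K t := scaN3 (scLC 1) (scAlK 1 K) τ t
  B2 K t := 2 * scaM3 (scLC 1) (scAlK 1 K) τ t
  a2 K := scaD 2 (scLC 1) (scAlK 1 K) τ 0 0
  a4 K := scaD 4 (scLC 1) (scAlK 1 K) τ 0 0

/-- **EXIT: the scalar API of LL sec. 7, Step 2** -/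
theorem sb7_ok {W : BdWorld} (hW : W.IsHub) {Kmax Tmax : ℝ} (hT : 0 < Tmax) (hKT : Kmax ≤ Tmax) :
    ∃ c2 C2 c4 C4 Csc : ℝ, (sb7Sc Tmax).Ok W ⟨Kmax, Tmax, c2, C2, c4, C4, Csc⟩ := by
  obtain ⟨c, C, hc, hh⟩ := sc_x_hopf (a := 1) one_pos hT
  obtain ⟨Ce, he⟩ := sc_x_exp (a := 1) one_pos hT
  have hα : ∀ K : ℝ → ℝ, ScCoef 1 Tmax (scAlK 1 K) := fun K => sc_x_alK one_pos K
  have h0 : (0 : ℝ) ∈ Icc 0 Tmax := left_mem_Icc.2 hT.le
  have hCe : 0 ≤ Ce := by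
    have := (he _ (hα fun _ => 0) Tmax (right_mem_Icc.2 hT.le)).2.1
    have h1 := (abs_nonneg _).trans this
    have h2 : 0 < Real.sqrt Tmax := Real.sqrt_pos.2 hT
    by_contra hneg
    rw [not_le] at hneg
    nlinarith
  refine ⟨c, C, c, C, 2 * Ce, ?_⟩
  refine
    { c2_pos := hc
      c4_pos := hc
      gam := ?_
      gam1 := ?_
      P3_cont := fun K _ _ => (sc_x_cont one_pos hT (hα K)).2.2.2.1
      B2_cont := fun K _ _ => continuousOn_const.mul (sc_x_cont one_pos hT (hα K)).2.2.1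
      P3_exp := ?_
      B2_exp := ?_
      a2_mem := fun K _ _ => ⟨(hh Tmax hT le_rfl _ (hα K) 0 h0).1, (hh Tmax hT le_rfl _ (hα K) 0 h0).2.1⟩
      a4_mem := fun K _ _ => ⟨(hh Tmax hT le_rfl _ (hα K) 0 h0).2.2.1, (hh Tmax hT le_rfl _ (hα K) 0 h0).2.2.2⟩ }
  · intro K hK hKm t ht
    rw [hW.Gam K hK t ht.1, sb7_gam hK (fun v hv => (hKm v hv).trans hKT) ht.1 ht.2 hT, sc_x_Gam one_pos hT (hα K) ht]
    rfl
  · intro K hK _ t ht
    have := sc_x_M2 one_pos hT (hα K) h0 ht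
    have e : ∫ r in (0 : ℝ)..t, (scaN3 (scLC 1) (scAlK 1 K) Tmax r - 2 * scAlK 1 K r * scaM3 (scLC 1) (scAlK 1 K) Tmax r)
        = ∫ τ in (0 : ℝ)..t, ((sb7Sc Tmax).P3 K τ - (sb7Sc Tmax).B2 K τ * bdDist K τ) := by
      refine intervalIntegral.integral_congr fun r _ => ?_
      show _ = scaN3 (scLC 1) (scAlK 1 K) Tmax r - 2 * scaM3 (scLC 1) (scAlK 1 K) Tmax r * scAlK 1 K r
      ring
    rw [e] at this
    show scaM2 (scLC 1) (scAlK 1 K) Tmax t = scaM2 (scLC 1) (scAlK 1 K) Tmax 0 + _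
    linarith
  · intro K _ _ t ht
    have h1 := (he _ (hα K) t ht).1
    have h2 : 0 ≤ Ce * (t * Real.sqrt t) := mul_nonneg hCe (mul_nonneg ht.1 (Real.sqrt_nonneg _))
    show |scaN3 (scLC 1) (scAlK 1 K) Tmax t - scaD 4 (scLC 1) (scAlK 1 K) Tmax 0 0 ^ 2 * t| ≤ 2 * Ce * (t * Real.sqrt t)
    linarith
  · intro K _ _ t ht
    have h1 := (he _ (hα K) t ht).2.1
    show |2 * scaM3 (scLC 1) (scAlK 1 K) Tmax t - 2 * scaD 2 (scLC 1) (scAlK 1 K) Tmax 0 0 ^ 3| ≤ 2 * Ce * Real.sqrt t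
    rw [← mul_sub, abs_mul, abs_of_pos (by norm_num : (0 : ℝ) < 2)]
    linarith

/-- **EXIT** -/
theorem exit_sc_bd7 {W : BdWorld} (hW : W.IsHub) {Kmax Tmax : ℝ} (hT : 0 < Tmax) (hKT : Kmax ≤ Tmax) :
    ∃ c2 C2 c4 C4 Csc : ℝ, (sb7Sc Tmax).Ok W ⟨Kmax, Tmax, c2, C2, c4, C4, Csc⟩ := sb7_ok hW hT hKT

end

end Claimed.Agent.R286
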