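-- KEEP
import Claimed.Agent.R286.Cmp.ProjX

/-!
# Row 286 (S0533), EXIT `CmpProj`      OWNER helper192 (package P05, block C4);   source: PE comparisons.tex l.330-400 (Lemma 3.5, (13)), companion-interface.tex l.105-125;   adversary helper38

**PE Lemma 3.5 (projection after a field clock interval), (13)**, on ANY finite Gaussian hierarchy of `Defs/Gh.lean` (SK, rest system, one site, ...), POINTWISE in the revealed field `z`
(= in the prefix and in all outside data: the anchor `V` is FIXED; random anchors are integrated by the user, after conditioning at the fork).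
STRONGER than the paper: NO logarithm, no lower bounds by inverse powers of `n`, any terminal mass `a`, no mesh condition.
Vocabulary: `Cmp/Proj.lean`.      Remaining levels `lsA ++ Q ++ R1 ++ R2 ++ R3`; `Q` = the field clock interval, each level `e ∈ Q` with a driver direction `e.η`, `e.l.inc e.η = e.c • Φ`, `|e.η| ≤ v`, `|Φ| ≤ v`;
`T(Q) = ∑ c²`.      SK: `Φ = V·y`, `v = |V|`, `η = V` on the field drivers, `c = √(n dh)`, `T(Q) = n D_h`.
* first line : residual `Φ - E[Φ | cut after R1]` (`R1 = []`: at the end of the interval);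
* second line: difference of the two later projections after `R1` and after `R1 ++ R2`.
Route: `cmj_proj` (Cmp/ProjX.lean).      Instances: `cmj_spi_proj` (`L8P.Proj` for `spiP`, Cmp/ProjL8.lean), `cmj_sk_st` (SK step paths).
-/

set_option autoImplicit false

namespace Claimed.Agent.R286

/-- TEX[PE:comp:projection] -/
theorem exit_cmp_proj (p : ℕ) (hp : Even p) (hp2 : 2 ≤ p) : ∃ C : ℝ, 0 < C ∧
    ∀ (S ι : Type) [Fintype S] [Fintype ι] (B : GhB S) (lsA : List (GhLv S ι)) (Q : List (CmjSt S ι)) (R1 R2 R3 : List (GhLv S ι))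
      (Φ : S → ℝ) (v vm : ℝ) (z : S → ℝ),
      B.Ok → GhNn lsA → GhAdm B vm (cmjLs Q ++ (R1 ++ (R2 ++ R3))) → 0 < vm → (∀ s, |Φ s| ≤ v) → (∀ e ∈ Q, e.Ok Φ v) → 0 < cmjT Q →
      cmjA B (lsA ++ (cmjLs Q ++ R1)) (R2 ++ R3) Φ p z ≤ C * v ^ p / (vm ^ p * cmjT Q ^ (p / 2)) ∧
      cmjA2 B (lsA ++ (cmjLs Q ++ R1)) R2 R3 Φ p z ≤ C * v ^ p / (vm ^ p * cmjT Q ^ (p / 2)) :=
  cmj_proj p hp hp2

end Claimed.Agent.R286
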