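-- KEEP
import Claimed.Agent.R286.LL04.Bare
import Claimed.Agent.R286.LL.PathsBase
import Claimed.Agent.R286.Exit.BudWorld

/-!
# Row 286 (S0533), EXITS `Bare`, `A1L`      OWNER helper245 (unit LL04);   consumer: `llc_incr` (LL/Chain, 224) => `exit_incr`

The supplies (BARE) and (A1-Lip) of LL04/Defs AT THE CONCRETE BASE `llBase`.      TEX[LL:red:prop-dyadic] TEX[LL:found:estimates]
* `exit_bare` PROVED outright (LL04/Bare: a step clock is reached exactly + LL04/Bridge).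
* `exit_a1l`  PROVED from `exit_clk_pr_lip` (Exit/ClkPr, unit BRIDGE).
v2 (helper272, 15 Oct 04:10Z): `llBase.pres = skPf` (clocks read on `(0,a)` only).
-/

set_option autoImplicit false

namespace Claimed.Agent.R286

open MeasureTheory Set

theorem exit_a1l : Ll04A1 llBase := by
  intro m a b h b' h' hm ha hb hh hb' hh'
  have h1 := exit_clk_pr_lip (n := m) (by omega) ha
    (psi_adm ha (llb_isClock ha hb) (llb_isClock ha hh)) (psi_adm ha (llb_isClock ha hb') (llb_isClock ha hh'))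
  rw [llb_int ha, llb_int ha] at h1
  have e : llBase.f m a b h - llBase.f m a b' h'
      = skCPr m a (clkExt a b) (clkExt a h) - skCPr m a (clkExt a b') (clkExt a h') := rfl
  rw [e]
  linarith

theorem ll04s_end_const {a : ℝ} (ha : 0 < a) (c : ℝ) : ClkEnd a (fun _ => c) := by
  unfold ClkEnd
  rw [(nonempty_Ioo.2 ha).image_const, csSup_singleton]

theorem ll04s_clk_const {a c : ℝ} (hc : 0 ≤ c) : IsClock a (fun _ => c) :=
  ⟨fun _ _ _ _ _ => le_rfl, fun _ _ => hc, ⟨c, fun _ _ => le_rfl⟩⟩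

theorem ll04s_clk_tilt {a c : ℝ} (hc : 0 ≤ c) (s : ℝ) : IsClock a (fun v => if s ≤ v then c else 0) := by
  refine ⟨fun x _ y _ hxy => ?_, fun v _ => ?_, ⟨c, fun v _ => ?_⟩⟩
  · by_cases h1 : s ≤ x
    · simp [h1, h1.trans hxy]
    · by_cases h2 : s ≤ y <;> simp [h1, h2, hc]
  · by_cases h1 : s ≤ v <;> simp [h1, hc]
  · by_cases h1 : s ≤ v <;> simp [h1, hc]

theorem ll04s_end_tilt {a c s : ℝ} (hc : 0 ≤ c) (hs : 0 < s) (hsa : s < a) : ClkEnd a (fun v => if s ≤ v then c else 0) := by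
  unfold ClkEnd
  simp only [hsa.le, if_true]
  refine le_antisymm ?_ ?_
  · refine le_csSup ⟨c, ?_⟩ ⟨s, ⟨hs, hsa⟩, by simp⟩
    rintro _ ⟨v, _, rfl⟩
    by_cases h1 : s ≤ v <;> simp [h1, hc]
  · refine csSup_le ⟨_, ⟨s, ⟨hs, hsa⟩, rfl⟩⟩ ?_
    rintro _ ⟨v, _, rfl⟩
    by_cases h1 : s ≤ v <;> simp [h1, hc]

theorem exit_bare (β : ℝ) (hβ : 0 ≤ β) : Ll04Bare llBase β := by
  intro m ell s hm hell hs hsl
  have hc : 0 ≤ β ^ 2 / ell ^ 2 := by positivity
  have e0 : llBase.pres m ell (fun _ => β ^ 2 / ell ^ 2) (fun _ => 0) = skCPr m ell (fun _ => β ^ 2 / ell ^ 2) (fun _ => 0) :=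
    bw_pf_eq m hell (ll04s_clk_const hc) (ll04s_clk_const le_rfl) (ll04s_end_const hell _) (ll04s_end_const hell _)
  have e1 : llBase.pres m ell (fun v => if s ≤ v then β ^ 2 / ell ^ 2 else 0) (fun _ => 0)
      = skCPr m ell (fun v => if s ≤ v then β ^ 2 / ell ^ 2 else 0) (fun _ => 0) :=
    bw_pf_eq m hell (ll04s_clk_tilt hc s) (ll04s_clk_const le_rfl) (ll04s_end_tilt hc hs hsl) (ll04s_end_const hell _)
  unfold LlBase.kap LlBase.psi LlBase.f
  rw [e0, e1, ll04_bare_pr0 m (sq_nonneg β) hell, ll04_bare_pr1 m (sq_nonneg β) hell hs.le hsl.le,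
    ← sk_br_bare hm hβ hell hs.ne']
  rfl

end Claimed.Agent.R286
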