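-- KEEP
import Claimed.Agent.R286.LL.PathsBase
import Claimed.Agent.R286.Sc.TopLL
import Claimed.Agent.R286.Sc.Pkg

/-!
# Row 286 (S0533), EXIT `BaseProf`      typed by helper272 (head LL 03);   OWNER of the proof: BOX-C, chief helper183 (helper68 `Sc/Top.lean`: smooth active side, `p_top ∈ (0,1)`;
helper229 `Sc/Pkg.lean`, helper108: PE Lemma 5.8 in quantile form, (L));   ADV: helper46

TEX[LL:paths:base-profile]      **Regular scalar profile and a strict top plateau**, at fixed `T > 1`, for the minimising quantile of `f_spin(T z) + (T/4) ∫ z²`: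
full support `[0, ξ_*]`, self consistency `Γ_0(ξ) = ξ/T`, `Γ_0' = 1/T` there, positive initial density `κ_T/T`, active-side derivatives of every order, `0 < p_top < 1`.

PROVED (helper68) from: `svt_base_profile` (`Sc/TopLL.lean`), the instance `pkPkg` + `pk_exists_min` (`Sc/Pkg.lean`), `llMod_link`, `llMod_id` (`exit_scgen`).
GENERAL TOOLS for every user of `llMod`: `lsc_id_D, lsc_id_E, lsc_id_Gam, lsc_id_Gam1` are in `Exit/ScGen.lean`.
-/

set_option autoImplicit false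

namespace Claimed.Agent.R286

open MeasureTheory Set Filter Topology MvPolynomial

/-! ## PE units -/

theorem lsc_id_prof {T : ℝ} (hT : 0 < T) {α : ℝ → ℝ} (hα : SvDist α) : LscProf 1 T (pkA T α) where
  mono := fun _ _ _ _ hxy => hα.mono (div_le_div_of_nonneg_right hxy hT.le)
  nonneg := (svq_dist_mem hα _).1
  top := fun _ hξ => hα.top _ ((one_le_div hT).2 hξ)
  Xi0 := hT.le

theorem lsc_id_dist {T : ℝ} (hT : 0 < T) (z : ℝ → ℝ) : llDist 1 (fun w => T * z w) = pkA T (svA z) := by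
  funext ξ
  unfold llDist pkA svA
  rw [measureReal_def]
  congr 2
  ext w
  simp only [Set.mem_ofPred_eq]
  rw [le_div_iff₀' hT]

/-- `∫ z² = 1 - 2 ∫ s α(s)` for every quantile -/
theorem lsc_id_layer {z : ℝ → ℝ} (hz : SvQuant z) :
    ∫ w in (0:ℝ)..1, z w ^ 2 = 1 - 2 * ∫ s in (0:ℝ)..1, s * svA z s := by
  rw [← svq_layer (svq_A_dist hz.1 hz.2)]
  rw [intervalIntegral.integral_of_le zero_le_one, intervalIntegral.integral_of_le zero_le_one,
    integral_Ioc_eq_integral_Ioo, integral_Ioc_eq_integral_Ioo]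
  apply integral_congr_ae
  filter_upwards [svq_Q_A_ae hz.1 hz.2] with u hu
  rw [hu]

/-- **the exit for any base built on a model with the link and the identification** -/
theorem lsc_id_baseprof (M : LscMod) (hid : LscIdSc M) (𝔹 : LlBase) (hG : 𝔹.scG = M.Gam) (hG1 : 𝔹.scG1 = M.Gam1)
    {T : ℝ} (hT : 1 < T)
    (hf : ∀ K : ℝ → ℝ, MonotoneOn K (Icc 0 1) → (∀ v ∈ Icc (0:ℝ) 1, 0 ≤ K v ∧ K v ≤ T) →
      𝔹.fspin 1 K = M.V (llDist 1 K) 1 0 0) : LlBaseProfile 𝔹 T := by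
  have hT0 : 0 < T := by linarith
  have h0T : (0:ℝ) ∈ Icc 0 T := ⟨le_rfl, hT0.le⟩
  refine svt_base_profile 𝔹 hT (pkPkg T hT0) (c0 := -(T / 4)) ?_ ?_ ?_ ?_ ?_
  · intro z hz
    have hd := svq_A_dist (svt_quant_sv hz).1 (svt_quant_sv hz).2
    unfold LlBase.scObj
    rw [hf _ (fun x hx y hy hxy => mul_le_mul_of_nonneg_left (hz.1 hx hy hxy) hT0.le)
      (fun v hv => ⟨mul_nonneg hT0.le (hz.2 v hv).1, by nlinarith [(hz.2 v hv).2]⟩),
      lsc_id_dist hT0, (hid _ 1 T T one_pos (lsc_id_prof hT0 hd) le_rfl).1 0 h0T, lsc_id_layer (svt_quant_sv hz)]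
    change _ = pkP T (svA z) + _
    unfold pkP pkV0
    ring
  · exact pk_exists_min hT0
  · intro α hα ξ hξ
    rw [hG]
    change M.Gam (pkA T α) 1 ξ = pkMom T α (X 0 ^ 2) (ξ / T)
    rw [lsc_id_Gam hid one_pos (lsc_id_prof hT0 hα) le_rfl hξ]
    unfold pkMom
    rw [pk_mv_Gam, mul_div_cancel₀ _ hT0.ne']
  · intro α hα ξ hξ
    rw [hG1]
    change M.Gam1 (pkA T α) 1 ξ = pkMom T α (X 1 ^ 2) (ξ / T)
    rw [lsc_id_Gam1 hid one_pos (lsc_id_prof hT0 hα) le_rfl hξ]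
    unfold pkMom
    rw [pk_mv_M2, mul_div_cancel₀ _ hT0.ne']
  · intro α hα q hq h3 r
    have hc := sv_dist_coef hα
    have hsub : Icc 0 q ⊆ Icc (0:ℝ) 1 := Icc_subset_Icc le_rfl hq.2.le
    exact (sv_boot scmQ (fun p => scmR p) (pkMom T α) α T hq.1 (X 2 ^ 2) (X 1 ^ 3)
      (fun p => (pk_mom_cont hT0 hc p).mono hsub)
      (fun p s hs t ht => pk_dyn hT0 hc p s (hsub hs) t (hsub ht))
      (fun t ht => (pkPkg T hT0).M3_pos _ hc t (hsub ht)) h3 r).2

theorem exit_baseprof (T : ℝ) (hT : 1 < T) : LlBaseProfile llBase T :=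
  lsc_id_baseprof llMod llMod_id llBase rfl rfl hT fun K hK hb =>
    (llBase_f one_pos one_pos ⟨fun _ _ _ _ _ => le_rfl, le_rfl⟩ ⟨hK, (hb 0 ⟨le_rfl, zero_le_one⟩).1⟩).trans (llMod_link 1 T K le_rfl hK hb)

end Claimed.Agent.R286
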