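import Claimed.Agent.R286.Defs.Clk
import Claimed.Agent.R286.Defs.GhBasic
import Claimed.Agent.R286.Brg.Osc

/-!
# Row 286 (S0533), EXIT `ClkSite`      OWNER + PROVER helper26 (block K SITE of the board of helper42; ask of helper67);   prefix `sk_st_`
source: PE profile.tex l.578-581 ("Independence across sites makes this quantity independent of n").

Without matrix clock the sites are independent: `skF n a P (additive field x) = ∑ i, skF 1 a P (additive field x i)` for every step path with `db = 0` and masses `≥ 0`; hence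
* `sk_st_pr`          `skPr n a P = skPr 1 a P`   (finite level)
* `exit_clk_site`     `skCPr n a 0 K = skCPr 1 a 0 K`   (bounded monotone clocks)
-/

set_option autoImplicit false

namespace Claimed.Agent.R286

open MeasureTheory ProbabilityTheory

/-- the additive field with the site values `x` -/
def skStLin {n : ℕ} (x : Fin n → ℝ) : SkCfg n → ℝ := fun σ => ∑ i, skSp σ i * x i

/-- the one-site partition function -/
noncomputable def skStC (a t : ℝ) : ℝ := ∑ b : Bool, (2 : ℝ)⁻¹ * Real.exp (a * (Claims.C0461.pmSpin b * t))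

theorem sk_site_eqns_cite : True := by
  have := @skStLin.eq_1
  have := @skStC.eq_1
  trivial

theorem sk_st_lin_add {n : ℕ} (x y : Fin n → ℝ) : skStLin x + skStLin y = skStLin (x + y) := by
  funext σ
  simp only [skStLin, Pi.add_apply, ← Finset.sum_add_distrib]
  exact Finset.sum_congr rfl fun i _ => by ring

theorem sk_st_lin_zero {n : ℕ} : skStLin (0 : Fin n → ℝ) = 0 := by
  funext σ
  simp [skStLin]

theorem sk_st_base_ok (n : ℕ) {a : ℝ} (ha : 0 < a) : (skBase n a).Ok where
  nonneg := fun _ => by simp only [skBase, ghUnif]; positivity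
  sum := by
    simp only [skBase, ghUnif, Finset.sum_const, Finset.card_univ, nsmul_eq_mul]
    exact mul_inv_cancel₀ (by positivity)
  pos := ha

/-- the increment of a level without matrix part is additive -/
theorem sk_st_inc {n : ℕ} (e : SkInc) (he : e.db = 0) (ξ : SkDr n → ℝ) :
    (e.lv n).inc ξ = skStLin fun i => Real.sqrt e.dh * ξ (Sum.inr i) := by
  funext σ
  simp only [GhLv.inc, SkInc.lv, ghLvF, skStLin, Fintype.sum_sum_type, Sum.elim_inl, Sum.elim_inr, he, Real.sqrt_zero,
    zero_mul, Finset.sum_const_zero, zero_add, skPhi]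
  exact Finset.sum_congr rfl fun i _ => by ring

theorem sk_st_C_pos (a t : ℝ) : 0 < skStC a t :=
  Finset.sum_pos (fun _ _ => by positivity) Finset.univ_nonempty

theorem sk_st_Z {n : ℕ} (a : ℝ) (x : Fin n → ℝ) :
    ∑ σ : SkCfg n, (skBase n a).w σ * Real.exp ((skBase n a).a * skStLin x σ) = ∏ i, skStC a (x i) := by
  unfold skStC
  rw [Finset.prod_univ_sum, Fintype.piFinset_univ]
  refine Finset.sum_congr rfl fun σ _ => ?_
  rw [Finset.prod_mul_distrib, ← Real.exp_sum]
  simp only [skBase, ghUnif, skStLin, skSp, Finset.prod_const, Finset.card_univ, Fintype.card_fin, Fintype.card_pi,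
    Fintype.card_bool, Finset.mul_sum]
  congr 1
  push_cast
  rw [inv_pow]

theorem sk_st_F0 {n : ℕ} (a : ℝ) (x : Fin n → ℝ) :
    ghF0 (skBase n a) (skStLin x) = ∑ i, a⁻¹ * Real.log (skStC a (x i)) := by
  unfold ghF0
  rw [sk_st_Z, Real.log_prod (fun i _ => (sk_st_C_pos a (x i)).ne'), Finset.mul_sum]
  rfl

/-- Fubini on the drivers: functions of the field drivers only -/
theorem sk_st_prod {n : ℕ} (g : Fin n → ℝ → ℝ) :
    ∫ ξ : SkDr n → ℝ, ∏ i, g i (ξ (Sum.inr i)) ∂ghStd (SkDr n) = ∏ i, ∫ s, g i s ∂gaussianReal 0 1 := by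
  have h := integral_fintype_prod_eq_prod (ι := SkDr n) (𝕜 := ℝ) (E := fun _ => ℝ)
    (Sum.elim (fun _ _ => 1) g : SkDr n → ℝ → ℝ) (μ := fun _ => gaussianReal 0 1)
  simp only [Fintype.prod_sum_type, Sum.elim_inl, Sum.elim_inr, Finset.prod_const_one, one_mul, integral_const,
    probReal_univ, smul_eq_mul, mul_one] at h
  exact h

theorem sk_st_eval {n : ℕ} (i : Fin n) {g : ℝ → ℝ} (hg : Continuous g) :
    ∫ ξ : SkDr n → ℝ, g (ξ (Sum.inr i)) ∂ghStd (SkDr n) = ∫ s, g s ∂gaussianReal 0 1 := by
  have hp := measurePreserving_eval (fun _ : SkDr n => gaussianReal 0 1) (Sum.inr i)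
  rw [← hp.map_eq, integral_map hp.measurable.aemeasurable hg.aestronglyMeasurable]
  rfl

theorem sk_st_eval_int {n : ℕ} (i : Fin n) {g : ℝ → ℝ} (hg : Continuous g) :
    Integrable (fun ξ : SkDr n → ℝ => g (ξ (Sum.inr i))) (ghStd (SkDr n)) ↔ Integrable g (gaussianReal 0 1) := by
  have hp := measurePreserving_eval (fun _ : SkDr n => gaussianReal 0 1) (Sum.inr i)
  exact hp.integrable_comp hg.aestronglyMeasurable

theorem sk_st_nn {n : ℕ} {P : SkStp} (hm : ∀ e ∈ P, 0 ≤ e.m) : GhNn (skLvs n P) := by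
  intro l hl
  obtain ⟨e, he, rfl⟩ := List.mem_map.1 hl
  exact hm e he

theorem sk_st_lin_cont (n : ℕ) (x : Fin n → ℝ) (c : ℝ) (i : Fin n) :
    Continuous fun s : ℝ => skStLin (fun _ : Fin 1 => x i + c * s) := by
  refine continuous_pi fun σ => ?_
  simp only [skStLin]
  fun_prop

/-- **site factorisation of the continuation** -/
theorem sk_st_F {a : ℝ} (ha : 0 < a) : ∀ (P : SkStp), (∀ e ∈ P, 0 ≤ e.m) → (∀ e ∈ P, e.db = 0) → ∀ (n : ℕ) (x : Fin n → ℝ),
    skF n a P (skStLin x) = ∑ i, skF 1 a P (skStLin fun _ : Fin 1 => x i)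
  | [], _, _, n, x => by
      simp only [skF, skLvs, List.map_nil, ghF]
      rw [sk_st_F0]
      refine Finset.sum_congr rfl fun i _ => ?_
      rw [sk_st_F0]
      simp
  | e :: P, hm, hb, n, x => by
      have hmP : ∀ e' ∈ P, 0 ≤ e'.m := fun e' h => hm e' (List.mem_cons_of_mem _ h)
      have hbP : ∀ e' ∈ P, e'.db = 0 := fun e' h => hb e' (List.mem_cons_of_mem _ h)
      have ih := sk_st_F ha P hmP hbP
      have he : e.db = 0 := hb e List.mem_cons_self
      set c := Real.sqrt e.dh with hc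
      set φ : ℝ → ℝ := fun t => skF 1 a P (skStLin fun _ : Fin 1 => t) with hφ
      have nice1 : GhNice (ghF (skBase 1 a) (skLvs 1 P)) := gh_b_nice (sk_st_base_ok 1 ha) (sk_st_nn hmP)
      have hφc : Continuous φ := by
        refine nice1.continuous.comp (continuous_pi fun σ => ?_)
        simp only [skStLin]
        fun_prop
      -- the next field, any size
      have key : ∀ (k : ℕ) (y : Fin k → ℝ) (ξ : SkDr k → ℝ),
          ghF (skBase k a) (skLvs k P) (skStLin y + (e.lv k).inc ξ) = ∑ i, φ (y i + c * ξ (Sum.inr i)) := by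
        intro k y ξ
        rw [sk_st_inc e he, sk_st_lin_add]
        exact ih k _
      have key1 : ∀ (t : ℝ) (η : SkDr 1 → ℝ),
          ghF (skBase 1 a) (skLvs 1 P) (skStLin (fun _ : Fin 1 => t) + (e.lv 1).inc η) = φ (t + c * η (Sum.inr 0)) := by
        intro t η
        rw [key 1]
        simp
      have u1 : ∀ (k : ℕ) (z : SkCfg k → ℝ), skF k a (e :: P) z
          = ghT (ghStd (SkDr k)) (e.lv k).m fun ξ => ghF (skBase k a) (skLvs k P) (z + (e.lv k).inc ξ) := fun _ _ => rfl
      simp_rw [u1, key1, key n x]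
      have hem : (e.lv n).m = e.m := rfl
      have hem1 : (e.lv 1).m = e.m := rfl
      rw [hem, hem1]
      unfold ghT
      by_cases h0 : e.m = 0
      · simp only [h0, if_true]
        have hint1 : ∀ t, Integrable (fun s => φ (t + c * s)) (gaussianReal 0 1) := by
          intro t
          have h1 := nice1.integrable (e.lv 1) (skStLin fun _ : Fin 1 => t)
          simp_rw [key1] at h1
          exact (sk_st_eval_int (n := 1) 0 (g := fun s => φ (t + c * s)) (by fun_prop)).1 h1
        rw [integral_finsetSum _ fun i _ =>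
          (sk_st_eval_int i (g := fun s => φ (x i + c * s)) (by fun_prop)).2 (hint1 (x i))]
        refine Finset.sum_congr rfl fun i _ => ?_
        rw [sk_st_eval i (g := fun s => φ (x i + c * s)) (by fun_prop),
          sk_st_eval (n := 1) 0 (g := fun s => φ (x i + c * s)) (by fun_prop)]
      · simp only [h0, if_false]
        have e1 : ∀ ξ : SkDr n → ℝ, Real.exp (e.m * ∑ i, φ (x i + c * ξ (Sum.inr i)))
            = ∏ i, Real.exp (e.m * φ (x i + c * ξ (Sum.inr i))) := by
          intro ξ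
          rw [Finset.mul_sum, Real.exp_sum]
        simp_rw [e1]
        rw [sk_st_prod fun i s => Real.exp (e.m * φ (x i + c * s))]
        have e2 : ∀ t, ∫ η : SkDr 1 → ℝ, Real.exp (e.m * φ (t + c * η (Sum.inr 0))) ∂ghStd (SkDr 1)
            = ∫ s, Real.exp (e.m * φ (t + c * s)) ∂gaussianReal 0 1 := fun t =>
          sk_st_eval (n := 1) 0 (g := fun s => Real.exp (e.m * φ (t + c * s))) (by fun_prop)
        have hpos : ∀ t, 0 < ∫ s, Real.exp (e.m * φ (t + c * s)) ∂gaussianReal 0 1 := by
          intro t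
          rw [← e2]
          have h1 := nice1.integral_exp_pos (e.lv 1) e.m (skStLin fun _ : Fin 1 => t)
          simp_rw [key1] at h1
          exact h1
        simp_rw [e2]
        rw [Real.log_prod (fun i _ => (hpos (x i)).ne'), Finset.mul_sum]

/-- **finite level**: without matrix clock the pressure does not depend on the size -/
theorem sk_st_pr {n : ℕ} (hn : 0 < n) {a : ℝ} (ha : 0 < a) (P : SkStp) (hm : ∀ e ∈ P, 0 ≤ e.m) (hb : ∀ e ∈ P, e.db = 0) :
    skPr n a P = skPr 1 a P := by
  have h1 := sk_st_F ha P hm hb n 0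
  rw [sk_st_lin_zero] at h1
  have h3 : (skStLin fun _ : Fin 1 => (0 : ℝ)) = 0 := sk_st_lin_zero
  simp only [Pi.zero_apply, h3, Finset.sum_const, Finset.card_univ, Fintype.card_fin, nsmul_eq_mul] at h1
  unfold skPr
  rw [h1]
  have : (n : ℝ) ≠ 0 := by positivity
  field_simp
  simp

/-! ### clocks -/

theorem sk_st_at_zero (a : ℝ) (p : GhPos) : ghAt a (fun _ => 0) p = 0 := by
  have hcl : ghClamp a (fun _ => 0) = fun _ => 0 := by
    funext u
    simp [ghClamp]
  have h1 : Function.leftLim (fun _ : ℝ => (0 : ℝ)) p.u = 0 := leftLim_eq_of_tendsto tendsto_const_nhds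
  have h2 : Function.rightLim (fun _ : ℝ => (0 : ℝ)) p.u = 0 := rightLim_eq_of_tendsto tendsto_const_nhds
  unfold ghAt
  rw [hcl, h1, h2]
  ring

theorem sk_st_chain (a : ℝ) (K : ℝ → ℝ) : ∀ (ps : List GhPos) (h0 : ℝ), (∀ p ∈ ps, p.Ok a) →
    (∀ e ∈ skCStp a (fun _ => 0) K 0 h0 ps, 0 ≤ e.m) ∧ ∀ e ∈ skCStp a (fun _ => 0) K 0 h0 ps, e.db = 0
  | [], _, _ => by simp [skCStp]
  | p :: ps, h0, hp => by
      have ih := sk_st_chain a K ps (ghAt a K p) fun q hq => hp q (List.mem_cons_of_mem _ hq)
      simp only [skCStp, sk_st_at_zero, List.mem_cons, forall_eq_or_imp, sub_zero]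
      exact ⟨⟨(hp p List.mem_cons_self).1, ih.1⟩, trivial, ih.2⟩

/-- **EXIT** (block K SITE): without matrix clock the pressure of bounded monotone clocks does not depend on the size.   TEX[PE:prof:macro-variational] (l.578-581) -/
theorem exit_clk_site {n : ℕ} (hn : 0 < n) {a : ℝ} (ha : 0 < a) (K : ℝ → ℝ) :
    skCPr n a (fun _ => 0) K = skCPr 1 a (fun _ => 0) K := by
  unfold skCPr ghLim
  congr 1
  funext F
  have h := sk_st_chain a K (ghPs a F) 0 fun p hp => (gh_os_ps_mem.1 hp).2
  exact sk_st_pr hn ha _ h.1 h.2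

end Claimed.Agent.R286
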