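-- KEEP
import Claimed.Agent.R286.Exit.PSysInst
import Claimed.Agent.R286.Brg.Step
import Claimed.Agent.R286.Fd.RegA
import Claimed.Agent.R286.LL04.NbGen
import Claimed.Agent.R286.Exit.BudWorld
import Claimed.Agent.R286.Pe6.Defs

/-!
# Row 286 (S0533), EXIT `ClkTop`      OWNER helper1      (prefix `ctp_`)

**A REVELATION AT THE TERMINAL MASS IS ANNEALED**: bridge between raw clocks on `[0,a]` (PE: `skCPr n 1 b h`, `skCS n 1 b h p`) and clocks read on `(0,a)` only
(LL sec. 7, `skWorld`, `skPSys`: `skPf`, `skPS`, `skPB` = the same numbers at `clkExt a b`, `clkExt a h`).      Asked by helper286 (`Bud/Cp.lean`, BRIDGE-1, BRIDGE-2).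
`bw_pf_eq` of `Exit/BudWorld` needs `ClkEnd` (no jump at the terminal mass); here NO such hypothesis.

Finite level (any hierarchy `Defs/Gh.lean`), `l.m = B.a`, `l.cov s s = κ` for all `s`:
* `ctp_F_one`, `ctp_F_snoc`     `ghF B (ls ++ [l]) z = ghF B ls z + B.a * κ / 2`
* `ctp_D_Gw`, `ctp_int_D_Gw`    `∫ ghD B l [] z ξ * ghGw B (z + l.inc ξ) s = ghGw B z s`
* `ctp_nu_snoc`                 spin tests, labels separated at the last level and at the terminal draw: `ghNu B (ls ++ [l]) rep G P = ghNu B ls rep G P`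
SK level: `ctp_sk_F`, `ctp_sk_pr` (`skPr n a (P ++ Q) = skPr n a P`, all masses of `Q` equal to `a`: the self correction cancels the annealed levels), `ctp_sk_nu`.
Chains: `ctp_chain_pr`, `ctp_chain_nu` (identities on EVERY chain `ghPs a F`, no limit is taken).

**EXITS**
* `exit_clk_top_pr  : 0 < n → 0 < a → GhClk1 a b → GhClk1 a h → skCPr n a b h = skPf n a b h`            (BRIDGE-1; FALSE at `n = 0`: `skPr 0 a P = - a (…)`)
* `exit_clk_top_nu  : … → CtpTree a q τ → skCNu n a b h q τ P = skCNu n a (clkExt a b) (clkExt a h) q τ P`     (distinct labels fork at a mass `< a`)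
* `exit_clk_top_S`, `exit_clk_top_B : … → v < a → skCS n a b h (ghPosA v) = skPS n a b h v`, the same for `skCB`, `skPB`      (BRIDGE-2)
* `exit_clk_top_world`, `_world_S`, `_world_B`: the same three at `skWorld` (`P6Adm b h`, `0 < n`): `skCPr n 1 b h = (skWorld.ps n).f b h`      (= `P6TmBr skWorld` of helper252)
-/

set_option autoImplicit false

namespace Claimed.Agent.R286

open MeasureTheory ProbabilityTheory Set Filter Topology

noncomputable section

/-! ## A. finite hierarchies -/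

section gen

variable {S ι : Type} [Fintype S] [Fintype ι]

theorem ctp_Z_pos {B : GhB S} (hB : B.Ok) (z : S → ℝ) : 0 < ∑ s, B.w s * Real.exp (B.a * z s) := by
  have h1 : ∀ s ∈ (Finset.univ : Finset S), 0 ≤ B.w s * Real.exp (B.a * z s) := fun s _ =>
    mul_nonneg (hB.nonneg s) (Real.exp_pos _).le
  rcases (Finset.sum_nonneg h1).lt_or_eq with h | h
  · exact h
  · exfalso
    have h2 := (Finset.sum_eq_zero_iff_of_nonneg h1).1 h.symm
    have h3 : ∑ s, B.w s = 0 := Finset.sum_eq_zero fun s hs => by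
      rcases mul_eq_zero.1 (h2 s hs) with h | h
      · exact h
      · exact absurd h (Real.exp_pos _).ne'
    rw [hB.sum] at h3
    exact one_ne_zero h3

theorem ctp_exp_F0 {B : GhB S} (hB : B.Ok) (z : S → ℝ) :
    Real.exp (B.a * ghF0 B z) = ∑ s, B.w s * Real.exp (B.a * z s) := by
  unfold ghF0
  rw [← mul_assoc, mul_inv_cancel₀ hB.pos.ne', one_mul, Real.exp_log (ctp_Z_pos hB z)]

omit [Fintype S] in
theorem ctp_int_inc (l : GhLv S ι) (c : ℝ) (s : S) :
    Integrable (fun ξ => Real.exp (c * l.inc ξ s)) (ghStd ι) := by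
  have := lnb_mgf_int (fun i => c * l.A s i)
  refine this.congr (Filter.Eventually.of_forall fun ξ => ?_)
  simp only [GhLv.inc, Finset.mul_sum, mul_assoc]

omit [Fintype S] in
theorem ctp_mgf_inc (l : GhLv S ι) (c : ℝ) (s : S) :
    ∫ ξ, Real.exp (c * l.inc ξ s) ∂ghStd ι = Real.exp (c ^ 2 * l.cov s s / 2) := by
  have := lnb_mgf (fun i => c * l.A s i)
  have e1 : (fun ξ : ι → ℝ => Real.exp (c * l.inc ξ s)) = fun ξ => Real.exp (∑ i, c * l.A s i * ξ i) := by
    funext ξ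
    simp only [GhLv.inc, Finset.mul_sum, mul_assoc]
  rw [e1, this]
  congr 1
  unfold GhLv.cov
  rw [Finset.mul_sum]
  congr 1
  exact Finset.sum_congr rfl fun i _ => by ring

/-- one annealed level -/
theorem ctp_F_one {B : GhB S} (hB : B.Ok) {l : GhLv S ι} {κ : ℝ} (hm : l.m = B.a) (hκ : ∀ s, l.cov s s = κ) (z : S → ℝ) :
    ghF B [l] z = ghF0 B z + B.a * κ / 2 := by
  have ha := hB.pos.ne'
  have e1 : ∀ ξ : ι → ℝ, Real.exp (B.a * ghF0 B (z + l.inc ξ))
      = ∑ s, B.w s * Real.exp (B.a * z s) * Real.exp (B.a * l.inc ξ s) := by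
    intro ξ
    rw [ctp_exp_F0 hB]
    refine Finset.sum_congr rfl fun s _ => ?_
    rw [Pi.add_apply, mul_add, Real.exp_add, mul_assoc]
  have e2 : ∫ ξ, Real.exp (B.a * ghF0 B (z + l.inc ξ)) ∂ghStd ι
      = (∑ s, B.w s * Real.exp (B.a * z s)) * Real.exp (B.a ^ 2 * κ / 2) := by
    simp only [e1]
    rw [integral_finsetSum _ fun s _ => (ctp_int_inc l B.a s).const_mul _, Finset.sum_mul]
    refine Finset.sum_congr rfl fun s _ => ?_
    rw [integral_const_mul, ctp_mgf_inc, hκ]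
  show ghT (ghStd ι) l.m (fun ξ => ghF0 B (z + l.inc ξ)) = _
  unfold ghT
  rw [hm, if_neg ha, e2, Real.log_mul (ctp_Z_pos hB z).ne' (Real.exp_pos _).ne', Real.log_exp]
  unfold ghF0
  field_simp

/-- an annealed level at the end of a hierarchy adds a constant to the continuation -/
theorem ctp_F_snoc {B : GhB S} (hB : B.Ok) {l : GhLv S ι} {κ : ℝ} (hm : l.m = B.a) (hκ : ∀ s, l.cov s s = κ) :
    ∀ (ls : List (GhLv S ι)) (z : S → ℝ), ghF B (ls ++ [l]) z = ghF B ls z + B.a * κ / 2 := by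
  have key : ∀ (ls : List (GhLv S ι)) (z : S → ℝ), ghF B (ls ++ [l]) z = ghF B ls fun s => z s + B.a * κ / 2 := by
    intro ls
    induction ls with
    | nil =>
      intro z
      rw [List.nil_append, ctp_F_one hB hm hκ, gh_ra_F_shift hB]
      rfl
    | cons l' ls ih =>
      intro z
      show ghT (ghStd ι) l'.m (fun ξ => ghF B (ls ++ [l]) (z + l'.inc ξ))
        = ghT (ghStd ι) l'.m fun ξ => ghF B ls ((fun s => z s + B.a * κ / 2) + l'.inc ξ)
      congr 1
      funext ξ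
      rw [ih]
      congr 1
      funext s
      simp only [Pi.add_apply]
      ring
  intro ls z
  rw [key, gh_ra_F_shift hB]

/-- the transition densities below an annealed level do not see it -/
theorem ctp_D_snoc {B : GhB S} (hB : B.Ok) {l : GhLv S ι} {κ : ℝ} (hm : l.m = B.a) (hκ : ∀ s, l.cov s s = κ)
    (l' : GhLv S ι) (ls : List (GhLv S ι)) (z : S → ℝ) (ξ : ι → ℝ) :
    ghD B l' (ls ++ [l]) z ξ = ghD B l' ls z ξ := by
  unfold ghD
  rw [ctp_F_snoc hB hm hκ ls, ← List.cons_append, ctp_F_snoc hB hm hκ (l' :: ls)]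
  congr 2
  ring

/-- density of the annealed transition times the terminal Gibbs weight -/
theorem ctp_D_Gw {B : GhB S} (hB : B.Ok) {l : GhLv S ι} {κ : ℝ} (hm : l.m = B.a) (hκ : ∀ s, l.cov s s = κ)
    (z : S → ℝ) (ξ : ι → ℝ) (s : S) :
    ghD B l [] z ξ * ghGw B (z + l.inc ξ) s = ghGw B z s * Real.exp (-(B.a ^ 2 * κ / 2)) * Real.exp (B.a * l.inc ξ s) := by
  have hZ := ctp_Z_pos hB z
  have hZ' := ctp_Z_pos hB (z + l.inc ξ)
  have e1 : ghD B l [] z ξ = (∑ t, B.w t * Real.exp (B.a * (z + l.inc ξ) t)) / (∑ t, B.w t * Real.exp (B.a * z t))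
      * Real.exp (-(B.a ^ 2 * κ / 2)) := by
    unfold ghD
    rw [ctp_F_one hB hm hκ, hm]
    show Real.exp (B.a * (ghF0 B (z + l.inc ξ) - (ghF0 B z + B.a * κ / 2))) = _
    have : B.a * (ghF0 B (z + l.inc ξ) - (ghF0 B z + B.a * κ / 2))
        = B.a * ghF0 B (z + l.inc ξ) - B.a * ghF0 B z + -(B.a ^ 2 * κ / 2) := by ring
    rw [this, Real.exp_add, Real.exp_sub, ctp_exp_F0 hB, ctp_exp_F0 hB]
  rw [e1]
  unfold ghGw
  rw [Pi.add_apply, mul_add, Real.exp_add]
  field_simp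

theorem ctp_D_Gw_int {B : GhB S} (hB : B.Ok) {l : GhLv S ι} {κ : ℝ} (hm : l.m = B.a) (hκ : ∀ s, l.cov s s = κ)
    (z : S → ℝ) (s : S) : Integrable (fun ξ => ghD B l [] z ξ * ghGw B (z + l.inc ξ) s) (ghStd ι) := by
  simp only [ctp_D_Gw hB hm hκ]
  exact (ctp_int_inc l B.a s).const_mul _

/-- **the annealed transition preserves the terminal Gibbs weights** -/
theorem ctp_int_D_Gw {B : GhB S} (hB : B.Ok) {l : GhLv S ι} {κ : ℝ} (hm : l.m = B.a) (hκ : ∀ s, l.cov s s = κ)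
    (z : S → ℝ) (s : S) : ∫ ξ, ghD B l [] z ξ * ghGw B (z + l.inc ξ) s ∂ghStd ι = ghGw B z s := by
  simp only [ctp_D_Gw hB hm hκ]
  rw [integral_const_mul, ctp_mgf_inc, hκ, mul_assoc, ← Real.exp_add, neg_add_cancel, Real.exp_zero, mul_one]

/-- the last level is annealed, all labels are separated there -/
theorem ctp_nu_one {B : GhB S} (hB : B.Ok) {l : GhLv S ι} {κ : ℝ} (hm : l.m = B.a) (hκ : ∀ s, l.cov s s = κ) {q : ℕ}
    (rep : ℕ → Fin q → Fin q) (h0 : rep 0 = id) (h1 : rep 1 = id) (G : Fin q → S → ℝ) (P : (Fin q → S) → ℝ) :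
    ghNu B [l] rep G (fun _ σ => P σ) = ghNu (ι := ι) B [] rep G fun _ σ => P σ := by
  simp only [ghNu, ghDT, h0, h1, id, if_true]
  have e1 : ∀ W : Fin q → ι → ℝ, (∏ a, ghD B l [] (G a) (W a)) * ∑ σ : Fin q → S, (∏ a, ghGw B (G a + l.inc (W a)) (σ a)) * P (fun a => σ a)
      = ∑ σ : Fin q → S, (∏ a, ghD B l [] (G a) (W a) * ghGw B (G a + l.inc (W a)) (σ a)) * P σ := by
    intro W
    rw [Finset.mul_sum]
    refine Finset.sum_congr rfl fun σ _ => ?_
    rw [Finset.prod_mul_distrib, mul_assoc]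
  simp only [e1]
  have hint : ∀ σ : Fin q → S, Integrable (fun W : Fin q → ι → ℝ => ∏ a, ghD B l [] (G a) (W a) * ghGw B (G a + l.inc (W a)) (σ a))
      (Measure.pi fun _ : Fin q => ghStd ι) := fun σ =>
    Integrable.fintype_prod (f := fun a (ξ : ι → ℝ) => ghD B l [] (G a) ξ * ghGw B (G a + l.inc ξ) (σ a))
      (μ := fun _ => ghStd ι) fun a => ctp_D_Gw_int hB hm hκ (G a) (σ a)
  rw [integral_finsetSum _ fun σ _ => (hint σ).mul_const _]
  refine Finset.sum_congr rfl fun σ _ => ?_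
  rw [integral_mul_const,
    integral_fintype_prod_eq_prod (fun a (ξ : ι → ℝ) => ghD B l [] (G a) ξ * ghGw B (G a + l.inc ξ) (σ a))]
  congr 1
  exact Finset.prod_congr rfl fun a _ => ctp_int_D_Gw hB hm hκ (G a) (σ a)

/-- **spin tests do not see an annealed level at the end**, if the labels are separated there -/
theorem ctp_nu_snoc {B : GhB S} (hB : B.Ok) {l : GhLv S ι} {κ : ℝ} (hm : l.m = B.a) (hκ : ∀ s, l.cov s s = κ) {q : ℕ}
    (P : (Fin q → S) → ℝ) : ∀ (ls : List (GhLv S ι)) (rep : ℕ → Fin q → Fin q), rep ls.length = id → rep (ls.length + 1) = id →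
      ∀ G : Fin q → S → ℝ, ghNu B (ls ++ [l]) rep G (fun _ σ => P σ) = ghNu B ls rep G fun _ σ => P σ
  | [], rep, h0, h1, G => ctp_nu_one hB hm hκ rep h0 h1 G P
  | l' :: ls, rep, h0, h1, G => by
    simp only [List.cons_append, ghNu, ghDT, ctp_D_snoc hB hm hκ]
    refine integral_congr_ae (Filter.Eventually.of_forall fun W => ?_)
    simp only
    congr 1
    exact ctp_nu_snoc hB hm hκ P ls (fun t => rep (t + 1)) h0 h1 _

end gen

/-! ## B. the SK hierarchy -/

/-- all revelations at the terminal mass, nonnegative increments -/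
def CtpTop (a : ℝ) (Q : SkStp) : Prop := ∀ e ∈ Q, e.m = a ∧ 0 ≤ e.db ∧ 0 ≤ e.dh

/-- distinct labels fork at a position of mass `< a` -/
def CtpTree (a : ℝ) (q : ℕ) (τ : ℕ → ℕ → WithTop GhPos) : Prop :=
  ∀ x y, x < q → y < q → x ≠ y → ∃ p : GhPos, τ x y = (p : WithTop GhPos) ∧ p.u < a

theorem ctp_eqns_cite : True := by
  have := @CtpTop.eq_1
  have := @CtpTree.eq_1
  trivial

theorem ctp_sk_diag {n : ℕ} (hn : 0 < n) (e : SkInc) (hb : 0 ≤ e.db) (hh : 0 ≤ e.dh) (σ : SkCfg n) :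
    (e.lv n).cov σ σ = n * (e.db / 2 + e.dh) := by
  rw [sk_d_cov n hn e hb hh, brg_n_ov_self hn]
  ring

theorem ctp_totB_append (P Q : SkStp) : skTotB (P ++ Q) = skTotB P + skTotB Q := by
  unfold skTotB
  rw [List.map_append, List.sum_append]

theorem ctp_totH_append (P Q : SkStp) : skTotH (P ++ Q) = skTotH P + skTotH Q := by
  unfold skTotH
  rw [List.map_append, List.sum_append]

theorem ctp_sk_F {n : ℕ} (hn : 0 < n) {a : ℝ} (ha : 0 < a) : ∀ Q : SkStp, CtpTop a Q → ∀ (P : SkStp) (z : SkCfg n → ℝ),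
    skF n a (P ++ Q) z = skF n a P z + a * n * (skTotB Q / 4 + skTotH Q / 2)
  | [], _, P, z => by simp [skTotB, skTotH]
  | e :: Q, hQ, P, z => by
    have he := hQ e List.mem_cons_self
    have ih := ctp_sk_F hn ha Q (fun f hf => hQ f (List.mem_cons_of_mem _ hf)) (P ++ [e]) z
    have e1 : P ++ e :: Q = (P ++ [e]) ++ Q := by simp
    have e2 : skF n a (P ++ [e]) z = skF n a P z + a * (n * (e.db / 2 + e.dh)) / 2 := by
      unfold skF skLvs
      rw [List.map_append]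
      exact ctp_F_snoc (sk_stp_base_ok n ha) (l := e.lv n) he.1 (ctp_sk_diag hn e he.2.1 he.2.2) _ z
    rw [e1, ih, e2]
    simp only [skTotB, skTotH, List.map_cons, List.sum_cons]
    ring

/-- **the self correction cancels the revelations at the terminal mass** -/
theorem ctp_sk_pr {n : ℕ} (hn : 0 < n) {a : ℝ} (ha : 0 < a) {Q : SkStp} (hQ : CtpTop a Q) (P : SkStp) :
    skPr n a (P ++ Q) = skPr n a P := by
  have hn' : (n : ℝ) ≠ 0 := by exact_mod_cast hn.ne'
  unfold skPr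
  rw [ctp_sk_F hn ha Q hQ, ctp_totB_append, ctp_totH_append]
  field_simp
  ring

/-- spin tests do not see the revelations at the terminal mass, if the labels are separated there -/
theorem ctp_sk_nu {n : ℕ} (hn : 0 < n) {a : ℝ} (ha : 0 < a) {q : ℕ} (T : (Fin q → SkCfg n) → ℝ) : ∀ Q : SkStp, CtpTop a Q →
    ∀ (P : SkStp) (rep : ℕ → Fin q → Fin q), (∀ t, P.length ≤ t → t ≤ P.length + Q.length → rep t = id) →
      ∀ G : Fin q → SkCfg n → ℝ, ghNu (skBase n a) (skLvs n (P ++ Q)) rep G (fun _ σ => T σ)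
        = ghNu (skBase n a) (skLvs n P) rep G fun _ σ => T σ
  | [], _, P, rep, _, G => by simp
  | e :: Q, hQ, P, rep, hr, G => by
    have he := hQ e List.mem_cons_self
    have ih := ctp_sk_nu hn ha T Q (fun f hf => hQ f (List.mem_cons_of_mem _ hf)) (P ++ [e]) rep
      (fun t h1 h2 => hr t (by simp at h1; omega) (by simp at h2 ⊢; omega)) G
    have e1 : P ++ e :: Q = (P ++ [e]) ++ Q := by simp
    rw [e1, ih]
    unfold skLvs
    rw [List.map_append]
    refine ctp_nu_snoc (sk_stp_base_ok n ha) (l := e.lv n) he.1 (ctp_sk_diag hn e he.2.1 he.2.2) T _ rep ?_ ?_ G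
    · exact hr _ (by simp) (by simp)
    · exact hr _ (by simp) (by simp)

/-! ## C. chains -/

theorem ctp_stp_append (a : ℝ) (b h : ℝ → ℝ) : ∀ (ps₁ ps₂ : List GhPos) (b0 h0 : ℝ), ∃ b1 h1 : ℝ,
    skCStp a b h b0 h0 (ps₁ ++ ps₂) = skCStp a b h b0 h0 ps₁ ++ skCStp a b h b1 h1 ps₂
  | [], ps₂, b0, h0 => ⟨b0, h0, rfl⟩
  | p :: ps₁, ps₂, b0, h0 => by
    obtain ⟨b1, h1, e⟩ := ctp_stp_append a b h ps₁ ps₂ (ghAt a b p) (ghAt a h p)
    exact ⟨b1, h1, by simp only [List.cons_append, skCStp, e]⟩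

theorem ctp_stp_length (a : ℝ) (b h : ℝ → ℝ) : ∀ (ps : List GhPos) (b0 h0 : ℝ), (skCStp a b h b0 h0 ps).length = ps.length
  | [], _, _ => rfl
  | p :: ps, _, _ => by simp only [skCStp, List.length_cons, ctp_stp_length a b h ps]

theorem ctp_stp_congr (a : ℝ) {b h b' h' : ℝ → ℝ} : ∀ (ps : List GhPos) (b0 h0 : ℝ), (∀ p ∈ ps, ghAt a b p = ghAt a b' p) →
    (∀ p ∈ ps, ghAt a h p = ghAt a h' p) → skCStp a b h b0 h0 ps = skCStp a b' h' b0 h0 ps
  | [], _, _, _, _ => rfl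
  | p :: ps, b0, h0, hb, hh => by
    simp only [skCStp]
    rw [hb p List.mem_cons_self, hh p List.mem_cons_self,
      ctp_stp_congr a ps _ _ (fun x hx => hb x (List.mem_cons_of_mem _ hx)) fun x hx => hh x (List.mem_cons_of_mem _ hx)]

/-- the positions of mass `< a` of a chain -/
def ctpLo (a : ℝ) (ps : List GhPos) : List GhPos := ps.takeWhile fun p => decide (p.u < a)
/-- the positions of mass `a` of a (sorted) chain -/
def ctpHi (a : ℝ) (ps : List GhPos) : List GhPos := ps.dropWhile fun p => decide (p.u < a)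

theorem ctp_lo_eqns_cite : True := by
  have := @ctpLo.eq_1
  have := @ctpHi.eq_1
  trivial

theorem ctp_lo_hi (a : ℝ) (ps : List GhPos) : ctpLo a ps ++ ctpHi a ps = ps := List.takeWhile_append_dropWhile

theorem ctp_lo_mem {a : ℝ} {ps : List GhPos} {p : GhPos} (hp : p ∈ ctpLo a ps) : p.u < a := by
  have := List.mem_takeWhile_imp hp
  simpa using this

theorem ctp_hi_mem {a : ℝ} : ∀ {ps : List GhPos}, ps.Pairwise (· ≤ ·) → (∀ p ∈ ps, p.Ok a) → ∀ p ∈ ctpHi a ps, p.u = a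
  | [], _, _, p, hp => by simp [ctpHi] at hp
  | x :: ps, hs, hok, p, hp => by
    have hs' := List.pairwise_cons.1 hs
    by_cases hx : x.u < a
    · have e : ctpHi a (x :: ps) = ctpHi a ps := by
        unfold ctpHi
        rw [List.dropWhile_cons_of_pos (by simpa using hx)]
      rw [e] at hp
      exact ctp_hi_mem hs'.2 (fun y hy => hok y (List.mem_cons_of_mem _ hy)) p hp
    · have e : ctpHi a (x :: ps) = x :: ps := by
        unfold ctpHi
        rw [List.dropWhile_cons_of_neg (by simpa using hx)]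
      rw [e] at hp
      have h1 : x.u ≤ p.u := by
        rcases List.mem_cons.1 hp with rfl | hp'
        · exact le_rfl
        · exact sk_stp_pos_u_le (hs'.1 p hp')
      exact le_antisymm (hok p hp).2.1 ((not_lt.1 hx).trans h1)

/-- a chain = its part below the terminal mass, then annealed revelations -/
theorem ctp_chain_split {a : ℝ} (ha : 0 < a) {b h : ℝ → ℝ} (hb : GhClk1 a b) (hh : GhClk1 a h) {ps : List GhPos}
    (hs : ps.Pairwise (· ≤ ·)) (hok : ∀ p ∈ ps, p.Ok a) :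
    ∃ Q : SkStp, CtpTop a Q ∧ Q.length = (ctpHi a ps).length ∧ skCStp a b h 0 0 ps = skCStp a b h 0 0 (ctpLo a ps) ++ Q := by
  obtain ⟨b1, h1, e⟩ := ctp_stp_append a b h (ctpLo a ps) (ctpHi a ps) 0 0
  rw [ctp_lo_hi] at e
  have hadm : SkAdm a (skCStp a b h 0 0 ps) := sk_stp_chain_adm ha.le hb hh ps 0 0 hs hok
    (fun p hp => gh_os_at_nonneg ha.le hb (hok p hp).2.2.1) fun p hp => gh_os_at_nonneg ha.le hh (hok p hp).2.2.1
  refine ⟨skCStp a b h b1 h1 (ctpHi a ps), fun f hf => ?_, ctp_stp_length _ _ _ _ _ _, e⟩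
  obtain ⟨p, hp, hm⟩ := sk_stp_chain_mem a b h _ _ _ f hf
  have h2 := hadm.2 f (by rw [e]; exact List.mem_append_right _ hf)
  exact ⟨hm.trans (ctp_hi_mem hs hok p hp), h2.2.2⟩

/-! ### the clocks read on `(0,a)` -/

theorem ctp_isClock {a : ℝ} {c : ℝ → ℝ} (hc : GhClk1 a c) : IsClock a c where
  mono := hc.1.mono Ioo_subset_Icc_self
  nonneg := fun _ hv => hc.2.trans (hc.1 ⟨le_rfl, hv.1.le.trans hv.2.le⟩ ⟨hv.1.le, hv.2.le⟩ hv.1.le)
  bdd := ⟨c a, fun _ hv => hc.1 ⟨hv.1.le, hv.2.le⟩ ⟨hv.1.le.trans hv.2.le, le_rfl⟩ hv.2.le⟩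

theorem ctp_clamp_eq {a : ℝ} (c : ℝ → ℝ) {u : ℝ} (hu : u ≠ 0) (hua : u < a) :
    ghClamp a c u = ghClamp a (clkExt a c) u := by
  unfold ghClamp
  by_cases h0 : u < 0
  · simp [h0]
  · have hpos : 0 < u := lt_of_le_of_ne (not_lt.1 h0) (Ne.symm hu)
    simp only [h0, if_false]
    rw [min_eq_left hua.le, psi_ext_of_mem c ⟨hpos, hua⟩]

/-- below the terminal mass the two clocks have the same values at all positions -/
theorem ctp_at_eq {a : ℝ} (ha : 0 < a) {c : ℝ → ℝ} (hc : GhClk1 a c) {p : GhPos} (hp : p.u < a) :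
    ghAt a c p = ghAt a (clkExt a c) p := by
  have hm : Monotone (ghClamp a (clkExt a c)) := gh_os_clamp_mono ha.le (psi_ext_clk ha (ctp_isClock hc))
  have hl : Function.leftLim (ghClamp a c) p.u = Function.leftLim (ghClamp a (clkExt a c)) p.u := by
    refine leftLim_eq_of_tendsto ((hm.tendsto_leftLim p.u).congr' ?_)
    have h1 : ∀ᶠ u in 𝓝[<] p.u, u ≠ 0 := by
      rcases lt_or_ge 0 p.u with h | h
      · filter_upwards [Ioo_mem_nhdsLT h] with u hu using hu.1.ne'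
      · filter_upwards [self_mem_nhdsWithin] with u hu using (lt_of_lt_of_le hu h).ne
    filter_upwards [h1, self_mem_nhdsWithin] with u hu hu2 using (ctp_clamp_eq c hu (lt_trans hu2 hp)).symm
  have hr : Function.rightLim (ghClamp a c) p.u = Function.rightLim (ghClamp a (clkExt a c)) p.u := by
    refine rightLim_eq_of_tendsto ((hm.tendsto_rightLim p.u).congr' ?_)
    have h1 : ∀ᶠ u in 𝓝[>] p.u, u ≠ 0 := by
      rcases lt_or_ge p.u 0 with h | h
      · filter_upwards [Ioo_mem_nhdsGT h] with u hu using hu.2.ne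
      · filter_upwards [self_mem_nhdsWithin] with u hu using (lt_of_le_of_lt h hu).ne'
    filter_upwards [h1, Ioo_mem_nhdsGT hp] with u hu hu2 using (ctp_clamp_eq c hu hu2.2).symm
  unfold ghAt
  rw [hl, hr]

theorem ctp_lo_stp {a : ℝ} (ha : 0 < a) {b h : ℝ → ℝ} (hb : GhClk1 a b) (hh : GhClk1 a h) (ps : List GhPos) :
    skCStp a b h 0 0 (ctpLo a ps) = skCStp a (clkExt a b) (clkExt a h) 0 0 (ctpLo a ps) :=
  ctp_stp_congr a _ 0 0 (fun _ hp => ctp_at_eq ha hb (ctp_lo_mem hp)) fun _ hp => ctp_at_eq ha hh (ctp_lo_mem hp)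

/-- **BRIDGE-1 on every chain** -/
theorem ctp_chain_pr {n : ℕ} (hn : 0 < n) {a : ℝ} (ha : 0 < a) {b h : ℝ → ℝ} (hb : GhClk1 a b) (hh : GhClk1 a h) {ps : List GhPos}
    (hs : ps.Pairwise (· ≤ ·)) (hok : ∀ p ∈ ps, p.Ok a) :
    skPr n a (skCStp a b h 0 0 ps) = skPr n a (skCStp a (clkExt a b) (clkExt a h) 0 0 ps) := by
  obtain ⟨Q, hQ, -, e⟩ := ctp_chain_split ha hb hh hs hok
  obtain ⟨Q', hQ', -, e'⟩ := ctp_chain_split ha (psi_ext_clk ha (ctp_isClock hb)) (psi_ext_clk ha (ctp_isClock hh)) hs hok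
  rw [e, e', ctp_sk_pr hn ha hQ, ctp_sk_pr hn ha hQ', ctp_lo_stp ha hb hh]

/-- the number of revelations up to a position of mass `< a` -/
theorem ctp_idx_le {a : ℝ} {ps : List GhPos} (hs : ps.Pairwise (· ≤ ·)) (hok : ∀ p ∈ ps, p.Ok a) {p : GhPos} (hp : p.u < a) :
    ghIdx ps (p : WithTop GhPos) ≤ (ctpLo a ps).length := by
  rw [gh_br_idx_coe]
  conv_lhs => rw [← ctp_lo_hi a ps]
  rw [List.filter_append, List.length_append]
  have h1 : (ctpHi a ps).filter (fun x : GhPos => decide (x ≤ p)) = [] := by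
    rw [List.filter_eq_nil_iff]
    intro x hx
    have h2 := ctp_hi_mem hs hok x hx
    simp only [decide_eq_true_eq]
    intro h3
    have := sk_stp_pos_u_le h3
    linarith
  rw [h1, List.length_nil, add_zero]
  exact List.length_filter_le _ _

/-- above the positions of mass `< a` all labels are separated -/
theorem ctp_rep_id {a : ℝ} {q : ℕ} {τ : ℕ → ℕ → WithTop GhPos} (hτ : CtpTree a q τ) {ps : List GhPos} (hs : ps.Pairwise (· ≤ ·))
    (hok : ∀ p ∈ ps, p.Ok a) {t : ℕ} (ht : (ctpLo a ps).length ≤ t) : ghRepN q (ghDisc ps τ) t = id := by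
  funext x
  unfold ghRepN
  refine le_antisymm (Finset.min'_le _ _ (by simp)) (Finset.le_min' _ _ _ fun y hy => ?_)
  rw [Finset.mem_filter] at hy
  by_cases hxy : x = y
  · exact hxy.le
  · exfalso
    rcases hy.2 with h | h
    · exact hxy h.symm
    · obtain ⟨p, hp, hpa⟩ := hτ x.1 y.1 x.2 y.2 fun h => hxy (Fin.ext h)
      have := ctp_idx_le hs hok hpa
      unfold ghDisc at h
      rw [hp] at h
      omega

/-- **BRIDGE-2 on every chain** -/
theorem ctp_chain_nu {n : ℕ} (hn : 0 < n) {a : ℝ} (ha : 0 < a) {b h : ℝ → ℝ} (hb : GhClk1 a b) (hh : GhClk1 a h) {q : ℕ}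
    {τ : ℕ → ℕ → WithTop GhPos} (hτ : CtpTree a q τ) (T : (Fin q → SkCfg n) → ℝ) {ps : List GhPos}
    (hs : ps.Pairwise (· ≤ ·)) (hok : ∀ p ∈ ps, p.Ok a) (G : Fin q → SkCfg n → ℝ) :
    ghNu (skBase n a) (skLvs n (skCStp a b h 0 0 ps)) (ghRepN q (ghDisc ps τ)) G (fun _ σ => T σ)
      = ghNu (skBase n a) (skLvs n (skCStp a (clkExt a b) (clkExt a h) 0 0 ps)) (ghRepN q (ghDisc ps τ)) G fun _ σ => T σ := by
  obtain ⟨Q, hQ, -, e⟩ := ctp_chain_split ha hb hh hs hok
  obtain ⟨Q', hQ', -, e'⟩ := ctp_chain_split ha (psi_ext_clk ha (ctp_isClock hb)) (psi_ext_clk ha (ctp_isClock hh)) hs hok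
  have hr : ∀ (c d : ℝ → ℝ) (t : ℕ), (skCStp a c d 0 0 (ctpLo a ps)).length ≤ t → ghRepN q (ghDisc ps τ) t = id := by
    intro c d t ht
    rw [ctp_stp_length] at ht
    exact ctp_rep_id hτ hs hok ht
  rw [e, e', ctp_sk_nu hn ha T Q hQ _ _ (fun t h1 _ => hr _ _ t h1), ctp_sk_nu hn ha T Q' hQ' _ _ (fun t h1 _ => hr _ _ t h1),
    ctp_lo_stp ha hb hh]

/-! ## D. EXITS -/

theorem ctp_lim_congr {a : ℝ} {Q Q' : List GhPos → ℝ}
    (h : ∀ ps : List GhPos, ps.Pairwise (· ≤ ·) → (∀ p ∈ ps, p.Ok a) → Q ps = Q' ps) : ghLim a Q = ghLim a Q' := by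
  unfold ghLim
  congr 1
  funext F
  exact h _ (gh_os_ps_pairwise a F) fun p hp => (gh_os_ps_mem.1 hp).2

/-- **EXIT (BRIDGE-1)**: the self corrected pressure does not see what the clocks do AT the terminal mass (nor their value at `0`) -/
theorem exit_clk_top_pr {n : ℕ} (hn : 0 < n) {a : ℝ} (ha : 0 < a) {b h : ℝ → ℝ} (hb : GhClk1 a b) (hh : GhClk1 a h) :
    skCPr n a b h = skPf n a b h := by
  unfold skPf skCPr
  exact ctp_lim_congr fun ps hs hok => ctp_chain_pr hn ha hb hh hs hok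

/-- **EXIT (BRIDGE-2, all tree numbers)**: spin tests on real trees whose distinct labels fork at a mass `< a` -/
theorem exit_clk_top_nu {n : ℕ} (hn : 0 < n) {a : ℝ} (ha : 0 < a) {b h : ℝ → ℝ} (hb : GhClk1 a b) (hh : GhClk1 a h) {q : ℕ}
    {τ : ℕ → ℕ → WithTop GhPos} (hτ : CtpTree a q τ) (T : (Fin q → SkCfg n) → ℝ) :
    skCNu n a b h q τ T = skCNu n a (clkExt a b) (clkExt a h) q τ T := by
  unfold skCNu
  exact ctp_lim_congr fun ps hs hok => ctp_chain_nu hn ha hb hh hτ T hs hok _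

theorem ctp_tree_R2 {a : ℝ} {p : GhPos} (hp : p.u < a) : CtpTree a 2 (ghR2 p) := by
  intro x y _ _ hxy
  exact ⟨p, by simp [ghR2, hxy], hp⟩

/-- **EXIT (BRIDGE-2)** for `S` at any position of mass `< a` -/
theorem exit_clk_top_S_pos {n : ℕ} (hn : 0 < n) {a : ℝ} (ha : 0 < a) {b h : ℝ → ℝ} (hb : GhClk1 a b) (hh : GhClk1 a h)
    {p : GhPos} (hp : p.u < a) : skCS n a b h p = skCS n a (clkExt a b) (clkExt a h) p :=
  exit_clk_top_nu hn ha hb hh (ctp_tree_R2 hp) _

/-- **EXIT (BRIDGE-2)** for `B` at any position of mass `< a` -/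
theorem exit_clk_top_B_pos {n : ℕ} (hn : 0 < n) {a : ℝ} (ha : 0 < a) {b h : ℝ → ℝ} (hb : GhClk1 a b) (hh : GhClk1 a h)
    {p : GhPos} (hp : p.u < a) : skCB n a b h p = skCB n a (clkExt a b) (clkExt a h) p :=
  exit_clk_top_nu hn ha hb hh (ctp_tree_R2 hp) _

theorem exit_clk_top_S {n : ℕ} (hn : 0 < n) {a : ℝ} (ha : 0 < a) {b h : ℝ → ℝ} (hb : GhClk1 a b) (hh : GhClk1 a h)
    {v : ℝ} (hv : v < a) : skCS n a b h (ghPosA v) = skPS n a b h v :=
  exit_clk_top_S_pos hn ha hb hh (p := ghPosA v) hv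

theorem exit_clk_top_B {n : ℕ} (hn : 0 < n) {a : ℝ} (ha : 0 < a) {b h : ℝ → ℝ} (hb : GhClk1 a b) (hh : GhClk1 a h)
    {v : ℝ} (hv : v < a) : skCB n a b h (ghPosA v) = skPB n a b h v :=
  exit_clk_top_B_pos hn ha hb hh (p := ghPosA v) hv

/-- the form asked by `Bud/Cp.lean`: the pressure of `skWorld` on PE-admissible clocks -/
theorem exit_clk_top_p6 {n : ℕ} (hn : 0 < n) {b h : ℝ → ℝ} (hb : GhClk1 1 b) (hh : GhClk1 1 h) :
    skCPr n 1 b h = skPf n 1 b h := exit_clk_top_pr hn one_pos hb hh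

/-- **BRIDGE-1 AT `skWorld`** (asked by helper252, `Exit/P6Tm.lean`: this IS `P6TmBr skWorld`): on PE-admissible clocks the PE pressure is the pressure of the world -/
theorem exit_clk_top_world : ∀ (n : ℕ) (b h : ℝ → ℝ), 0 < n → P6Adm b h → skCPr n 1 b h = (skWorld.ps n).f b h := by
  intro n b h hn hA
  rw [bw_ps hn]
  exact exit_clk_top_pr hn one_pos hA.1 hA.2

/-- **BRIDGE-2 AT `skWorld`**: the two response functions at a mass `v < 1` -/
theorem exit_clk_top_world_S : ∀ (n : ℕ) (b h : ℝ → ℝ) (v : ℝ), 0 < n → P6Adm b h → v < 1 →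
    skCS n 1 b h (ghPosA v) = (skWorld.ps n).S b h v := by
  intro n b h v hn hA hv
  rw [bw_ps hn]
  exact exit_clk_top_S hn one_pos hA.1 hA.2 hv

theorem exit_clk_top_world_B : ∀ (n : ℕ) (b h : ℝ → ℝ) (v : ℝ), 0 < n → P6Adm b h → v < 1 →
    skCB n 1 b h (ghPosA v) = (skWorld.ps n).B b h v := by
  intro n b h v hn hA hv
  rw [bw_ps hn]
  exact exit_clk_top_B hn one_pos hA.1 hA.2 hv

end

end Claimed.Agent.R286
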