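-- KEEP
import Claimed.Agent.R286.Macro.Par
import Claimed.Agent.R286.Sc.Coer

/-!
# Row 286 (S0533), EXIT `Par`      OWNER helper155 (since 04:30Z; proved by helper149: Sc/Coer `par_wp_dist` + helper155: Macro/Par `mpar_*`; (U+) helper159; scalar package helper229; link helper102);   consumer: `Macro/ToP6.lean` (helper155), LL 06/07
source: PE profile.tex l.760-913 (Lemma 5.8: the scalar minimiser)

**PE Lemma 5.8** in the vocabulary of unit MAC, at ONE temperature `T > 1`  (ruling 142 D3: the temperatures of a sequence of instances converge to `c.Tinf`, so no uniformity in `T` is needed):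
the functional `q ↦ mvP macSpin T q = mvG macSpin (T) (0) q` on quantiles (`MvQt`) has a minimiser `qT` which is WELL POSED in `L¹`, continuous on `(0,1)` and comparable with the mass.
`macSpin K = skCPr 1 1 0 K` = the one-site pressure with field clock `K` (Macro/Contract.lean).
-/

set_option autoImplicit false

namespace Claimed.Agent.R286

open MeasureTheory Set Filter Topology

/-- **the contract of unit PAR at one temperature** (PE Lemma 5.8 + well-posedness) -/
structure MacPar (T : ℝ) (qT : ℝ → ℝ) (cT CT : ℝ) : Prop where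
  qt : MvQt qT
  min : ∀ q, MvQt q → mvP macSpin T qT ≤ mvP macSpin T q
  wp : ∀ δ > 0, ∃ η > 0, ∀ q, MvQt q → mvP macSpin T q ≤ mvP macSpin T qT + η → ∫ u in (0:ℝ)..1, |q u - qT u| ≤ δ
  cont : ContinuousOn qT (Ioo (0:ℝ) 1)
  two : ∀ v, 0 < v → v < 1 → cT * v ≤ qT v ∧ qT v ≤ CT * v

/-- the same with the NAMED quantile `mparQ T = svQ (pkAlT T)` (slope at `0`: `mpar_slope`).   TEX[PE:prof:scalar-minimizer] -/
theorem exit_par_q (T : ℝ) (hT : 1 < T) : ∃ cT CT : ℝ, 0 < cT ∧ cT ≤ CT ∧ MacPar T (mparQ T) cT CT := by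
  have hT0 : 0 < T := by linarith
  obtain ⟨cT, CT, h1, h2, h3⟩ := mpar_two hT
  refine ⟨cT, CT, h1, h2, ⟨mpar_qt hT0, mpar_min hT0, mpar_wp hT0 ?_, mpar_cont hT, h3⟩⟩
  intro δ hδ
  obtain ⟨η, hη, hw⟩ := par_wp_dist hT0 hδ
  exact ⟨η, hη, fun α hα hle => hw α (pkAlT T) hα (pk_alT_dist hT0) (pk_alT_min hT0) hle⟩

/-- TEX[PE:prof:scalar-minimizer] -/
theorem exit_par (T : ℝ) (hT : 1 < T) : ∃ (qT : ℝ → ℝ) (cT CT : ℝ), 0 < cT ∧ cT ≤ CT ∧ MacPar T qT cT CT :=
  ⟨mparQ T, exit_par_q T hT⟩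

end Claimed.Agent.R286
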