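import Claimed.Agent.R286.PE.Chain
import Claimed.Agent.R286.Macro.ToP6
import Claimed.Agent.R286.Exit.Par
import Claimed.Agent.R286.Pe6.Free252
import Claimed.Agent.R286.Exit.ClkTop

/-!
# Row 286 (S0533), ARROW P1/P2 (= I7) OF THE LL CHAIN: PE Sec. 5-6 WITH THE COMMON VARYING BASE `T_m → T`, FOR THE PRESSURE OF A WORLD      (owner helper252; order of helper136; board `origin/helper224:notes/R286/LLCHAIN_224.md`)
TEX[LL:global:trial-gap]#83-110      TEX[LL:bud:modified-closure]#889-900,1107-1141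

WHAT THE LL CALLERS NEED (LL 06 l.39-110, LL 07 l.139, l.889-985, l.1107-1150) and where it is:
* the temperature is a FIELD `(D k).T` of every instance, `T_k → c.Tinf > 1` along the ultrafilter WITHOUT ANY RATE (`P6Seq.T_lim`); a child keeps the temperature of its parent.      So "PE Sec. 3-6 with base `T_m`" IS the typed version; there is no other.
* the constants `cκ Cκ cT CT` (hence the loose profile constants `p6Lo Cκ cT`, `p6Hi cκ CT` and the exponent `20 δ` of the error) are chosen BEFORE the ultrafilter and the sequence: they depend on the record `c : P6C` only, NOT on the rates in (4), `T_k → Tinf`, `u0 = o(a)`.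
  Uniform (`∃ N0 ∀ instance`) forms follow by the choice of a violating sequence (`bcp_unif_of_seq`, `aq_unif_eventually`); only `N0` sees the rates.
* the callers speak the pressure `(W.ps m).f` of a world; PE speaks `skCPr m 1`.      The two agree on admissible clocks, sizes `m > 0`: `P6TmBr W` (for `skWorld`: BRIDGE-1, `Exit/ClkTop.lean`, helper1).

EXITS
* `p6tm_imports_congr`      the imports of PE Sec. 6 see the pressure only at sizes `n > 0` and admissible clocks.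
* `p6tm_pe`       `∃ cκ Cκ cT CT, BcpPE W c cκ Cκ cT CT`      (PE Prop. 6.6 + its five imports for the world).
* `p6tm_macq`     `BcpMacQ W c (mparQ c.Tinf)`      (PE Prop. 5.9 with the explicit limit; `mac_p6_macro_q` of helper155).
* `p6tm_qt`       `BcpQT (mparQ c.Tinf)`.
* **`exit_p6tm`**      all of them + `BcpK2 W c (mparQ c.Tinf)` with ONE tuple of constants.
* CONSTANTS FIRST (asked by helper286 for `bi7_weak`: `p6Lo Cκ cT`, `p6Hi cκ CT` BEFORE the PE slack `c.m = X.mPE`): `cκ Cκ` depend on `c.tau = 2 c.K + c.Tinf + 1` and `c.Tinf` only (PE Lemma 5.3), `cT CT` on `c.Tinf` only (PE Lemma 5.8):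
  `p6tm_direct_cf`, `p6tm_imports_cf`, **`exit_p6tm_cf`** `(T K0) : ∃ cκ Cκ cT CT, ∀ c, c.Ok → c.Tinf = T → c.K = K0 → BcpPE W c .. ∧ BcpMacQ W c (mparQ T) ∧ BcpQT (mparQ T) ∧ BcpK2 W c (mparQ T)`.
* THE SK WORLD: `p6tm_br_sk : P6TmBr skWorld` (`exit_clk_top_world`, helper1), **`exit_p6tm_sk`**, **`exit_p6tm_sk_cf`**.
-/

set_option autoImplicit false

namespace Claimed.Agent.R286

open Filter Topology Set MeasureTheory Asymptotics

/-- **BRIDGE-1**: on admissible clocks and positive sizes the pressure of the world is the PE pressure -/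
def P6TmBr (W : BdWorld) : Prop := ∀ (n : ℕ) (b h : ℝ → ℝ), 0 < n → P6Adm b h → skCPr n 1 b h = (W.ps n).f b h

section congr

variable {fn fn' : ℕ → (ℝ → ℝ) → (ℝ → ℝ) → ℝ}

theorem p6tm_obj_congr (hf : ∀ n b h, 0 < n → P6Adm b h → fn n b h = fn' n b h)
    {D : P6D} (hn : 0 < D.P.n) {lam : ℝ} (hfam : D.Fam lam) {r : ℝ → ℝ} (hr : D.P.Fe r) : D.obj fn lam r = D.obj fn' lam r := by
  unfold P6D.obj
  rw [hf _ _ _ hn (hfam r hr)]

theorem p6tm_isMin_congr (hf : ∀ n b h, 0 < n → P6Adm b h → fn n b h = fn' n b h)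
    {D : P6D} (hn : 0 < D.P.n) {lam : ℝ} (hfam : D.Fam lam) {r : ℝ → ℝ} (hr : D.IsMin fn lam r) : D.IsMin fn' lam r := by
  refine ⟨hr.1, fun r' hr' => ?_⟩
  rw [← p6tm_obj_congr hf hn hfam hr.1, ← p6tm_obj_congr hf hn hfam hr']
  exact hr.2 r' hr'

theorem p6tm_n_pos {U : Ultrafilter ℕ} {c : P6C} {D : ℕ → P6D} (hD : P6Seq U c D) : ∀ᶠ k in U, 0 < (D k).P.n := by
  filter_upwards [hD.ok] with k hk
  have := hk.n3
  omega

/-- the imports of PE Sec. 6 only see the pressure at positive sizes, on admissible paths      (`bcp_imports_congr` of helper195 asks the agreement also at the dummy size `0`) -/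
theorem p6tm_imports_congr (hf : ∀ n b h, 0 < n → P6Adm b h → fn n b h = fn' n b h)
    {c : P6C} {cκ Cκ cT CT : ℝ} (h : P6Imports fn c cκ Cκ cT CT) : P6Imports fn' c cκ Cκ cT CT := by
  have hf' : ∀ n b h, 0 < n → P6Adm b h → fn' n b h = fn n b h := fun n b h hn hh => (hf n b h hn hh).symm
  refine ⟨?_, ?_, ?_, ?_, ?_, h.κ_rng, h.T_rng⟩
  · intro n b hh b' h' a cc hn h1 h2 h3 h4 h5
    rw [← hf n b' h' hn h2, ← hf n b hh hn h1]
    exact h.chord n b hh b' h' a cc hn h1 h2 h3 h4 h5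
  · intro U D hD
    filter_upwards [h.exMin U D hD, p6tm_n_pos hD] with k hk hn lam h1 h2 h3
    obtain ⟨r, hr⟩ := hk lam h1 h2 h3
    exact ⟨r, p6tm_isMin_congr hf hn h3 hr⟩
  · intro U D c1 C1 h1 h2 hD hO hreg
    have key := h.sweep U D c1 C1 h1 h2 hD hO (by
      filter_upwards [hreg, hO, p6tm_n_pos hD] with k a1 a2 hn lam r b1 b2 b3
      have h0 : 0 ≤ lam := (Real.rpow_nonneg (by unfold CmCall.N; positivity) _).trans b1
      exact a1 lam r b1 b2 (p6tm_isMin_congr hf hn (a2.2 lam h0 b2) b3))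
    filter_upwards [key, hO, p6tm_n_pos hD] with k a1 a2 hn lam r b1 b2 b3
    have hfam := a2.2 lam b1 b2
    have e : (D k).err fn' lam r = (D k).err fn lam r := by
      unfold P6D.err
      rw [p6tm_obj_congr hf' hn hfam b3.1, hf' _ _ _ hn a2.1]
    rw [e]
    exact a1 lam r b1 b2 (p6tm_isMin_congr hf' hn hfam b3)
  · intro U D lam x r c1 C1 C0 h1 h2 h3 hD h4 h5 h6
    refine h.direct U D lam x r c1 C1 C0 h1 h2 h3 hD h4 h5 ?_
    filter_upwards [h5, h6, p6tm_n_pos hD] with k a1 a2 hn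
    exact p6tm_isMin_congr hf' hn a1 a2
  · intro U D lam x r c1 h1 hD h4 h5 h6
    refine h.macr U D lam x r c1 h1 hD h4 h5 ?_
    filter_upwards [h5, h6, p6tm_n_pos hD] with k a1 a2 hn
    exact p6tm_isMin_congr hf' hn a1 a2

end congr

section world

variable {W : BdWorld}

/-- **PE Prop. 6.6 and its imports for the pressure of the world**, base temperature `T_k → c.Tinf` -/
theorem p6tm_pe (hB : P6TmBr W) (c : P6C) (hc : c.Ok) : ∃ cκ Cκ cT CT : ℝ, BcpPE W c cκ Cκ cT CT := by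
  obtain ⟨cκ, Cκ, cT, CT, hI⟩ := pec_imports c hc
  have hI' : P6Imports (bcpFn W) c cκ Cκ cT CT := p6tm_imports_congr (fun n b h hn hh => hB n b h hn hh) hI
  exact ⟨cκ, Cκ, cT, CT, hI', p6_exit hI' hc⟩

/-- **PE Prop. 5.9 with the explicit limit** for the pressure of the world -/
theorem p6tm_macq (hB : P6TmBr W) {c : P6C} (hc : c.Ok) : BcpMacQ W c (mparQ c.Tinf) := by
  obtain ⟨cT, CT, -, -, hq⟩ := exit_par_q c.Tinf hc.T_gt
  exact mac_p6_macro_q hc hq (fn := bcpFn W) (fun n b h hn hh => (hB n b h hn hh).symm)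

/-- what Step 3 of (C7) uses of the Parisi quantile -/
theorem p6tm_qt {c : P6C} (hc : c.Ok) : BcpQT (mparQ c.Tinf) := by
  obtain ⟨cT, CT, -, -, hq⟩ := exit_par_q c.Tinf hc.T_gt
  exact ⟨hq.qt.1.1, fun v hv => hq.qt.mem hv, hq.cont⟩

/-- **EXIT**: everything LL 07 Steps 1, 3 import from PE Sec. 5.9, 6 (one tuple of constants, chosen before all sequences) -/
theorem exit_p6tm (hB : P6TmBr W) (c : P6C) (hc : c.Ok) :
    ∃ cκ Cκ cT CT : ℝ, BcpPE W c cκ Cκ cT CT ∧ BcpMacQ W c (mparQ c.Tinf) ∧ BcpQT (mparQ c.Tinf) ∧ BcpK2 W c (mparQ c.Tinf) := by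
  obtain ⟨cκ, Cκ, cT, CT, hP⟩ := p6tm_pe hB c hc
  exact ⟨cκ, Cκ, cT, CT, hP, p6tm_macq hB hc, p6tm_qt hc, bcpk_K2 hc hP (p6tm_macq hB hc) (p6tm_qt hc)⟩

end world

/-! ## constants first -/

/-- **PE Thm 5.1 (28), constants before the record `c`**: `cκ, Cκ` depend on the horizon `2 K0 + T + 1` and on `T` only      (the proof of `pfk_rig`, helper166 / helper98) -/
theorem p6tm_direct_cf (T K0 : ℝ) (hT : 1 < T) (hK0 : 0 < K0) :
    ∃ cκ Cκ : ℝ, 0 < cκ ∧ cκ ≤ Cκ ∧ ∀ c : P6C, c.Ok → c.Tinf = T → c.K = K0 → P6ImpDirect (fun n => skCPr n 1) c cκ Cκ := by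
  obtain ⟨cs, Cs, hcs, hcC, hsc⟩ := pfk_sc_ok exit_sc_rig (τ := 2 * K0 + T + 1) (by linarith)
  have hT0 : 0 < T := by linarith
  have hCs : 0 < Cs := hcs.trans_le hcC
  have h0 := pfs_kappa_rng (a2 := cs) (a4 := -cs) (Cs := Cs) hcs hT0 ⟨le_rfl, hcC⟩ ⟨by rw [neg_neg], by rw [neg_neg]; exact hcC⟩
  refine ⟨T * cs ^ 2 / (2 * Cs ^ 3), T * Cs ^ 2 / (2 * cs ^ 3), by positivity, h0.1.trans h0.2, ?_⟩
  intro c hc hcT hcK
  have hτ : 2 * K0 + T + 1 = c.tau := by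
    unfold P6C.tau
    rw [hcT, hcK]
  rw [hτ] at hsc
  intro U D lam x r c1 C1 C0 h1 h2 h3 hseq hl hfam hmin hx hxl hax hnE hxe hreg
  have h : PfDir U c D lam x r c1 C1 C0 := ⟨h1, h2, h3, hseq, hl, hfam, hmin, hx, hxl, hax, hnE, hxe, hreg⟩
  obtain ⟨E, ca, ce, a2, a4, hE, hS, ha2, ha4⟩ := pfk_seq hc (exit_prof_cav c hc) hcs hsc h
  have hk := pfs_kappa_rng hcs hT0 ha2 ha4
  refine ⟨T * a4 ^ 2 / (2 * a2 ^ 3), hk.1, hk.2, fun v hv => ?_⟩
  rw [← hcT]
  refine (pfi_main hS v hv).congr' ?_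
  filter_upwards [hE] with k ⟨q, H, J, g, e⟩
  rw [e]
  show q.r (x k * v) / x k = _
  rw [g.qr]

/-- all imports of PE Sec. 6 for the SK pressure, constants before the record `c` -/
theorem p6tm_imports_cf (T K0 : ℝ) (hT : 1 < T) (hK0 : 0 < K0) :
    ∃ cκ Cκ cT CT : ℝ, ∀ c : P6C, c.Ok → c.Tinf = T → c.K = K0 → P6Imports (fun n => skCPr n 1) c cκ Cκ cT CT := by
  obtain ⟨cκ, Cκ, h1, h2, hD⟩ := p6tm_direct_cf T K0 hT hK0
  obtain ⟨cT, CT, h3, h4, hq⟩ := exit_par_q T hT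
  refine ⟨cκ, Cκ, cT, CT, fun c hc hcT hcK => ?_⟩
  have hq' : MacPar c.Tinf (mparQ T) cT CT := by rw [hcT]; exact hq
  exact ⟨exit_p6_chord, exit_p6_min c hc, exit_p6_sweep c hc, hD c hc hcT hcK, mac_p6_macro hc hq', ⟨h1, h2⟩, ⟨h3, h4⟩⟩

/-- **EXIT, constants first** -/
theorem exit_p6tm_cf {W : BdWorld} (hB : P6TmBr W) (T K0 : ℝ) (hT : 1 < T) (hK0 : 0 < K0) :
    ∃ cκ Cκ cT CT : ℝ, ∀ c : P6C, c.Ok → c.Tinf = T → c.K = K0 →
      BcpPE W c cκ Cκ cT CT ∧ BcpMacQ W c (mparQ T) ∧ BcpQT (mparQ T) ∧ BcpK2 W c (mparQ T) := by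
  obtain ⟨cκ, Cκ, cT, CT, hI⟩ := p6tm_imports_cf T K0 hT hK0
  refine ⟨cκ, Cκ, cT, CT, fun c hc hcT hcK => ?_⟩
  have hI' : P6Imports (bcpFn W) c cκ Cκ cT CT := p6tm_imports_congr (fun n b h hn hh => hB n b h hn hh) (hI c hc hcT hcK)
  have hP : BcpPE W c cκ Cκ cT CT := ⟨hI', p6_exit hI' hc⟩
  rw [← hcT]
  exact ⟨hP, p6tm_macq hB hc, p6tm_qt hc, bcpk_K2 hc hP (p6tm_macq hB hc) (p6tm_qt hc)⟩

/-! ## the SK world -/

/-- BRIDGE-1 for the SK world (helper1) -/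
theorem p6tm_br_sk : P6TmBr skWorld := exit_clk_top_world

theorem exit_p6tm_sk (c : P6C) (hc : c.Ok) :
    ∃ cκ Cκ cT CT : ℝ, BcpPE skWorld c cκ Cκ cT CT ∧ BcpMacQ skWorld c (mparQ c.Tinf) ∧ BcpQT (mparQ c.Tinf) ∧ BcpK2 skWorld c (mparQ c.Tinf) :=
  exit_p6tm p6tm_br_sk c hc

theorem exit_p6tm_sk_cf (T K0 : ℝ) (hT : 1 < T) (hK0 : 0 < K0) :
    ∃ cκ Cκ cT CT : ℝ, ∀ c : P6C, c.Ok → c.Tinf = T → c.K = K0 →
      BcpPE skWorld c cκ Cκ cT CT ∧ BcpMacQ skWorld c (mparQ T) ∧ BcpQT (mparQ T) ∧ BcpK2 skWorld c (mparQ T) :=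
  exit_p6tm_cf p6tm_br_sk T K0 hT hK0

theorem p6tm_eqns_cite : True := by
  have := @P6TmBr.eq_1
  trivial

end Claimed.Agent.R286
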