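-- KEEP
import Claimed.Agent.R286.Cmp.DefsSk
import Claimed.Agent.R286.Cav.PreInstG

/-!
# Row 286 (S0533), EXIT `CavInstL`      OWNER helper18 (files R286/Cav/Pre*.lean) with 295/247/294;   ADV helper206;   source: PE cavity.tex l.84-133, l.1058-1072

**INSTANCE of the abstract inputs `CavIn.Ok` + `CavIn.Large` of PE Sec 4 at a minimiser of (6)**, regime `W ≥ w1` (`w1 > 0` any fixed threshold; R2 of 266: (19) with `C = 1/w1`, truncated at mass `1`).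
The fields `js`, `jU`, `T` of the instance are not used in this regime.
STATUS: PROVED here by glue (`Cav/PreInstG.lean`: `cvi_inst_l`) from the path-level leaves `cvi_*` of `Cav/PreInst.lean`, the exits `Exit/Cmp*` and the transfer `cvl_main` / `cvl_large` of 76 (`Cav/Lim.lean`).
-/

set_option autoImplicit false

namespace Claimed.Agent.R286

open Set Filter

theorem exit_cav_inst_l {mm cE D0 Tm ca ce c C C0 cd C4 C' w1 : ℝ} (hmm : 0 < mm) (hcE : 0 < cE) (hD0 : 0 < D0) (hca : 0 < ca) (hce : 0 < ce)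
    (hc : 0 < c) (hcC : c ≤ C) (hC0 : 0 < C0) (hcd : 0 < cd) (hC4 : 0 < C4) (hC' : 0 < C') (hw1 : 0 < w1) :
    ∃ (cc CC ρ : ℝ) (Cp : ℕ → ℝ), 0 < cc ∧ 0 < ρ ∧ ∀ (kM : ℕ) (δ : ℝ), 0 < δ → ∃ (κ : ℝ) (n0 : ℕ), 0 < κ ∧
      ∀ (I : CmI) (x T : ℝ), I.Std cE D0 Tm → MonotoneOn I.h0 (Icc I.P.u0 1) → I.P.m = mm → I.Loc ca ce c C C0 x → n0 ≤ I.P.n →
        cd * x ^ 2 ≤ I.P.e I.lam x → w1 ≤ cmW I.P I.lam x → I.P.u0 ≤ κ * x → x ≤ κ → 1 ≤ T → T ≤ Tm →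
        (∀ u : ℝ, C0 * x ≤ u → I.P.u0 < u → u < 1 → |I.b0 u - T| ≤ C4 * u ^ 2 ∧ |I.h0 u| ≤ C4 * u ^ 3) →
        ∃ (sv et : ℝ) (pX : GhPos), sv ≤ δ ∧ et ≤ δ ∧
          ∀ᶠ F : Finset GhPos in atTop,
            (cvInC I.P.n I.b I.h x (cmW I.P I.lam x) sv et T (ghPosA (C' * x)) pX pX pX (ghPs 1 F)).Ok cc CC ρ Cp kM ∧
            (cvInC I.P.n I.b I.h x (cmW I.P I.lam x) sv et T (ghPosA (C' * x)) pX pX pX (ghPs 1 F)).Large :=
  cvi_inst_l hmm hcE hD0 hca hce hc hcC hC0 hcd hC4 hC' hw1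

end Claimed.Agent.R286
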