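-- KEEP
import Claimed.Agent.R286.Cmp.DefsSk
import Claimed.Agent.R286.Cav.PreInstG

/-!
# Row 286 (S0533), EXIT `CavInstS`      OWNER helper18 (files R286/Cav/Pre*.lean) with 295/247/294;   ADV helper206;   source: PE cavity.tex l.84-133 ("We record the preceding estimates that will be used")

**INSTANCE of the abstract inputs `CavIn.Ok` + `CavIn.Star` of PE Sec 4 at a minimiser of (6)**, regime `W ≤ κ0` (captain's rule #3).
Constants `cc CC ρ Cp κ0` FIRST; then the number `kM` of moment orders, the top `C'` ... of the low band is a parameter; then the smallness `δ`.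
The positions of the cuts: `pB = ghPosA (C' x)` (top of the low band), `pX` (`U_x`), `ps` (`*`), `pU` (`U`) are chosen for the instance; the inputs hold on EVERY fine enough chain (eventually along the net of finite sets of positions).
Sources: `exit_cmp_raw` (12), `exit_cmp_res` (16), `exit_cmp_dir_split` (17) + `D_*`, `exit_cmp_dir18`, `exit_cmp_dir19i` (18), (19), (13) at the STEP level (pointwise in the field and in `V`; also for the SK path `cvRest` of size `n-1`),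
(11), geometry of the changed clocks; transfer to the chains: `exit_clk_lim_nu`, `exit_clk_lim_stat` (uniform in the cuts), Riemann sums.
STATUS: PROVED here by glue (`Cav/PreInstG.lean`: `cvi_inst_s`) from the path-level leaves `cvi_*` of `Cav/PreInst.lean`, the exits `Exit/Cmp*` and the transfer `cvl_main` / `cvl_large` of 76 (`Cav/Lim.lean`).
-/

set_option autoImplicit false

namespace Claimed.Agent.R286

open Set Filter

theorem exit_cav_inst_s {mm cE D0 Tm ca ce c C C0 cd C4 C' : ℝ} (hmm : 0 < mm) (hcE : 0 < cE) (hD0 : 0 < D0) (hca : 0 < ca) (hce : 0 < ce)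
    (hc : 0 < c) (hcC : c ≤ C) (hC0 : 0 < C0) (hcd : 0 < cd) (hC4 : 0 < C4) (hC' : 0 < C') :
    ∃ (cc CC ρ κ0 : ℝ) (Cp : ℕ → ℝ), 0 < cc ∧ 0 < ρ ∧ 0 < κ0 ∧ ∀ (kM : ℕ) (δ : ℝ), 0 < δ → ∃ (κ : ℝ) (n0 : ℕ), 0 < κ ∧
      ∀ (I : CmI) (x T : ℝ), I.Std cE D0 Tm → MonotoneOn I.h0 (Icc I.P.u0 1) → I.P.m = mm → I.Loc ca ce c C C0 x → n0 ≤ I.P.n →
        cd * x ^ 2 ≤ I.P.e I.lam x → cmW I.P I.lam x ≤ κ0 → I.P.u0 ≤ κ * x → x ≤ κ → 1 ≤ T → T ≤ Tm →
        (∀ u : ℝ, C0 * x ≤ u → I.P.u0 < u → u < 1 → |I.b0 u - T| ≤ C4 * u ^ 2 ∧ |I.h0 u| ≤ C4 * u ^ 3) →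
        ∃ (sv et : ℝ) (pX ps pU : GhPos), sv ≤ δ ∧ et ≤ δ ∧
          ∀ᶠ F : Finset GhPos in atTop,
            (cvInC I.P.n I.b I.h x (cmW I.P I.lam x) sv et T (ghPosA (C' * x)) pX ps pU (ghPs 1 F)).Ok cc CC ρ Cp kM ∧
            (cvInC I.P.n I.b I.h x (cmW I.P I.lam x) sv et T (ghPosA (C' * x)) pX ps pU (ghPs 1 F)).Star cc CC Cp kM :=
  cvi_inst_s hmm hcE hD0 hca hce hc hcC hC0 hcd hC4 hC'

end Claimed.Agent.R286
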