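-- KEEP
import Claimed.Agent.R286.Cmp.DefsSk
import Claimed.Agent.R286.Cmp.P5RawE

/-!
# Row 286 (S0533), EXIT `CmpRaw`      OWNER helper247 (package P05);   source: PE comparisons.tex l.290-606;   adversary helper38

**PE Prop 3.4 (raw moments)**, closed form: constants BEFORE the instance; the threshold in `n` is absorbed in `K` (`x ≥ ca a ≥ ca cE n^(-1/6)`); `x = o(1)` is not needed.
`E|X_p|^(2l) ≤ (K (u+x))^l`, `E R_p^(2l) ≤ (K (u+x))^(2l)` at EVERY position `p` of mass `u` (masses below the working interval and intermediate revelations included).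
Hypotheses added to `Std`, `Loc` (all are standing hypotheses of the paper): `mlo ≤ m` (the power margin `κ = 3m - δ` must stay away from `0`),
`h0` nondecreasing on the working interval (field slope `∂_r h ≥ (1-p) e`), `u0 ≤ x` (paper: `u0 = o(a)`).
Route: `cm5_raw_pf` (Cmp/P5Sus.lean), `cm5_raw2_pf` (Cmp/P5Tbl.lean), abstract path + instances `cmk_ppath`, `cmk_sample`, `cmk_limit` (Cmp/Inst.lean) + `exit_cmp_geo` (only `S_u ≤ r(u) + ℓ` off the floor) + Cmp/Num.lean.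
-/

set_option autoImplicit false

namespace Claimed.Agent.R286

/-- TEX[PE:comp:raw-moments] -/
theorem exit_cmp_raw (mlo cE D0 Tm ca ce c C C0 : ℝ) (hm : 0 < mlo) (hcE : 0 < cE) (hD0 : 0 < D0) (hTm : 0 < Tm) (hca : 0 < ca)
    (hce : 0 < ce) (hc : 0 < c) (hC : 0 < C) (hC0 : 0 < C0) (l : ℕ) (hl : 1 ≤ l) :
    ∃ K : ℝ, 0 < K ∧ ∀ (I : CmI) (x : ℝ), mlo ≤ I.P.m → I.Std cE D0 Tm → MonotoneOn I.h0 (Set.Icc I.P.u0 1) → I.P.u0 ≤ x →
      I.Loc ca ce c C C0 x → ∀ p : GhPos, p.Ok 1 →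
        cmkMX I.P.n I.b I.h l p ≤ (K * (p.u + x)) ^ l ∧ cmkMR I.P.n I.b I.h l p ≤ (K * (p.u + x)) ^ (2 * l) :=
  cm5r_exit_raw mlo cE D0 Tm ca ce c C C0 hm hcE hD0 hTm hca hce hc hC hC0 l hl

end Claimed.Agent.R286
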