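-- KEEP
import Claimed.Agent.R286.Cmp.DefsSk
import Claimed.Agent.R286.Cav.Defs
import Claimed.Agent.R286.Cav.Wrap

/-!
# Row 286 (S0533), EXIT `Cav`      OWNER helper223 (head of PE Sec 4; files R286/Cav/*.lean);   ADV helper266, helper206;   source: PE cavity.tex l.1-83 (statement), l.84-1222 (proof)

**PE Prop 4.1 (uniform one-site closure), MODULUS FORM**, at a minimiser of (6) in a small direct test; closed form, constants BEFORE the instance (D2):
`|S_u - Γ(K)_u| ≤ K x³ (ε + (D_u/x)^θ)` at EVERY target mass `c' x ≤ u ≤ C' x` with `r(u) ≤ C' x`;   `K, θ` do not depend on `ε`.      So (22) holds along `D_u = o(x)`, the bound is `O(x³)` uniformly (`D_u ≤ C x` by (12)),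
and the two normalised `L¹` claims follow from `exit_cmp_dir19m`, `exit_cmp_dir19r` and Jensen (`θ ≤ 1`; abstract lemma in `Cav/AbsL1.lean`).
`Γ(K)` at the position `p` = `cvGamC n b h p` (`Cav/Defs`): limit along the chains of the second magnetisation moment of the scalar site with the clock `K = h + b S` of the chain.   BRIDGES: `exit_cav_gam` (`= skCS 1 1 0 K` at the positions after the jumps); scalar library in variance time: 185 + 102 (`Sc/Link`).
HYPOTHESES: `Std`, `Loc` (outer regularity above `C0 x`, `x ≳ a`, `e(x) x² ≳ n E²`), `e(x) ≥ cd x²`, `u0 ≤ κ x`, `x ≤ κ`, and the endpoint hypothesis (4) in its O-FORM on the regular outer region only (R3 of 266, checked by 142: Sec 4 never uses the little-oh).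
The temperature `T` is a field (D3).      Route: `exit_cav_inst_s`, `exit_cav_inst_l` (inputs `CavIn` along the chains) + `cav_clk_small`, `cav_clk_large` (`Cav/Contract.lean`).
-/

set_option autoImplicit false

namespace Claimed.Agent.R286

open Set

/-- TEX[PE:prop:cavity-closure] -/
theorem exit_cav {mm cE D0 Tm ca ce c C C0 cd C4 c' C' : ℝ} (hmm : 0 < mm) (hcE : 0 < cE) (hD0 : 0 < D0) (hca : 0 < ca) (hce : 0 < ce)
    (hc : 0 < c) (hcC : c ≤ C) (hC0 : 0 < C0) (hcd : 0 < cd) (hC4 : 0 < C4) (hc' : 0 < c') (hC' : c' ≤ C') :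
    ∃ K θ : ℝ, 0 < K ∧ 0 < θ ∧ θ ≤ 1 ∧ ∀ ε : ℝ, 0 < ε → ∃ (κ : ℝ) (n0 : ℕ), 0 < κ ∧
      ∀ (I : CmI) (x T : ℝ), I.Std cE D0 Tm → MonotoneOn I.h0 (Icc I.P.u0 1) → I.P.m = mm → I.Loc ca ce c C C0 x → n0 ≤ I.P.n →
        cd * x ^ 2 ≤ I.P.e I.lam x → I.P.u0 ≤ κ * x → x ≤ κ → 1 ≤ T → T ≤ Tm →
        (∀ u : ℝ, C0 * x ≤ u → I.P.u0 < u → u < 1 → |I.b0 u - T| ≤ C4 * u ^ 2 ∧ |I.h0 u| ≤ C4 * u ^ 3) →
        ∀ u : ℝ, c' * x ≤ u → u ≤ C' * x → I.P.u0 ≤ u → u ≤ 1 → I.q.r u ≤ C' * x →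
          |I.num.S u - cvGamC I.P.n I.b I.h (ghPosA u)| ≤ K * x ^ 3 * (ε + (I.num.D u / x) ^ θ) :=
  cvw_exit_cav hmm hcE hD0 hca hce hc hcC hC0 hcd hC4 hc' hC'

end Claimed.Agent.R286
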