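-- KEEP
import Claimed.Agent.R286.Cmp.DefsSk
import Claimed.Agent.R286.Cav.Defs
import Claimed.Agent.R286.Cav.Wrap

/-!
# Row 286 (S0533), EXIT `CavOm`      OWNER helper137 (files R286/Cav/Ret*.lean) under helper223;   ADV helper271, helper266;   source: PE cavity.tex l.63-66 (statement), l.1127-1200 (proof)

**PE Prop 4.1, omitted lower cuts**: when `W = max(x, √e(x)) ≤ CW x`, the `O(x³)` closure holds at EVERY POSITION of mass `≤ C' x` (also below the working interval, also inside a jump), without a lower bound on the mass and without (4) at that cut.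
(4) is used in its O-form on the regular outer region only.      User: PE Lemma 7.3 (`fl:low-mean`).      Route: `exit_cav_inst_s` + `cav_clk_omitted` (`Cav/Contract.lean`).
-/

set_option autoImplicit false

namespace Claimed.Agent.R286

open Set

/-- TEX[PE:prop:cavity-closure] (omitted lower cuts) -/
theorem exit_cav_om {mm cE D0 Tm ca ce c C C0 cd C4 CW C' : ℝ} (hmm : 0 < mm) (hcE : 0 < cE) (hD0 : 0 < D0) (hca : 0 < ca) (hce : 0 < ce)
    (hc : 0 < c) (hcC : c ≤ C) (hC0 : 0 < C0) (hcd : 0 < cd) (hC4 : 0 < C4) (hCW : 1 ≤ CW) (hC' : 0 < C') :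
    ∃ (K κ : ℝ) (n0 : ℕ), 0 < K ∧ 0 < κ ∧
      ∀ (I : CmI) (x T : ℝ), I.Std cE D0 Tm → MonotoneOn I.h0 (Icc I.P.u0 1) → I.P.m = mm → I.Loc ca ce c C C0 x → n0 ≤ I.P.n →
        cd * x ^ 2 ≤ I.P.e I.lam x → cmW I.P I.lam x ≤ CW * x → I.P.u0 ≤ κ * x → x ≤ κ → 1 ≤ T → T ≤ Tm →
        (∀ u : ℝ, C0 * x ≤ u → I.P.u0 < u → u < 1 → |I.b0 u - T| ≤ C4 * u ^ 2 ∧ |I.h0 u| ≤ C4 * u ^ 3) →
        ∀ p : GhPos, p.Ok 1 → p.u ≤ C' * x → |skCS I.P.n 1 I.b I.h p - cvGamC I.P.n I.b I.h p| ≤ K * x ^ 3 :=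
  cvw_exit_cav_om hmm hcE hD0 hca hce hc hcC hC0 hcd hC4 hCW hC'

end Claimed.Agent.R286
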