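-- KEEP
import Claimed.Agent.R286.Prof.Imports
import Claimed.Agent.R286.Prof.InstCav

/-!
# Row 286 (S0533), EXIT `ProfCav`      OWNER helper98 (block W4 of PE Sec 4; LINKED 04:55Z to `pfv_cav`, `pfv_cav_om`, Prof/InstCav, 0 own sorry);   consumers: `exit_rig`, `exit_rig_lin` (PE Sec 5), `flh_link` (PE Sec 7, helper54)
source: PE cavity.tex l.1-83

**PE Prop 4.1 in the ultrafilter frame of the direct tests** (`PfDir`), against the scalar library in variance time (`pfG c.tau (pfK u)`).
PROOF = converter `PfDir ⟹ CmI.Std, CmI.Loc, (4) in O-form, u0 ≤ κ x, x ≤ κ, n0 ≤ n` (`pfk_step0` of helper166 / `pfc_inst` of helper256) ∘ `exit_cav`, `exit_cav_om` (fixed size, constants first)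
∘ THE BRIDGE `pfv_gam` (Prof/InstCav, proved) ∘ `pfv_eta` (`∀ ε` eventually ⟹ `η_k → 0`, proved).
-/

set_option autoImplicit false

namespace Claimed.Agent.R286

/-- TEX[PE:prop:cavity-closure] -/
theorem exit_prof_cav (c : P6C) (hc : c.Ok) : PfImpCav c := pfv_cav c hc

/-- TEX[PE:prop:cavity-closure] (omitted lower cuts) -/
theorem exit_prof_cav_om (c : P6C) (hc : c.Ok) : PfImpCavOm c := pfv_cav_om c hc

end Claimed.Agent.R286
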