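import Claimed.Agent.R286.Prof.Imports
import Claimed.Agent.R286.Sc.MomG
import Claimed.Agent.R286.Sc.Hopf

/-!
# Row 286, EXIT of the scalar block for PE Section 5: `exit_sc_rig : PfImpSc`      (helper48; order of helper98)

TEX[PE:prof:scalar-derivatives] = PE Lemma 5.3 in variance time, fixed horizon, constants uniform in the profile.
Chain: `Sc/MomG.lean` (moment identity `scm_moment_gen` for every monotone profile, tau-free bounds, expansions `scm_exit_exp`)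
+ `Sc/Hopf.lean` (141: strict curvature `sch_aD2`, `sch_aD4`) + `Sc/Gen.lean` (107: `scg_aD_bound`).     Consumer: `Prof/InstSc.lean` (98).
-/

set_option autoImplicit false

namespace Claimed.Agent.R286

open MeasureTheory Set

theorem exit_sc_rig : PfImpSc := by
  intro τ hτ
  have hF : ScCont 1 (scLC 1) := scb_LC_cont one_pos
  obtain ⟨C, hC0, -, hC⟩ := scg_aD_bound (zero_le_one' ℝ) hF.smooth
  obtain ⟨E, hE0, hE⟩ := scm_exit_exp hF
  have e3 : 0 < Real.exp (-(3 * (1:ℝ) ^ 2 * τ)) := Real.exp_pos _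
  have e7 : 0 < Real.exp (-(7 * (1:ℝ) ^ 2 * τ)) := Real.exp_pos _
  obtain ⟨cs, hcs⟩ : ∃ cs : ℝ, cs = min (1 * Real.exp (-(3 * (1:ℝ) ^ 2 * τ))) (2 * (1:ℝ) ^ 3 * Real.exp (-(7 * (1:ℝ) ^ 2 * τ))) :=
    ⟨_, rfl⟩
  have hcs0 : 0 < cs := by rw [hcs]; exact lt_min (by positivity) (by positivity)
  refine ⟨cs, cs + C 2 + C 4 + E, hcs0, by linarith [hC0 2, hC0 4], fun α hα => ?_⟩
  have l2 := sch_aD2 one_pos hτ.le hα
  have l4 := sch_aD4 one_pos hτ.le hα
  have u2 := hC τ α hτ.le hα 2 (by norm_num) 0 le_rfl 0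
  have u4 := hC τ α hτ.le hα 4 (by norm_num) 0 le_rfl 0
  obtain ⟨-, -, c3, -, c5, -, -⟩ := scm_exit_cont hF hα hτ.le
  have hCs : E ≤ cs + C 2 + C 4 + E := by linarith [hC0 2, hC0 4]
  refine ⟨⟨(hcs ▸ min_le_left _ _ : cs ≤ _).trans l2, ?_⟩, ⟨(hcs ▸ min_le_right _ _ : cs ≤ _).trans l4, ?_⟩, c5, c3,
    fun t ht => scm_exit_Gam hF hα ht, scm_exit_M2_zero _ _ _, fun t ht => ?_, fun t ht => ?_, fun t ht => ?_⟩
  · linarith [le_abs_self (scaD 2 (scLC 1) α τ 0 0), hC0 4]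
  · linarith [neg_abs_le (scaD 4 (scLC 1) α τ 0 0), hC0 2]
  · have e := scm_exit_M2 hF hα ⟨le_rfl, hτ.le⟩ ht
    rw [← e]; ring
  · exact (hE τ α hα t ht).1.trans (mul_le_mul_of_nonneg_right hCs (by positivity))
  · exact (hE τ α hα t ht).2.1.trans (mul_le_mul_of_nonneg_right hCs ht.1)

end Claimed.Agent.R286
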