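-- KEEP
import Claimed.Agent.R286.Bud.Cp
import Claimed.Agent.R286.Bud.N11E
import Claimed.Agent.R286.Prof.InstMain
import Claimed.Agent.R286.Prof.InstCav
import Claimed.Agent.R286.Exit.ScRig
import Claimed.Agent.R286.Exit.ProfCav
import Claimed.Agent.R286.Exit.ScBd7
import Claimed.Agent.R286.Exit.BudWorld
import Claimed.Agent.R286.Exit.ClkTop

/-!
# Row 286 (S0533), EXIT `BcpSk`: THE SK INSTANCES of two imports of LL sec. 7, Step 3 (`Bud/Cp.lean`, record `BcpIn3`)      OWNER helper142 (prefix `bsk_`)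

* `bsk_stab  : 0 < τ → Kmax ≤ τ → BcpStab (sb7Sc τ) Kmax`      bounded-clock stability of `a2 = V_zz(0,0)`, `a4 = V_zzzz(0,0)` in `L¹(0,1)` of the clocks
      (`sc_x_stab` = Lipschitz in `L¹` of the mass profile, `bud_n11_layer` = `∫|dist K1 - dist K2| ≤ ∫|K1 - K2|`).      TEX[LL:bud:modified-closure]#1134-1137
* `bsk_dirK  : c.Ok → BcpDirK skWorld (sb7Sc c.tau) c`      PE Thm 5.1 with the explicit slope (29)
      (`pfk_seq`, `pfi_main` of Prof/InstMain, InstSk; BRIDGE-1/2 of `Exit/ClkTop`; the two codings of the scalar clock have the same mass profile).      TEX[PE:prof:direct-profile]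
* `bsk_dirK_hz : c.Ok → c.tau ≤ τ → BcpDirK skWorld (sb7Sc τ) c`      the same at any larger horizon (`sc_x_horizon`).
* `bsk_isMin` : transport of `IsMin` between the pressure of `skWorld` and `skCPr · 1`, for sizes `0 < n` (the world has a dummy at `n = 0`).
USE: `BcpIn3 skWorld (sb7Sc c.tau) ⟨c.tau, c.tau, ..⟩ c ..`:  `dirK := bsk_dirK hc`, `stab := bsk_stab (pfk_tau_pos hc) le_rfl`.
-/

set_option autoImplicit false

namespace Claimed.Agent.R286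

open MeasureTheory Set Filter Topology Asymptotics

noncomputable section

/-! ## 1. stability -/

/-- `L¹` distance of the mass profiles is at most the `L¹` distance of the clocks -/
theorem bsk_layer {K1 K2 : ℝ → ℝ} {τ : ℝ} (h1 : IsClock 1 K1) (h2 : IsClock 1 K2) (b1 : ∀ v ∈ Ioo (0 : ℝ) 1, K1 v ≤ τ)
    (b2 : ∀ v ∈ Ioo (0 : ℝ) 1, K2 v ≤ τ) :
    ∫ t in (0 : ℝ)..τ, |scAlK 1 K1 t - scAlK 1 K2 t| ≤ ∫ v in (0 : ℝ)..1, |K1 v - K2 v| := by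
  have := bud_n11_layer (K1 := K1) (K2 := K2) (w := fun _ => 1) (Q0 := τ) h1.mono h2.mono
    (fun v hv => ⟨h1.nonneg v hv, b1 v hv⟩) (fun v hv => ⟨h2.nonneg v hv, b2 v hv⟩) (fun _ _ _ _ _ => le_rfl)
    (fun _ _ => zero_le_one)
  simpa [sb7_alK_eq] using this

/-- one derivative at the origin -/
theorem bsk_stab_k {τ Kmax : ℝ} (hτ : 0 < τ) (hK : Kmax ≤ τ) (j : ℕ) (U : Ultrafilter ℕ) (K : ℕ → ℝ → ℝ) (K0 : ℝ → ℝ)
    (h1 : ∀ᶠ k in U, IsClock 1 (K k) ∧ ∀ v ∈ Ioo (0 : ℝ) 1, K k v ≤ Kmax) (h0 : IsClock 1 K0)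
    (b0 : ∀ v ∈ Ioo (0 : ℝ) 1, K0 v ≤ Kmax) (hl : Tendsto (fun k => ∫ v in (0 : ℝ)..1, |K k v - K0 v|) U (𝓝 0)) :
    Tendsto (fun k => scaD j (scLC 1) (scAlK 1 (K k)) τ 0 0) U (𝓝 (scaD j (scLC 1) (scAlK 1 K0) τ 0 0)) := by
  obtain ⟨C, hC⟩ := sc_x_stab (a := 1) one_pos hτ j
  rw [tendsto_iff_norm_sub_tendsto_zero]
  have hz : Tendsto (fun k => |C| * ∫ v in (0 : ℝ)..1, |K k v - K0 v|) U (𝓝 0) := by
    simpa using hl.const_mul |C|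
  refine squeeze_zero' (Eventually.of_forall fun _ => norm_nonneg _) ?_ hz
  filter_upwards [h1] with k hk
  have e1 := (hC (scAlK 1 K0) (scAlK 1 (K k)) (sc_x_alK one_pos K0) (sc_x_alK one_pos (K k)) 0 (left_mem_Icc.2 hτ.le)).1 0
  have e2 := bsk_layer hk.1 h0 (fun v hv => (hk.2 v hv).trans hK) (fun v hv => (b0 v hv).trans hK)
  have e3 : 0 ≤ ∫ t in (0 : ℝ)..τ, |scAlK 1 (K k) t - scAlK 1 K0 t| :=
    intervalIntegral.integral_nonneg hτ.le fun _ _ => abs_nonneg _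
  rw [Real.norm_eq_abs]
  calc _ ≤ C * ∫ t in (0 : ℝ)..τ, |scAlK 1 (K k) t - scAlK 1 K0 t| := e1
    _ ≤ |C| * ∫ t in (0 : ℝ)..τ, |scAlK 1 (K k) t - scAlK 1 K0 t| := mul_le_mul_of_nonneg_right (le_abs_self C) e3
    _ ≤ _ := mul_le_mul_of_nonneg_left e2 (abs_nonneg C)

/-- **INSTANCE of `BcpStab`**.      TEX[LL:bud:modified-closure]#1134-1137 -/
theorem bsk_stab {τ Kmax : ℝ} (hτ : 0 < τ) (hK : Kmax ≤ τ) : BcpStab (sb7Sc τ) Kmax := by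
  intro U K K0 h1 h0 b0 hl
  exact ⟨bsk_stab_k hτ hK 2 U K K0 h1 h0 b0 hl, bsk_stab_k hτ hK 4 U K K0 h1 h0 b0 hl⟩

/-! ## 2. the horizon -/

/-- above the clock the mass profile is `1` -/
theorem bsk_al_one {K : ℝ → ℝ} {τ t : ℝ} (hK : ∀ v ∈ Ioo (0 : ℝ) 1, K v ≤ τ) (ht : τ ≤ t) : scAlK 1 K t = 1 := by
  have e : {v : ℝ | v ∈ Ioo (0 : ℝ) 1 ∧ K v ≤ t} = Ioo 0 1 := by
    ext v
    exact ⟨fun h => h.1, fun h => ⟨h, (hK v h).trans ht⟩⟩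
  unfold scAlK
  rw [e, Real.volume_Ioo]
  simp

/-- **the derivatives of order `≥ 1` at the time `0` do not depend on the horizon** (any horizon above the clock) -/
theorem bsk_hz {K : ℝ → ℝ} {τ τ' : ℝ} (hτ : 0 < τ) (hττ : τ ≤ τ') (hK : ∀ v ∈ Ioo (0 : ℝ) 1, K v ≤ τ) (j : ℕ) :
    scaD (j + 1) (scLC 1) (scAlK 1 K) τ' 0 = scaD (j + 1) (scLC 1) (scAlK 1 K) τ 0 := by
  have h := (sc_x_horizon one_pos hτ hττ (sc_x_alK one_pos K) (fun t ht => bsk_al_one hK ht.1.le)).1 0 (left_mem_Icc.2 hτ.le)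
  have e : scVa (scLC 1) (scAlK 1 K) τ' 0 = fun z => scVa (scLC 1) (scAlK 1 K) τ 0 z + 1 * (τ' - τ) / 2 := funext h
  unfold scaD
  rw [Function.iterate_succ_apply, Function.iterate_succ_apply, e, deriv_add_const']

theorem bsk_hz_a2 {K : ℝ → ℝ} {τ τ' : ℝ} (hτ : 0 < τ) (hττ : τ ≤ τ') (hK : ∀ v ∈ Ioo (0 : ℝ) 1, K v ≤ τ) :
    (sb7Sc τ').a2 K = (sb7Sc τ).a2 K := congrFun (bsk_hz hτ hττ hK 1) 0

theorem bsk_hz_a4 {K : ℝ → ℝ} {τ τ' : ℝ} (hτ : 0 < τ) (hττ : τ ≤ τ') (hK : ∀ v ∈ Ioo (0 : ℝ) 1, K v ≤ τ) :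
    (sb7Sc τ').a4 K = (sb7Sc τ).a4 K := congrFun (bsk_hz hτ hττ hK 3) 0

/-! ## 3. the world on PE-admissible paths (sizes `0 < n`) -/

/-- BRIDGE-1 -/
theorem bsk_f {n : ℕ} (hn : 0 < n) {b h : ℝ → ℝ} (hA : P6Adm b h) : bcpFn skWorld n b h = skCPr n 1 b h := by
  show (skWorld.ps n).f b h = _
  rw [bw_ps hn]
  exact (exit_clk_top_pr hn one_pos hA.1 hA.2).symm

/-- BRIDGE-2 -/
theorem bsk_S {n : ℕ} (hn : 0 < n) {b h : ℝ → ℝ} (hA : P6Adm b h) {v : ℝ} (hv : v < 1) :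
    (skWorld.ps n).S b h v = skCS n 1 b h (ghPosA v) := by
  rw [bw_ps hn]
  exact (exit_clk_top_S hn one_pos hA.1 hA.2 hv).symm

theorem bsk_obj {D : P6D} {lam : ℝ} (hn : 0 < D.P.n) (hfam : D.Fam lam) {r : ℝ → ℝ} (hr : D.P.Fe r) :
    D.obj (bcpFn skWorld) lam r = D.obj (fun n => skCPr n 1) lam r := by
  unfold P6D.obj
  rw [bsk_f hn (hfam r hr)]

/-- minimisers for the pressure of the world = minimisers for `skCPr · 1` -/
theorem bsk_isMin {D : P6D} {lam : ℝ} {r : ℝ → ℝ} (hn : 0 < D.P.n) (hfam : D.Fam lam) :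
    D.IsMin (bcpFn skWorld) lam r ↔ D.IsMin (fun n => skCPr n 1) lam r := by
  constructor
  · rintro ⟨h1, h2⟩
    refine ⟨h1, fun r' hr' => ?_⟩
    rw [← bsk_obj hn hfam h1, ← bsk_obj hn hfam hr']
    exact h2 r' hr'
  · rintro ⟨h1, h2⟩
    refine ⟨h1, fun r' hr' => ?_⟩
    rw [bsk_obj hn hfam h1, bsk_obj hn hfam hr']
    exact h2 r' hr'

/-- the scalar clock of the world is `cvKf` on `(0,1)` -/
theorem bsk_Kc_eq {D : P6D} {lam : ℝ} {r : ℝ → ℝ} (hn : 0 < D.P.n) (hA : P6Adm (D.Pb lam r) (D.Ph lam r)) {v : ℝ} (hv : v < 1) :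
    D.Kc skWorld lam r v = cvKf D.P.n (D.Pb lam r) (D.Ph lam r) v := by
  unfold cvKf P6D.Kc
  rw [bsk_S hn hA hv]

/-- the scalar clock of the world and the right continuous scalar clock of PE Sec. 5 have the same mass profile -/
theorem bsk_al {D : P6D} {lam : ℝ} {r : ℝ → ℝ} (hn : 0 < D.P.n) (hA : P6Adm (D.Pb lam r) (D.Ph lam r)) :
    scAlK 1 (D.Kc skWorld lam r) = pfAl D.P.n (D.Pb lam r) (D.Ph lam r) := by
  rw [← pfv_alK_eq hA.1 hA.2]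
  funext t
  unfold scAlK
  congr 2
  ext v
  constructor
  · rintro ⟨hv, h⟩
    exact ⟨hv, by rw [← bsk_Kc_eq hn hA hv.2]; exact h⟩
  · rintro ⟨hv, h⟩
    exact ⟨hv, by rw [bsk_Kc_eq hn hA hv.2]; exact h⟩

/-- the scalar clock of the world stays below the horizon `c.tau` -/
theorem bsk_Kc_le {c : P6C} (hc : c.Ok) {D : P6D} {lam : ℝ} {r : ℝ → ℝ} (hn : 0 < D.P.n) (hA : P6Adm (D.Pb lam r) (D.Ph lam r))
    (hr : D.P.Fe r) (hu1 : D.P.u0 ≤ 1) (hl : 0 < lam) (hclk : P6Bd D.b0 D.h0 c.K) {v : ℝ} (hv : v ∈ Ioo (0 : ℝ) 1) :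
    D.Kc skWorld lam r v ≤ c.tau := by
  have h1m : (1 : ℝ) ∈ Icc (0 : ℝ) 1 := ⟨zero_le_one, le_rfl⟩
  have h0m : (0 : ℝ) ∈ Icc (0 : ℝ) 1 := ⟨le_rfl, zero_le_one⟩
  have hvm : v ∈ Icc (0 : ℝ) 1 := ⟨hv.1.le, hv.2.le⟩
  obtain ⟨q, rfl⟩ := hr
  have hS0 := pfs_S_nn hn hA.1 hA.2 hvm
  have hS1 : pfS D lam q.r v ≤ 1 := by
    have := (pfs_S_sq hn hA.1 hA.2 hvm).trans (pfs_B_le hn hA.1 hA.2 hvm)
    nlinarith
  have hbv0 : 0 ≤ D.Pb lam q.r v := hA.1.2.trans (hA.1.1 h0m hvm hv.1.le)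
  have hbv1 : D.Pb lam q.r v ≤ D.Pb lam q.r 1 := hA.1.1 hvm h1m hv.2.le
  have hhv1 : D.Ph lam q.r v ≤ D.Ph lam q.r 1 := hA.2.1 hvm h1m hv.2.le
  have he0 := cm_e_pos D.P hl (q.r 1)
  have hr1 := q.r_mem 1 ⟨hu1, le_rfl⟩
  have hb1 : D.Pb lam q.r 1 ≤ c.K - D.P.e lam (q.r 1) := by
    unfold P6D.Pb
    rw [if_pos hu1]
    linarith [(abs_le.1 (hclk 1 h1m).1).2]
  have hh1 : D.Ph lam q.r 1 ≤ c.K + D.P.e lam (q.r 1) := by
    unfold P6D.Ph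
    rw [if_pos hu1]
    have h3 : D.P.e lam (q.r 1) * q.r 1 ≤ D.P.e lam (q.r 1) := mul_le_of_le_one_right he0.le hr1.2
    linarith [(abs_le.1 (hclk 1 h1m).2).2]
  have e : D.Kc skWorld lam q.r v = D.Ph lam q.r v + D.Pb lam q.r v * pfS D lam q.r v := by
    rw [bsk_Kc_eq hn hA hv.2]
    rfl
  have h4 : D.Pb lam q.r v * pfS D lam q.r v ≤ D.Pb lam q.r v := mul_le_of_le_one_right hbv0 hS1
  rw [e]
  unfold P6C.tau
  linarith [hc.T_gt]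

/-! ## 4. PE Thm 5.1 with the explicit slope -/

/-- **INSTANCE of `BcpDirK`** at the horizon `c.tau` of the PE calls.      TEX[PE:prof:direct-profile] -/
theorem bsk_dirK {c : P6C} (hc : c.Ok) : BcpDirK skWorld (sb7Sc c.tau) c := by
  intro U D lam x r c1 C1 C0 A B h1 h2 h3 hseq hl hfam hmin hx hxl hax hnE hxe hreg hA hB v hv
  have hn : ∀ᶠ k in U, 0 < (D k).P.n := (pfk_n_ge hseq 1).mono fun k hk => hk
  have h : PfDir U c D lam x r c1 C1 C0 := ⟨h1, h2, h3, hseq, hl, hfam, by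
    filter_upwards [hn, hfam, hmin] with k a1 a2 a3
    exact (bsk_isMin a1 a2).1 a3, hx, hxl, hax, hnE, hxe, hreg⟩
  obtain ⟨cs, Cs, hcs, hcC, hsc⟩ := pfk_sc_ok exit_sc_rig (pfk_tau_pos hc)
  obtain ⟨E, ca, ce, a2, a4, hE, hS, ha2, ha4⟩ := pfk_seq hc (exit_prof_cav c hc) hcs hsc h
  have e2 : ∀ᶠ k in U, (sb7Sc c.tau).a2 ((D k).Kc skWorld (lam k) (r k)) = (E k).a2 ∧
      (sb7Sc c.tau).a4 ((D k).Kc skWorld (lam k) (r k)) = (E k).a4 := by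
    filter_upwards [hE, hn, hfam, hmin] with k ⟨q, H, J, g, e⟩ b1 b2 b3
    have hAd := b2 (r k) b3.1
    rw [e]
    constructor
    · show scaD 2 (scLC 1) (scAlK 1 ((D k).Kc skWorld (lam k) (r k))) c.tau 0 0
        = pfsA2 (D k).P.n ((D k).Pb (lam k) q.r) ((D k).Ph (lam k) q.r) c.tau
      rw [bsk_al b1 hAd, g.qr]
      rfl
    · show scaD 4 (scLC 1) (scAlK 1 ((D k).Kc skWorld (lam k) (r k))) c.tau 0 0
        = pfsA4 (D k).P.n ((D k).Pb (lam k) q.r) ((D k).Ph (lam k) q.r) c.tau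
      rw [bsk_al b1 hAd, g.qr]
      rfl
  have lA : Tendsto (fun k => (D k).T ^ 3 * (sb7Sc c.tau).a4 ((D k).Kc skWorld (lam k) (r k)) ^ 2) U
      (𝓝 (c.Tinf ^ 3 * a4 ^ 2)) := by
    refine ((hseq.T_lim.pow 3).mul (hS.a4_lim.pow 2)).congr' ?_
    filter_upwards [e2] with k hk
    rw [hk.2]
  have lB : Tendsto (fun k => 2 * (D k).T ^ 2 * (sb7Sc c.tau).a2 ((D k).Kc skWorld (lam k) (r k)) ^ 3) U
      (𝓝 (2 * c.Tinf ^ 2 * a2 ^ 3)) := by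
    refine (((hseq.T_lim.pow 2).const_mul 2).mul (hS.a2_lim.pow 3)).congr' ?_
    filter_upwards [e2] with k hk
    rw [hk.1]
  have eA := tendsto_nhds_unique hA lA
  have eB := tendsto_nhds_unique hB lB
  have hT : 0 < c.Tinf := by linarith [hc.T_gt]
  have ha2p := hS.a2_pos
  have ha4n := hS.a4_ne
  have ev : B / A * v = v / (c.Tinf * a4 ^ 2 / (2 * a2 ^ 3)) := by
    rw [eA, eB]
    field_simp
  rw [ev]
  refine (pfi_main hS v hv).congr' ?_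
  filter_upwards [hE] with k ⟨q, H, J, g, e⟩
  rw [e]
  show q.r (x k * v) / x k = _
  rw [g.qr]

/-- **INSTANCE of `BcpDirK`** at any horizon above `c.tau` -/
theorem bsk_dirK_hz {c : P6C} (hc : c.Ok) {τ : ℝ} (hτ : c.tau ≤ τ) : BcpDirK skWorld (sb7Sc τ) c := by
  intro U D lam x r c1 C1 C0 A B h1 h2 h3 hseq hl hfam hmin hx hxl hax hnE hxe hreg hA hB
  have hn : ∀ᶠ k in U, 0 < (D k).P.n := (pfk_n_ge hseq 1).mono fun k hk => hk
  have e : ∀ᶠ k in U, (sb7Sc τ).a2 ((D k).Kc skWorld (lam k) (r k)) = (sb7Sc c.tau).a2 ((D k).Kc skWorld (lam k) (r k)) ∧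
      (sb7Sc τ).a4 ((D k).Kc skWorld (lam k) (r k)) = (sb7Sc c.tau).a4 ((D k).Kc skWorld (lam k) (r k)) := by
    filter_upwards [hn, hfam, hmin, hl, hseq.ok, hseq.clk] with k b1 b2 b3 b4 b5 b6
    have hu1 : (D k).P.u0 ≤ 1 := by
      have : (D k).P.u0 ≤ 1 / 2 := b5.u01
      linarith
    have hb : ∀ v ∈ Ioo (0 : ℝ) 1, (D k).Kc skWorld (lam k) (r k) v ≤ c.tau :=
      fun v hv => bsk_Kc_le hc b1 (b2 _ b3.1) b3.1 hu1 b4.1 b6 hv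
    exact ⟨bsk_hz_a2 (pfk_tau_pos hc) hτ hb, bsk_hz_a4 (pfk_tau_pos hc) hτ hb⟩
  refine bsk_dirK hc U D lam x r c1 C1 C0 A B h1 h2 h3 hseq hl hfam hmin hx hxl hax hnE hxe hreg (hA.congr' ?_) (hB.congr' ?_)
  · filter_upwards [e] with k hk
    rw [hk.2]
  · filter_upwards [e] with k hk
    rw [hk.1]

end

end Claimed.Agent.R286
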