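-- KEEP
import Claimed.Agent.R286.Cmp.DefsSk
import Claimed.Agent.R286.Cmp.Inst
import Claimed.Agent.R286.Cmp.P04Contract

/-!
# Row 286 (S0533), EXIT `CmpEnv`      OWNER helper255 (package P04, files R286/Cmp/P04*.lean);   ADV helper106;   section head helper295
source: PE comparisons.tex l.110-157 (Lemma 3.1: statement and proof)

**PE Lemma 3.1 (existence and the optimized envelope)**, closed form, thresholds depending on `(mm, cE)` only.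
* `exit_cmp_env_min`    the class (5) is nonempty, the minimum of (6) is attained at every admissible strength;
* `exit_cmp_env_zero`   `𝓜_0 = f_n(b0,h0)`;      * `exit_cmp_env_mono`   `𝓜` is nondecreasing and `1/2`-Lipschitz between two admissible strengths;
* `exit_cmp_env_dini`   at EVERY positive strength (the "almost every" of the paper is superfluous) the upper right derivative per unit `log λ` is at most (7) at ANY minimiser;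
* `exit_cmp_env_int`    the integrated form, the only one used later (PE l.795-806, 1080-83, propagation l.25, 596, fluctuations l.410);
* `exit_cmp_env_total`  the whole admissible sweep from `0`: `f_n(b0,h0) ≤ 𝓜_λ1 ≤ f_n(b0,h0) + K log(λ1/λ0) + λ0/2`;      * `exit_cmp_env_small`  `f_n(b0,h0) ≤ 𝓜_λ1 ≤ f_n(b0,h0) + λ1/2`.
HYPOTHESIS MADE EXPLICIT: admissibility (`CmkAdm`) at the strengths involved; (4) of PE is not used.
PROVED HERE from `cmk_pr_ok` (295, `Cmp/Inst.lean`: `CmPr.Ok` of SK, from `Exit/ClkPr`, `ClkStat`, `ClkLip`) + `cm4_nonempty`, `cm4_min_*` (`Cmp/P04Contract.lean`, 0 sorry; the definitions agree by `rfl`).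
-/

set_option autoImplicit false

namespace Claimed.Agent.R286

open MeasureTheory Set Filter Topology

/-- the dictionary SK vocabulary (`Cmp/DefsSk.lean`) = P04 vocabulary (`Cmp/P04Contract.lean`) at `Pr = cmkPr n` -/
theorem cmk4_obj (P : CmCall) (lam : ℝ) (b0 h0 : ℝ → ℝ) (q : CmQ P) : cmkObj P lam b0 h0 q = q.obj (cmkPr P.n) lam b0 h0 := rfl

theorem cmk4_adm (P : CmCall) (lam : ℝ) (b0 h0 : ℝ → ℝ) : CmkAdm P lam b0 h0 = cmAdm (cmkPr P.n) P lam b0 h0 := rfl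

theorem cmk4_min (P : CmCall) (lam : ℝ) (b0 h0 : ℝ → ℝ) (q : CmQ P) : CmkMin P lam b0 h0 q = q.IsMin (cmkPr P.n) lam b0 h0 := rfl

theorem cmk4_val (P : CmCall) (lam : ℝ) (b0 h0 : ℝ → ℝ) : cmkVal P lam b0 h0 = cmVal (cmkPr P.n) P b0 h0 lam := rfl

theorem cmk4_err (P : CmCall) (lam : ℝ) (b0 h0 : ℝ → ℝ) (q : CmQ P) : cmkErr P lam b0 h0 q = q.env (cmkPr P.n) lam b0 h0 := rfl

theorem cmk4_pr_ok {P : CmCall} {cE D0 : ℝ} (hP : P.Ok cE D0) : (cmkPr P.n).Ok := cmk_pr_ok P.n (by have := hP.n3; omega)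

/-- TEX[PE:comp:envelope] the class is nonempty and the minimum is attained -/
theorem exit_cmp_env_min {mm cE D0 : ℝ} (hmm : 0 < mm) (hcE : 0 < cE) :
    ∃ n0 : ℕ, ∀ P : CmCall, P.Ok cE D0 → mm ≤ P.m → n0 ≤ P.n → Nonempty (CmQ P) ∧
      ∀ (lam : ℝ) (b0 h0 : ℝ → ℝ), 0 ≤ lam → CmkAdm P lam b0 h0 →
        ∃ q : CmQ P, CmkMin P lam b0 h0 q ∧ cmkVal P lam b0 h0 = cmkObj P lam b0 h0 q := by
  obtain ⟨N1, h1⟩ := cm4_nonempty (D0 := D0) hcE hmm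
  obtain ⟨N2, h2⟩ := cm4_min_attain (D0 := D0) hcE hmm
  refine ⟨max N1 N2, fun P hP hm hn => ⟨h1 P hP hm ((le_max_left _ _).trans hn), fun lam b0 h0 hl hA => ?_⟩⟩
  exact h2 P hP hm ((le_max_right _ _).trans hn) (cmkPr P.n) (cmk4_pr_ok hP) lam b0 h0 hl hA

/-- TEX[PE:comp:envelope] `𝓜_0` is the endpoint pressure -/
theorem exit_cmp_env_zero (P : CmCall) (b0 h0 : ℝ → ℝ) (hne : Nonempty (CmQ P)) : cmkVal P 0 b0 h0 = skCPr P.n 1 b0 h0 :=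
  cm4_min_zero (cmkPr P.n) b0 h0 hne

/-- TEX[PE:comp:envelope] monotone and Lipschitz -/
theorem exit_cmp_env_mono {mm cE D0 : ℝ} (hmm : 0 < mm) (hcE : 0 < cE) :
    ∃ n0 : ℕ, ∀ P : CmCall, P.Ok cE D0 → mm ≤ P.m → n0 ≤ P.n → ∀ (b0 h0 : ℝ → ℝ) (lam lam' : ℝ), 0 ≤ lam → lam ≤ lam' →
      CmkAdm P lam b0 h0 → CmkAdm P lam' b0 h0 →
        cmkVal P lam b0 h0 ≤ cmkVal P lam' b0 h0 ∧ cmkVal P lam' b0 h0 ≤ cmkVal P lam b0 h0 + (lam' - lam) / 2 := by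
  obtain ⟨N1, h1⟩ := cm4_min_mono (D0 := D0) hcE hmm
  obtain ⟨N2, h2⟩ := cm4_min_lip (D0 := D0) hcE hmm
  refine ⟨max N1 N2, fun P hP hm hn b0 h0 lam lam' hl hll hA hA' => ⟨?_, ?_⟩⟩
  · exact h1 P hP hm ((le_max_left _ _).trans hn) (cmkPr P.n) (cmk4_pr_ok hP) b0 h0 lam lam' hl hll hA hA'
  · exact h2 P hP hm ((le_max_right _ _).trans hn) (cmkPr P.n) (cmk4_pr_ok hP) b0 h0 lam lam' hl hll hA hA'

/-- TEX[PE:comp:envelope] (7) -/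
theorem exit_cmp_env_dini {mm cE D0 : ℝ} (hmm : 0 < mm) (hcE : 0 < cE) :
    ∃ n0 : ℕ, ∀ P : CmCall, P.Ok cE D0 → mm ≤ P.m → n0 ≤ P.n → ∀ (b0 h0 : ℝ → ℝ) (lam lam1 : ℝ), 0 < lam → lam < lam1 →
      (∀ l ∈ Icc lam lam1, CmkAdm P l b0 h0) → ∀ q : CmQ P, CmkMin P lam b0 h0 q → ∀ ε > 0,
      ∀ᶠ l in 𝓝[>] lam, cmkVal P l b0 h0 - cmkVal P lam b0 h0 ≤ (cmkErr P lam b0 h0 q + ε) * (Real.log l - Real.log lam) := by
  obtain ⟨N1, h1⟩ := cm4_min_dini (D0 := D0) hcE hmm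
  exact ⟨N1, fun P hP hm hn b0 h0 lam lam1 hl hl1 hA q hq ε hε =>
    h1 P hP hm hn (cmkPr P.n) (cmk4_pr_ok hP) b0 h0 lam lam1 hl hl1 hA q hq ε hε⟩

/-- TEX[PE:comp:envelope] integrated form -/
theorem exit_cmp_env_int {mm cE D0 : ℝ} (hmm : 0 < mm) (hcE : 0 < cE) :
    ∃ n0 : ℕ, ∀ P : CmCall, P.Ok cE D0 → mm ≤ P.m → n0 ≤ P.n → ∀ (b0 h0 : ℝ → ℝ) (lam0 lam1 K : ℝ), 0 < lam0 → lam0 ≤ lam1 →
      (∀ l ∈ Icc lam0 lam1, CmkAdm P l b0 h0) →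
      (∀ l ∈ Ico lam0 lam1, ∃ q : CmQ P, CmkMin P l b0 h0 q ∧ cmkErr P l b0 h0 q ≤ K) →
      cmkVal P lam1 b0 h0 - cmkVal P lam0 b0 h0 ≤ K * Real.log (lam1 / lam0) := by
  obtain ⟨N1, h1⟩ := cm4_min_int (D0 := D0) hcE hmm
  exact ⟨N1, fun P hP hm hn b0 h0 lam0 lam1 K hl hl1 hA hK =>
    h1 P hP hm hn (cmkPr P.n) (cmk4_pr_ok hP) b0 h0 lam0 lam1 K hl hl1 hA hK⟩

/-- TEX[PE:comp:envelope] the whole admissible sweep from `0` -/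
theorem exit_cmp_env_total {mm cE D0 : ℝ} (hmm : 0 < mm) (hcE : 0 < cE) :
    ∃ n0 : ℕ, ∀ P : CmCall, P.Ok cE D0 → mm ≤ P.m → n0 ≤ P.n → ∀ (b0 h0 : ℝ → ℝ) (lam0 lam1 K : ℝ), 0 < lam0 → lam0 ≤ lam1 →
      CmkSweep P lam1 b0 h0 →
      (∀ l ∈ Ico lam0 lam1, ∃ q : CmQ P, CmkMin P l b0 h0 q ∧ cmkErr P l b0 h0 q ≤ K) →
      skCPr P.n 1 b0 h0 ≤ cmkVal P lam1 b0 h0 ∧ cmkVal P lam1 b0 h0 ≤ skCPr P.n 1 b0 h0 + K * Real.log (lam1 / lam0) + lam0 / 2 := by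
  obtain ⟨N1, h1⟩ := cm4_min_total (D0 := D0) hcE hmm
  exact ⟨N1, fun P hP hm hn b0 h0 lam0 lam1 K hl hl1 hA hK =>
    h1 P hP hm hn (cmkPr P.n) (cmk4_pr_ok hP) b0 h0 lam0 lam1 K hl hl1 (fun l hl' => hA l hl'.1 hl'.2) hK⟩

/-- TEX[PE:comp:envelope] a short admissible sweep from `0` -/
theorem exit_cmp_env_small {mm cE D0 : ℝ} (hmm : 0 < mm) (hcE : 0 < cE) :
    ∃ n0 : ℕ, ∀ P : CmCall, P.Ok cE D0 → mm ≤ P.m → n0 ≤ P.n → ∀ (b0 h0 : ℝ → ℝ) (lam1 : ℝ), 0 ≤ lam1 → CmkSweep P lam1 b0 h0 →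
      skCPr P.n 1 b0 h0 ≤ cmkVal P lam1 b0 h0 ∧ cmkVal P lam1 b0 h0 ≤ skCPr P.n 1 b0 h0 + lam1 / 2 := by
  obtain ⟨N1, h1⟩ := exit_cmp_env_min (D0 := D0) hmm hcE
  obtain ⟨N2, h2⟩ := exit_cmp_env_mono (D0 := D0) hmm hcE
  refine ⟨max N1 N2, fun P hP hm hn b0 h0 lam1 hl hA => ?_⟩
  have hne := (h1 P hP hm ((le_max_left _ _).trans hn)).1
  have := h2 P hP hm ((le_max_right _ _).trans hn) b0 h0 0 lam1 le_rfl hl (hA 0 le_rfl hl) (hA lam1 hl le_rfl)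
  rw [exit_cmp_env_zero P b0 h0 hne, sub_zero] at this
  exact this

end Claimed.Agent.R286
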