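-- KEEP
import Claimed.Agent.R286.Cmp.P6Sup
import Claimed.Agent.R286.Exit.BudWorld

/-!
# Row 286 (S0533), EXIT `P6S18`      OWNER helper290 (package P06, second head);   consumer: LL07 Step 3 (helper286, `BcpS18` of `Bud/Cp.lean`)
source: PE comparisons.tex l.749-795, 1015-1030 ((18) with the mismatch, `cm6x_dyad`) + Lemma 3.3;   LL 07-budgets.tex l.1110-1117

**`S - r → 0` in `L¹_loc(0,1)`** at a minimiser which is regular above `x → 0`, if the bracket `R18` of (18) is power small at `v = 1`.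
* `exit_p6_s18`         for the SK pressure `skCPr n 1` and `S = skCS n 1 b h (ghPosA v)`:  PROVED (glue `Cmp/P6GlueS.lean`: ONE enlarged dyad `[κ,1]`, `Gam = 1/κ`, `v = 1`; `|g| ≤ δ + g²/δ`, `δ = n^(-s/2)`).
* `exit_p6_s18_world`   for a world `W.IsHub` (`skWorld`): `BcpS18 W c` is BY DEFINITION `P6ImpS18 (fun m => (W.ps m).f) (fun m => (W.ps m).S) c`;  PROVED from BRIDGE-1, BRIDGE-2 (helper1, `Exit/ClkTop.lean`), which enter as hypotheses `hB1`, `hB2`.
-/

set_option autoImplicit false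

namespace Claimed.Agent.R286

open Set

/-- TEX[PE:comp:direct-moments] TEX[PE:comp:geometry] (18) + Lemma 3.3 on macroscopic bands, in the frame of PE Sec. 6 -/
theorem exit_p6_s18 (c : P6C) (hc : c.Ok) : P6ImpS18 (fun n => skCPr n 1) (fun n b h v => skCS n 1 b h (ghPosA v)) c :=
  cm6s_s18 cmk_sup c hc

theorem p6s18_clock {c : ℝ → ℝ} (h : GhClk1 1 c) : IsClock 1 c where
  mono := h.1.mono Ioo_subset_Icc_self
  nonneg := fun v hv => h.2.trans (h.1 ⟨le_rfl, zero_le_one⟩ (Ioo_subset_Icc_self hv) hv.1.le)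
  bdd := ⟨c 1, fun v hv => h.1 (Ioo_subset_Icc_self hv) ⟨zero_le_one, le_rfl⟩ hv.2.le⟩

/-- the same in a world which is the Hub; `hB1`, `hB2` = BRIDGE-1, BRIDGE-2 (a jump of the clocks at the terminal mass is an annealed level) -/
theorem exit_p6_s18_world {W : BdWorld} (hW : W.IsHub)
    (hB1 : ∀ (n : ℕ) (b h : ℝ → ℝ), 0 < n → P6Adm b h → skCPr n 1 b h = skCPr n 1 (bmExt b) (bmExt h))
    (hB2 : ∀ (n : ℕ) (b h : ℝ → ℝ), 0 < n → P6Adm b h → ∀ v ∈ Ioo (0 : ℝ) 1, skCS n 1 b h (ghPosA v) = skCS n 1 (bmExt b) (bmExt h) (ghPosA v))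
    (c : P6C) (hc : c.Ok) : P6ImpS18 (fun m => (W.ps m).f) (fun m => (W.ps m).S) c :=
  cm6s_s18_congr
    (fun n b h hn hA => by rw [hW.f n hn b h (p6s18_clock hA.1) (p6s18_clock hA.2)]; exact hB1 n b h hn hA)
    (fun n b h hn hA v hv => by rw [hW.S n hn b h (p6s18_clock hA.1) (p6s18_clock hA.2) v hv]; exact hB2 n b h hn hA v hv)
    (exit_p6_s18 c hc)

end Claimed.Agent.R286
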