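-- KEEP
import Claimed.Agent.R286.Fl.Chord
import Claimed.Agent.R286.Pe6.Imports

/-!
# Row 286 (S0533), EXIT `P6Chord`      OWNER helper49 (`Fl/Chord.lean`);   typed + linked by helper207;   consumer: PE Sec. 6 (helper14, `Pe6/Imports.lean`), PE Sec. 7 (helper196)

**PE Lemma 7.1 (chord)** for the SK pressure, in the vocabulary of PE Sec. 6.      TEX[PE:fl:chord]
PROVED from `flq_chord` (which rests on `Exit/ClkPr`, `Exit/ClkStat` only).
-/

set_option autoImplicit false

namespace Claimed.Agent.R286

theorem exit_p6_chord : P6Chord (fun n => skCPr n 1) := by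
  intro n b h b' h' a c hn A0 A1 hac hal hint
  exact flq_chord hn one_pos A0 A1 hac hal hint

end Claimed.Agent.R286
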