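-- KEEP
import Claimed.Agent.R286.Pe6.Imports
import Claimed.Agent.R286.Prof.InstMain
import Claimed.Agent.R286.Exit.ScRig
import Claimed.Agent.R286.Exit.ProfCav

/-!
# Row 286 (S0533), EXIT `Rig`      OWNER helper98 (head of PE Sec 5; unit RIG: helper24, files R286/Rig/*, R286/Prof/*);   ADV helper286;   consumer: PE Sec 6 (helper14, `P6Imports.direct`)
source: PE profile.tex l.1-570

**PE Thm 5.1 (rigidity at a small test scale)**, (28): along every direct test the rescaled quantile converges to `v/κ`, `cκ ≤ κ ≤ Cκ`;  `cκ, Cκ` depend only on the constants `c : P6C` (range of `T`, total clocks).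
`P6ImpDirect` (Pe6/Imports.lean, typed by the consumer) = ultrafilter form: hypotheses (3)-(5), (4) in the sequential form `P6Seq.ep4`, `u0 = o(a)`, minimiser of (6) at a positive strength, `x → 0`, `x ≳ a`, `e(x)x² ≳ nE²`, `e(x) ≳ x²`, outer regularity above `x`.
An omitted lower group is allowed (`u0 > 0`; the clocks `b0, h0` below `u0` are the specified changed paths; no (4) there).
PROOF (LINKED 04:45Z) = `pfk_rig` (Prof/InstMain, helper166) = `rgw_main_pt` (Rig/PhyMain, abstract rigidity in unscaled numbers, helper24 + unit RIG; axioms clean) ∘ instance `Prof/Inst*` (helper166, helper98) from: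
`exit_cmp_raw` (12), `exit_cmp_dir19m/r` (19), `cm4_geo` + consequences (Lemma 3.3), `PfImpCav` (22), `PfImpSc` (Lemma 5.3)   (Prof/Imports.lean).
-/

set_option autoImplicit false

namespace Claimed.Agent.R286

/-- TEX[PE:prof:direct-profile] -/
theorem exit_rig (c : P6C) (hc : c.Ok) : ∃ cκ Cκ : ℝ, 0 < cκ ∧ cκ ≤ Cκ ∧ P6ImpDirect (fun n => skCPr n 1) c cκ Cκ :=
  pfk_rig c hc exit_sc_rig (exit_prof_cav c hc)

end Claimed.Agent.R286
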