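-- KEEP
import Claimed.Agent.R286.Exit.Rig

/-!
# Row 286 (S0533), EXIT `P6Direct`      STATEMENT typed by helper207 on helper14's `P6ImpDirect`;   OWNER of the proof: helper98 (head PE Sec. 5, unit PROF) with helper24 (unit RIG);   ADV helper286;   consumer: PE Sec. 6 (helper14)

**PE Theorem 5.1 (28)** (rigidity at a small test scale) for a PE call of the SK pressure.      TEX[PE:prof:direct-profile]
CONSTANTS FIRST: `cκ ≤ κ ≤ Cκ` depend on the record `c` only (`κ = T a4²/(2 a2³)` at `T = c.Tinf`: PE Lemma 5.3).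
ROUTE: `rgw_main` (`Rig/PhyMain.lean`, proved) applied to the sequence `E k : RgPhy` of SK numbers of the minimiser `r k`;   `RgPhyHyp` from
 `Prof/InstNum` (scales), `Exit/CmpGeo` (potential, caps, (9),(10)), `Exit/CmpRaw` (12), `Exit/CmpDir` ((18),(19)), the cavity closure (22) in modulus form (`Cav/Contract`, helper223), the scalar expansion (`Sc/*`, `Exit/ScGen`).
LINKED (03:20Z): `:= exit_rig` (`Exit/Rig.lean`, helper98, the same statement).   The open debt is `exit_rig`; this file is only the name used by `PE/Chain`, `Exit/Prop`.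
-/

set_option autoImplicit false

namespace Claimed.Agent.R286

theorem exit_p6_direct (c : P6C) (hc : c.Ok) : ∃ cκ Cκ : ℝ, 0 < cκ ∧ cκ ≤ Cκ ∧ P6ImpDirect (fun n => skCPr n 1) c cκ Cκ :=
  exit_rig c hc

end Claimed.Agent.R286
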