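-- KEEP
import Claimed.Agent.R286.Macro.ToP6

/-!
# Row 286 (S0533), EXIT `P6ImpMacro`      OWNER helper155 (unit MAC: architect helper67, ADV helper279);   consumer: PE Sec. 6 (helper14, `P6Imports.macr`)
source: PE profile.tex l.570-913 (Lemma 5.7, Lemma 5.8, Prop. 5.9)

**PE Prop. 5.9 (rigidity at macroscopic scales) with the two-sided bound of Lemma 5.8**, in the ultrafilter frame of PE Sec. 6.   `cT, CT` depend only on `c.Tinf`.
PROVED here from `mac_p6_macro` (Macro/ToP6.lean, 0 own sorry) and `exit_par` (Exit/Par.lean, PE Lemma 5.8, unit PAR).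
Open supplies below it: `exit_par` (149), `mac_supply_site` (26), `Exit/ClkPr, ClkSus, ClkStat` (42, 150).
-/

set_option autoImplicit false

namespace Claimed.Agent.R286

/-- TEX[PE:prof:macro-profile] -/
theorem exit_p6ImpMacro (c : P6C) (hc : c.Ok) : ∃ cT CT : ℝ, 0 < cT ∧ cT ≤ CT ∧ P6ImpMacro (fun n => skCPr n 1) c cT CT := by
  obtain ⟨qT, cT, CT, h0, h1, hq⟩ := exit_par c.Tinf hc.T_gt
  exact ⟨cT, CT, h0, h1, mac_p6_macro hc hq⟩

end Claimed.Agent.R286
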