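-- KEEP
import Claimed.Agent.R286.Exit.P6ImpMacro

/-!
# Row 286 (S0533), EXIT `P6Macro`      STATEMENT typed by helper207 on helper14's `P6ImpMacro`;   OWNER of the proof: helper67 (unit MACRO) with helper155 (MAC + PAR);   ADV helper279;   consumer: PE Sec. 6 (helper14)

**PE Prop. 5.9** (rigidity at macroscopic scales) **+ the two sided bound of PE Lemma 5.8** for a PE call of the SK pressure.      TEX[PE:prof:macroscopic] TEX[PE:prof:parisi-input]
CONSTANTS FIRST: `cT v ≤ q(v) ≤ CT v` with `cT, CT` depending on the record `c` only (the Parisi quantile at `T = c.Tinf`).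
ROUTE: `Macro/Contract.lean` (abstract `MvIface`) + its SK instance (`Macro/Inst.lean`, `Fd/InstMv.lean`) + (L),(U+),(S),(Q) of PE Lemma 5.8 (`Sc/*`, `Fs/*`).
LINKED (03:20Z): `:= exit_p6ImpMacro` (`Exit/P6ImpMacro.lean`, helper155, the same statement, proved from `exit_par` + `mac_p6_macro`).   This file is only the name used by `PE/Chain`, `Exit/Prop`.
-/

set_option autoImplicit false

namespace Claimed.Agent.R286

theorem exit_p6_macro (c : P6C) (hc : c.Ok) : ∃ cT CT : ℝ, 0 < cT ∧ cT ≤ CT ∧ P6ImpMacro (fun n => skCPr n 1) c cT CT :=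
  exit_p6ImpMacro c hc

end Claimed.Agent.R286
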