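-- KEEP
import Claimed.Agent.R286.Exit.CmpEnv
import Claimed.Agent.R286.Pe6.Imports

/-!
# Row 286 (S0533), EXIT `P6Min`      OWNER helper255 (package P04);   ADV helper106;   consumer: PE Sec. 6 (helper14), `Pe6/Imports.lean`
source: PE comparisons.tex l.110-140 (Lemma 3.1, attainment)

`P6ImpMin (fun n => skCPr n 1) c`: along every sequence of instances, eventually every admissible strength has a minimiser.
PROVED here from `exit_cmp_env_min` (`Exit/CmpEnv.lean`): the two vocabularies agree by `rfl`.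
-/

set_option autoImplicit false

namespace Claimed.Agent.R286

open MeasureTheory Set Filter Topology

/-- TEX[PE:comp:envelope] attainment, in the vocabulary of PE Sec. 6 -/
theorem exit_p6_min (c : P6C) (hc : c.Ok) : P6ImpMin (fun n => skCPr n 1) c := by
  intro U D hD
  obtain ⟨n0, hn0⟩ := exit_cmp_env_min (D0 := c.D0) hc.m_pos hc.cE_pos
  have hN : ∀ᶠ k in U, (n0 : ℝ) ≤ (D k).P.N := hD.n_top.eventually_ge_atTop _
  filter_upwards [hN, hD.m_eq, hD.ok] with k h1 h2 h3 lam hl0 _ hF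
  have h1' : n0 ≤ (D k).P.n := by
    have : (n0 : ℝ) ≤ ((D k).P.n : ℝ) := h1
    exact_mod_cast this
  obtain ⟨-, h⟩ := hn0 (D k).P h3 h2.ge h1'
  obtain ⟨q, hq, -⟩ := h lam (D k).b0 (D k).h0 hl0 (fun q => hF q.r ⟨q, rfl⟩)
  refine ⟨q.r, ⟨q, rfl⟩, ?_⟩
  rintro r' ⟨q', rfl⟩
  exact hq q'

end Claimed.Agent.R286
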