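-- KEEP
import Claimed.Agent.R286.Cmp.P6Sup

/-!
# Row 286 (S0533), EXIT `P6Sweep`      OWNER helper294 (package P06);   ADV helper290;   consumer: PE Sec. 6 (helper14, `Pe6/Imports.lean`)
source: PE comparisons.tex l.796-808, 1078-1084 (Prop. 3.9, last assertion) + Lemma 3.1 (envelope, integrated)

The import `P6ImpSweep` of PE Sec. 6 for the SK pressure: if ALL minimisers at ALL strengths `n^(-10) ≤ λ ≤ d²` of an ordinary family are regular above `A_λ`, the comparison error is in `[0, n^(20δ) E]`.
STATUS: PROVED here (glue `Cmp/P6GlueS.lean`).   PROOF = instantiation of the uniform statement `exit_cmp_sweep` (`Exit/CmpErr.lean`) along the ultrafilter (`n → ∞`, `u0 = o(a)`, clocks `≤ K`), attainment of the minimum (`exit_cmp_env`, 255), `obj = cmkObj` for `r = q.r`.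
-/

set_option autoImplicit false

namespace Claimed.Agent.R286

/-- TEX[PE:comp:conditional-error] (last assertion), in the frame of PE Sec. 6 -/
theorem exit_p6_sweep (c : P6C) (hc : c.Ok) : P6ImpSweep (fun n => skCPr n 1) c :=
  cm6s_sweep cmk_sup cmk_env c hc

end Claimed.Agent.R286
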