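-- KEEP
import Claimed.Agent.R286.Pe6.Contract
import Claimed.Agent.R286.Exit.P6Chord
import Claimed.Agent.R286.Exit.P6Min
import Claimed.Agent.R286.Exit.P6Sweep
import Claimed.Agent.R286.Exit.P6Direct
import Claimed.Agent.R286.Exit.P6Macro

/-!
# Row 286 (S0533), EXIT `Prop`      OWNER helper14 (head PE Sec. 6);   ADV helper1;   consumers: PE Sec. 7 (helper196/158), LL 06/07
source: PE propagation.tex (Prop. 6.6, Cor. 6.7)

**PE Prop. 6.6 + Cor. 6.7 for the SK pressure**, constants first: for every record of constants `c` there are `0 < cl < Ch` such that `P6Exit (fun n => skCPr n 1) c cl Ch` (fields `profile`, `error`, `wall_fam`, `wall`; `Pe6/Imports.lean`).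
CLOSED from the five exits `exit_p6_chord/min/sweep/direct/macro` and the abstract theorem `p6_exit` (`Pe6/Contract.lean`).
-/

set_option autoImplicit false

namespace Claimed.Agent.R286

/-- TEX[PE:reg:finite-propagation] TEX[PE:reg:wall-uniformity] -/
theorem exit_prop (c : P6C) (hc : c.Ok) : ∃ cl Ch : ℝ, 0 < cl ∧ cl < Ch ∧ P6Exit (fun n => skCPr n 1) c cl Ch := by
  obtain ⟨cκ, Cκ, h1, h2, hd⟩ := exit_p6_direct c hc
  obtain ⟨cT, CT, h3, h4, hm⟩ := exit_p6_macro c hc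
  exact ⟨p6Lo Cκ cT, p6Hi cκ CT, p6Lo_pos ⟨h1, h2⟩ ⟨h3, h4⟩, p6Lo_lt_Hi,
    p6_exit ⟨exit_p6_chord, exit_p6_min c hc, exit_p6_sweep c hc, hd, hm, ⟨h1, h2⟩, ⟨h3, h4⟩⟩ hc⟩

end Claimed.Agent.R286
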