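import Claimed.Agent.R286.Bud.Cp
import Claimed.Agent.R286.Bud.L07W
import Claimed.Agent.R286.Bud.L07Wc
import Claimed.Agent.R286.Exit.ClkTop
import Claimed.Agent.R286.Exit.P6S18
import Claimed.Agent.R286.Exit.ScBd7
import Claimed.Agent.R286.Exit.Par
import Claimed.Agent.R286.Macro.ToP6
import Claimed.Agent.R286.Exit.Rig
import Claimed.Agent.R286.Exit.Prop
import Claimed.Agent.R286.Exit.BcpSk

/-!
# Row 286 (S0533), EXIT `BcpAll`: THE INSTANCE of the imports of LL sec. 7, (C7) Steps 1 and 3 (`Bud/Cp.lean`) AT THE SK OBJECTS      OWNER helper286 (prefix `bca_`)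
TEX[LL:bud:modified-closure]#889-1150

`exit_bcp_all`: constants FIRST (they depend on `T` and on the bare matrix margin `β0` only, NOT on `X`, in particular not on `X.mPE`), then for every `X`, every family `Fam` of frames with the four LL 03 facts
`Bd7WBase X Fam β0 (T+2)` [(P3),(P6): 19/12], `Bd7P9 X Fam` [95 `bip_p9` / 12 `bi7_p9`], `F.Base X skWorld g` [`bi_std`], `BcpP2 X Fam κ_T` [95 `bip_p2`]:   `BcpAll X skWorld Fam …`.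
CONSUMERS: `bi7_weak` (129), `bi7_c7b` (286) of `Bud/Inst.lean`, through `exit_bcp_weak`, `exit_bcp_c7b` below.
ORDER OF THE CONSTANTS: `T` ; the PE record `bcaC m T = ⟨m, T+6, 1/2, T, 1, 1⟩` (only `m = X.mPE` depends on `X`) ; horizon `τ = bcaTau T = (bcaC m T).tau` ; `cκ Cκ` (`bca_direct`: from `pfk_sc_ok` at `τ`, and `T`) ;
`cT CT` (`exit_par_q T`) ; scalar constants `k` (`exit_sc_bd7` at `Kmax = Tmax = τ`) ; `c0` (`c0² ≤ min(1/4, β0/4)`).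
PIECES: chord/min/sweep `exit_p6_*` | direct `bca_direct` (= proof of `pfk_rig`, constants first) | macro `mac_p6_macro(_q)` (155) | BRIDGE-1,2 `exit_clk_top_world(_S)` (helper1) | (18) `exit_p6_s18_world` (290) |
scalar API `exit_sc_bd7` (265) | child `bd7w_child` (129) | no separation `bd7wc_nosep` (186) | LEAVES (owner helper142, `Exit/BcpSk.lean`): `bca_dirK`, `bca_stab`.
-/

set_option autoImplicit false

namespace Claimed.Agent.R286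

open MeasureTheory Set Filter Topology Asymptotics

noncomputable section

/-- the PE record of the calls of LL sec. 7 -/
def bcaC (m T : ℝ) : P6C := ⟨m, T + 6, 1 / 2, T, 1, 1⟩

/-- the horizon of the scalar recursions: `(bcaC m T).tau` -/
def bcaTau (T : ℝ) : ℝ := 2 * (T + 6) + T + 1

theorem bca_eqns_cite : True := by
  have := @bcaC.eq_1; have := @bcaTau.eq_1
  trivial

theorem bca_C_ok {m T : ℝ} (hm : 0 < m) (hm1 : m ≤ 1 / 100) (hT : 1 < T) : (bcaC m T).Ok where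
  m_pos := hm
  m_le := hm1
  K_pos := by show 0 < T + 6; linarith
  ρ_pos := by show (0 : ℝ) < 1 / 2; norm_num
  ρ_lt := by show (1 / 2 : ℝ) < T; linarith
  T_gt := hT
  cE_pos := one_pos
  D0_pos := one_pos

theorem bca_tau (m T : ℝ) : (bcaC m T).tau = bcaTau T := rfl

/-- **PE Thm 5.1 (28), CONSTANTS FIRST**: `cκ Cκ` depend only on the limit temperature and on the clock bound (the proof of `pfk_rig`, with `pfk_sc_ok` called before the record) -/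
theorem bca_direct {T K0 : ℝ} (hT : 1 < T) (hK0 : 0 < K0) : ∃ cκ Cκ : ℝ, 0 < cκ ∧ cκ ≤ Cκ ∧
    ∀ c : P6C, c.Ok → c.Tinf = T → c.K = K0 → P6ImpDirect (fun n => skCPr n 1) c cκ Cκ := by
  obtain ⟨cs, Cs, hcs, hcC, hsc⟩ := pfk_sc_ok exit_sc_rig (τ := 2 * K0 + T + 1) (by linarith)
  have hT0 : 0 < T := by linarith
  have hCs : 0 < Cs := hcs.trans_le hcC
  have h0 := pfs_kappa_rng (a2 := cs) (a4 := -cs) (Cs := Cs) hcs hT0 ⟨le_rfl, hcC⟩ ⟨by rw [neg_neg], by rw [neg_neg]; exact hcC⟩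
  refine ⟨T * cs ^ 2 / (2 * Cs ^ 3), T * Cs ^ 2 / (2 * cs ^ 3), by positivity, h0.1.trans h0.2, ?_⟩
  intro c hc hcT hcK
  subst hcT hcK
  intro U D lam x r c1 C1 C0 h1 h2 h3 hseq hl hfam hmin hx hxl hax hnE hxe hreg
  have h : PfDir U c D lam x r c1 C1 C0 := ⟨h1, h2, h3, hseq, hl, hfam, hmin, hx, hxl, hax, hnE, hxe, hreg⟩
  obtain ⟨E, ca, ce, a2, a4, hE, hS, ha2, ha4⟩ := pfk_seq hc (exit_prof_cav c hc) hcs hsc h
  have hk := pfs_kappa_rng hcs hT0 ha2 ha4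
  refine ⟨c.Tinf * a4 ^ 2 / (2 * a2 ^ 3), hk.1, hk.2, fun v hv => ?_⟩
  refine (pfi_main hS v hv).congr' ?_
  filter_upwards [hE] with k ⟨q, H, J, g, e⟩
  rw [e]
  show q.r (x k * v) / x k = _
  rw [g.qr]

/-- BRIDGE-1 at `skWorld`, in the direction used here -/
theorem bca_br1 : ∀ (n : ℕ) (b h : ℝ → ℝ), 0 < n → P6Adm b h → skCPr n 1 b h = bcpFn skWorld n b h :=
  exit_clk_top_world

/-- **PE Sec. 5-6 at `skWorld`, CONSTANTS FIRST** -/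
theorem bca_pe {T K0 : ℝ} (hT : 1 < T) (hK0 : 0 < K0) : ∃ cκ Cκ cT CT : ℝ,
    ∀ c : P6C, c.Ok → c.Tinf = T → c.K = K0 →
      BcpPE skWorld c cκ Cκ cT CT ∧ BcpMacQ skWorld c (mparQ T) ∧ BcpQT (mparQ T) := by
  obtain ⟨cκ, Cκ, h1, h2, hd⟩ := bca_direct hT hK0
  obtain ⟨cT, CT, h3, h4, hq⟩ := exit_par_q T hT
  refine ⟨cκ, Cκ, cT, CT, fun c hc hcT hcK => ?_⟩
  have hq' : MacPar c.Tinf (mparQ T) cT CT := by rw [hcT]; exact hq
  have himp : P6Imports (bcpFn skWorld) c cκ Cκ cT CT :=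
    bcp_imports_congr bca_br1
      ⟨exit_p6_chord, exit_p6_min c hc, exit_p6_sweep c hc, hd c hc hcT hcK, mac_p6_macro hc hq', ⟨h1, h2⟩, ⟨h3, h4⟩⟩
  exact ⟨⟨himp, p6_exit himp hc⟩,
    fun U D lam x r c1 hc1 hS hlam hfam hmin hx he =>
      mac_p6_macro_q hc hq' (fun n b h hn hA => (bca_br1 n b h hn hA).symm) U D lam x r c1 hc1 hS hlam hfam hmin hx he,
    ⟨hq.qt.1.1, fun v hv => hq.qt.mem hv, hq.cont⟩⟩

/-- (18) + Lemma 3.3 at `skWorld` (290 + BRIDGE-1,2 of helper1) -/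
theorem bca_s18 (c : P6C) (hc : c.Ok) : BcpS18 skWorld c :=
  exit_p6_s18_world skWorld_isHub
    (fun _ _ _ hn hA => exit_clk_top_pr hn one_pos hA.1 hA.2)
    (fun _ _ _ hn hA _ hv => exit_clk_top_S hn one_pos hA.1 hA.2 hv.2) c hc

/-- [LEAF, owner helper142: `bsk_dirK` of `Exit/BcpSk.lean`]  PE Thm 5.1 with the explicit slope (29) at `skWorld` -/
theorem bca_dirK (c : P6C) (hc : c.Ok) : BcpDirK skWorld (sb7Sc c.tau) c := bsk_dirK hc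

/-- [LEAF, owner helper142: `bsk_stab` of `Exit/BcpSk.lean`]  bounded-clock stability of `a2`, `a4` -/
theorem bca_stab {τ Kmax : ℝ} (hτ : 0 < τ) (h : Kmax ≤ τ) : BcpStab (sb7Sc τ) Kmax := bsk_stab hτ h

/-- **the record `BcpIn3` at `skWorld`, CONSTANTS FIRST** -/
theorem bca_in3 {T : ℝ} (hT : 1 < T) : ∃ (k : Bd7ScC) (cκ Cκ cT CT : ℝ), ∀ m : ℝ, 0 < m → m ≤ 1 / 100 →
    BcpIn3 skWorld (sb7Sc (bcaTau T)) k (bcaC m T) cκ Cκ cT CT (mparQ T) := by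
  obtain ⟨cκ, Cκ, cT, CT, hpe⟩ := bca_pe hT (K0 := T + 6) (by linarith)
  have hτ : 0 < bcaTau T := by unfold bcaTau; linarith
  obtain ⟨c2, C2, c4, C4, Csc, hsc⟩ := exit_sc_bd7 skWorld_isHub (Kmax := bcaTau T) hτ le_rfl
  refine ⟨⟨bcaTau T, bcaTau T, c2, C2, c4, C4, Csc⟩, cκ, Cκ, cT, CT, fun m hm hm1 => ?_⟩
  have hc := bca_C_ok hm hm1 hT
  obtain ⟨a1, a2, a3⟩ := hpe (bcaC m T) hc rfl rfl
  exact
    { a1 := skWorld_isHub.a1
      pe := a1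
      dirK := bca_dirK (bcaC m T) hc
      macQ := a2
      s18 := bca_s18 _ hc
      stab := bca_stab hτ le_rfl
      sc := hsc
      qt := a3
      Kmax := ⟨by show 2 * (T + 6) ≤ bcaTau T; unfold bcaTau; linarith, by show T ≤ bcaTau T; unfold bcaTau; linarith⟩ }

/-- the part of the instance which does not use (P2): PE record, `BcpIn3`, child, no separation; constants first -/
theorem bca_core {T β0 : ℝ} (hT : 1 < T) (hβ0 : 0 < β0) : ∃ (k : Bd7ScC) (c0 cκ Cκ cT CT : ℝ),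
    (0 < c0 ∧ c0 ^ 2 ≤ 1 / 4 ∧ c0 ^ 2 ≤ β0 / 4 ∧ 0 < p6Lo Cκ cT) ∧
    ∀ (X : BdFix) (Fam : BdFr → Prop), X.Ok → X.T = T → Bd7WBase X Fam β0 (T + 2) → Bd7P9 X Fam →
      (∀ F, Fam F → ∀ g ∈ X.G0, F.Base X skWorld g) →
      (bcaC X.mPE T).Ok ∧ BcpIn3 skWorld (sb7Sc (bcaTau T)) k (bcaC X.mPE T) cκ Cκ cT CT (mparQ T) ∧
      (∀ cL CL : ℝ, 0 < cL → cL ≤ p6Lo Cκ cT → p6Hi cκ CT ≤ CL →
        BcpChild X skWorld Fam (bcaC X.mPE T) c0 (β0 / 2 - c0 ^ 2) (T + 2 + 1 + c0 ^ 2) cL CL) ∧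
      (∀ cL CL : ℝ, 0 < cL → cL ≤ p6Lo Cκ cT → p6Hi cκ CT ≤ CL → BcpNoSep X skWorld Fam c0 cL CL) := by
  obtain ⟨k, cκ, Cκ, cT, CT, hin⟩ := bca_in3 hT
  obtain ⟨c0, hc0, hc1, hc2⟩ : ∃ c0 : ℝ, 0 < c0 ∧ c0 ^ 2 ≤ 1 / 4 ∧ c0 ^ 2 ≤ β0 / 4 := by
    refine ⟨min (1 / 2) (Real.sqrt (β0 / 4)), lt_min (by norm_num) (Real.sqrt_pos.2 (by positivity)), ?_, ?_⟩
    · have h1 : min (1 / 2) (Real.sqrt (β0 / 4)) ≤ 1 / 2 := min_le_left _ _
      have h0 : 0 < min (1 / 2) (Real.sqrt (β0 / 4)) := lt_min (by norm_num) (Real.sqrt_pos.2 (by positivity))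
      nlinarith
    · have h1 : min (1 / 2) (Real.sqrt (β0 / 4)) ≤ Real.sqrt (β0 / 4) := min_le_right _ _
      have h0 : 0 < min (1 / 2) (Real.sqrt (β0 / 4)) := lt_min (by norm_num) (Real.sqrt_pos.2 (by positivity))
      have h2 : Real.sqrt (β0 / 4) ^ 2 = β0 / 4 := Real.sq_sqrt (by positivity)
      nlinarith
  have hlo : 0 < p6Lo Cκ cT := by
    have h := hin (1 / 100) (by norm_num) le_rfl
    exact p6Lo_pos h.pe.imp.κ_rng h.pe.imp.T_rng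
  refine ⟨k, c0, cκ, Cκ, cT, CT, ⟨hc0, hc1, hc2, hlo⟩, fun X Fam hX hXT hbase h9 hB => ?_⟩
  have hm1 : X.mPE ≤ 1 / 100 := by
    have h1 := (bd7w_exp hX)
    linarith [h1.1, h1.2.1, h1.2.2.1, hX.pS_pos]
  have hc := bca_C_ok hX.mPE_pos hm1 hT
  have h3 := hin X.mPE hX.mPE_pos hm1
  have hc01 : c0 ≤ 1 := by nlinarith
  have hchild : ∀ cL CL : ℝ, 0 < cL → cL ≤ p6Lo Cκ cT → p6Hi cκ CT ≤ CL →
      BcpChild X skWorld Fam (bcaC X.mPE T) c0 (β0 / 2 - c0 ^ 2) (T + 2 + 1 + c0 ^ 2) cL CL := by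
    intro cL CL a1 a2 a3
    refine bd7w_child ⟨⟨hX, ⟨hc, a1, a2.trans p6Lo_le_one, p6Hi_ge_one.trans a3, by norm_num, hc0, ?_, hc01, by linarith⟩, rfl, hXT.symm,
      by linarith, ?_⟩, hbase, h9⟩
    · show c0 ^ 2 < T - 1 / 2
      linarith
    · show T + 2 + 1 + c0 ^ 2 + 1 ≤ T + 6
      linarith
  exact ⟨hc, h3, hchild, fun cL CL a1 a2 a3 => bd7wc_nosep hX hc hc0 a1 hB (hchild cL CL a1 a2 a3)⟩

/-- **EXIT: all the imports of Steps 1 and 3 of (C7) at the SK objects**, constants first -/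
theorem exit_bcp_all {T β0 : ℝ} (hT : 1 < T) (hβ0 : 0 < β0) : ∃ (k : Bd7ScC) (c0 cκ Cκ cT CT : ℝ),
    ∀ (X : BdFix) (Fam : BdFr → Prop), X.Ok → X.T = T → Bd7WBase X Fam β0 (T + 2) → Bd7P9 X Fam →
      (∀ F, Fam F → ∀ g ∈ X.G0, F.Base X skWorld g) →
      BcpP2 X Fam (bcpKap (sb7Sc (bcaTau T)) X.T (fun s => X.T * mparQ T s)) →
      BcpAll X skWorld Fam (sb7Sc (bcaTau T)) k (bcaC X.mPE T) c0 (β0 / 2 - c0 ^ 2) (T + 2 + 1 + c0 ^ 2) cκ Cκ cT CT (mparQ T) := by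
  obtain ⟨k, c0, cκ, Cκ, cT, CT, ⟨hc0, hc1, hc2, -⟩, h⟩ := bca_core hT hβ0
  refine ⟨k, c0, cκ, Cκ, cT, CT, fun X Fam hX hXT hbase h9 hB hp2 => ?_⟩
  obtain ⟨hc, h3, hchild, hns⟩ := h X Fam hX hXT hbase h9 hB
  exact
    { hX := hX
      ok := hc
      m_eq := rfl
      T_eq := hXT.symm
      c0_pos := hc0
      β0_pos := by linarith
      K_le := by show T + 2 + 1 + c0 ^ 2 + 2 ≤ T + 6; linarith
      in3 := h3
      child := hchild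
      nosep := hns
      p2 := hp2 }

/-- **Step 1 at the SK objects**: the bounds `c0 C0` are fixed BEFORE `X`      (⇒ `bi7_weak`) -/
theorem exit_bcp_weak {T β0 : ℝ} (hT : 1 < T) (hβ0 : 0 < β0) : ∃ c0 C0 : ℝ, 0 < c0 ∧ c0 ≤ C0 ∧
    ∀ (X : BdFix) (Fam : BdFr → Prop), X.Ok → X.T = T → Bd7WBase X Fam β0 (T + 2) → Bd7P9 X Fam →
      (∀ F, Fam F → ∀ g ∈ X.G0, F.Base X skWorld g) →
      ∀ cL CL : ℝ, 0 < cL → cL ≤ c0 → C0 ≤ CL → Bd7Weak X skWorld Fam cL CL := by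
  obtain ⟨k, c0, cκ, Cκ, cT, CT, ⟨hc0, hc1, hc2, hlo⟩, h⟩ := bca_core hT hβ0
  refine ⟨p6Lo Cκ cT, p6Hi cκ CT, hlo, p6Lo_lt_Hi.le, fun X Fam hX hXT hbase h9 hB cL CL a1 a2 a3 => ?_⟩
  obtain ⟨hc, h3, hchild, hns⟩ := h X Fam hX hXT hbase h9 hB
  exact bcp_weak ⟨hX, hc, rfl, hXT.symm, hc0, by linarith, by show T + 2 + 1 + c0 ^ 2 + 1 ≤ T + 6; linarith, a1, a2, a3⟩
    h3.pe (hchild cL CL a1 a2 a3) (hns cL CL a1 a2 a3)

/-- **Step 3 at the SK objects**      (⇒ `bi7_c7b`) -/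
theorem exit_bcp_c7b {T β0 : ℝ} (hT : 1 < T) (hβ0 : 0 < β0) (X : BdFix) (Fam : BdFr → Prop) (hX : X.Ok) (hXT : X.T = T)
    (hbase : Bd7WBase X Fam β0 (T + 2)) (h9 : Bd7P9 X Fam) (hB : ∀ F, Fam F → ∀ g ∈ X.G0, F.Base X skWorld g)
    (hp2 : BcpP2 X Fam (bcpKap (sb7Sc (bcaTau T)) X.T (fun s => X.T * mparQ T s)))
    (cL CL : ℝ) (hcL : 0 < cL) (h7 : Bd7C7a X skWorld Fam cL CL) : Bd7C7b X skWorld Fam := by
  obtain ⟨k, c0, cκ, Cκ, cT, CT, h⟩ := exit_bcp_all hT hβ0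
  exact bcp_all_c7b (h X Fam hX hXT hbase h9 hB hp2) cL CL hcL h7

end

end Claimed.Agent.R286
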