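-- KEEP
import Claimed.Agent.R286.Bud.Inst
import Claimed.Agent.R286.Bud.Cp
import Claimed.Agent.R286.Exit.BaseProf
import Claimed.Agent.R286.Macro.Par

/-!
# Row 286 (S0533), EXIT `BudLL`: the LL 03 supply (P2) of LL sec. 7, Step 3 of (C7), ON THE INSTANCE      (owner helper95, by order of helper272; prefix `bip_`)

Field `p2` of `BcpAll` (`Bud/Cp.lean`, 286) and of `BudA.Sup` (`Bud/HubA.lean`, 198) for the family `BiFam Fx X N1` of `Bud/Inst.lean` (162)   (the field `p9` is `bi7_p9`, helper12):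
* `bip_p2_kap : LlRef llBase Fx c C v0 → BiFix .. → BcpP2 X (BiFam Fx X N1) (llBase.kapT Fx.T)`      (`LlPt.Ref.q_slope`, `u, λ → 0`);
* THE IDENTIFICATION OF THE SLOPE:   `bip_svA : svA (llBase.zMin T) = pkAlT T`  (uniqueness of the Parisi minimiser),  `bip_A0 : llBase.A0 T ξ = pkAlT T (ξ / T)`,
  `bip_kapT : llBase.kapT T = pkKap T`,   `bip_kap_sb7 : pkKap T = bcpKap (sb7Sc τ) T (fun s => T * mparQ T s)` for EVERY horizon `τ ≥ T` (`= T a4²/(2 a2³)` at the clock `T q_T`; horizon independence by `llMod_id`);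
* `bip_p2 : … → Fx.T ≤ τ → BcpP2 X (BiFam Fx X N1) (bcpKap (sb7Sc τ) X.T (fun s => X.T * mparQ X.T s))`      = the field `p2` with `Sc := sb7Sc τ`, `qT := mparQ X.T` (`exit_par_q`).
-/

set_option autoImplicit false

namespace Claimed.Agent.R286

open MeasureTheory Set Filter Topology MvPolynomial

noncomputable section

variable {Fx : LlFix} {X : BdFix} {K : BdCst} {c C v0 sg Cu : ℝ}

/-! ## 2. (P2) with the slope `κ_T` of LL 03 -/

/-- **(P2) on the frames**: `q(v) = v/κ_T + o(u)` on the bands of scale `u` -/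
theorem bip_p2_kap (hr : LlRef llBase Fx c C v0) (hf : BiFix Fx X K c C v0 sg Cu) (N1 : ℕ) :
    BcpP2 X (BiFam Fx X N1) (llBase.kapT Fx.T) := by
  intro c' C' η hc' hcC' hη
  obtain ⟨Nr, hr⟩ := hr
  have hC : 0 < C := hf.c_pos.trans_le hf.c_le
  have hC' : 0 < C' := hc'.trans_le hcC'
  obtain ⟨δ, hδ⟩ : ∃ δ, δ = min (v0 / (2 * C')) (η / (2 * C * C' * (2 * C' + 1))) := ⟨_, rfl⟩
  have hδ0 : 0 < δ := by
    rw [hδ]
    exact lt_min (div_pos hf.v0_pos (by positivity)) (div_pos hη (by positivity))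
  have hδ1 : δ ≤ v0 / (2 * C') := by rw [hδ]; exact min_le_left _ _
  have hδ2 : δ ≤ η / (2 * C * C' * (2 * C' + 1)) := by rw [hδ]; exact min_le_right _ _
  obtain ⟨Na, ha⟩ := bi43_lam_small hf.ok (ε := δ) (e := X.bl) hδ0 hf.ok.bl_pos
  obtain ⟨Nb, hb⟩ := bi43_lam_small hf.ok (ε := δ) (e := 1) hδ0 one_pos
  refine ⟨max Nr (max Na Nb), fun Fr hF hO hN v hv => ?_⟩
  obtain ⟨p, hd, hp, hs, hdy, hFe⟩ := hF.1
  have eN : Fr.N = p.N := congrArg BdFr.N hFe
  have el : Fr.lam = p.lam := congrArg BdFr.lam hFe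
  have eq : Fr.q = fun w => p.q Fx llBase (p.ell * w) := congrArg BdFr.q hFe
  have hNr : Nr ≤ p.N := by rw [← eN]; exact (le_max_left _ _).trans hN
  have hu : Fr.u ≤ δ := hO.u_hi.trans (ha Fr hO (((le_max_left _ _).trans (le_max_right _ _)).trans hN))
  have hlam : p.lam ≤ δ := by
    have := hb Fr hO (((le_max_right _ _).trans (le_max_right _ _)).trans hN)
    rwa [Real.rpow_one, el] at this
  have hu0 : 0 < Fr.u := BdFr.bds_u_pos hO hf.ok
  have hl1 := hp.ell1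
  have hl0 : 0 < p.ell := by linarith
  have hl2 : p.ell ≤ 2 := by
    have := bi43_ell_sq hp.ell1 hp.ell2
    nlinarith
  have hv0 : 0 < v := lt_of_lt_of_le (mul_pos hc' hu0) hv.1
  have hlv0 : 0 < p.ell * v := mul_pos hl0 hv0
  have hlv : p.ell * v ≤ 2 * C' * Fr.u := by
    calc p.ell * v ≤ 2 * (C' * Fr.u) := mul_le_mul hl2 hv.2 hv0.le (by norm_num)
      _ = 2 * C' * Fr.u := by ring
  have hlv' : p.ell * v ≤ 2 * C' * δ := hlv.trans (mul_le_mul_of_nonneg_left hu (by positivity))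
  have hv0' : p.ell * v ≤ v0 := by
    refine hlv'.trans ?_
    calc 2 * C' * δ ≤ 2 * C' * (v0 / (2 * C')) := mul_le_mul_of_nonneg_left hδ1 (by positivity)
      _ = v0 := by field_simp
  have hq := (hr p hp hNr).q_slope (p.ell * v) hlv0 hv0'
  rw [mul_div_mul_left _ _ hl0.ne'] at hq
  rw [eq]
  refine hq.trans ?_
  have hlam0 : 0 ≤ p.lam := by
    have : 0 < p.x := by
      unfold LlPt.x
      exact Real.rpow_pos_of_pos (by have := hp.N2; positivity) _
    exact (Real.rpow_pos_of_pos this _).le.trans hp.lam_lo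
  calc C * (p.ell * v) * (p.ell * v + p.lam) ≤ C * (2 * C' * Fr.u) * (2 * C' * δ + δ) := by
        apply mul_le_mul (mul_le_mul_of_nonneg_left hlv hC.le) (by linarith) (by positivity) (by positivity)
    _ = (2 * C * C' * (2 * C' + 1)) * δ * Fr.u := by ring
    _ ≤ (2 * C * C' * (2 * C' + 1)) * (η / (2 * C * C' * (2 * C' + 1))) * Fr.u := by
        apply mul_le_mul_of_nonneg_right _ hu0.le
        exact mul_le_mul_of_nonneg_left hδ2 (by positivity)
    _ = η * Fr.u := by field_simp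

/-! ## 3. The slope is `T a4²/(2 a2³)` -/

/-- the objective of LL 03 is the Parisi functional of BOX-C -/
theorem bip_obj {T : ℝ} (hT0 : 0 < T) {z : ℝ → ℝ} (hz : LlBase.IsQuant z) :
    llBase.scObj T z = pkP T (svA z) + -(T / 4) := by
  have h0T : (0:ℝ) ∈ Icc 0 T := ⟨le_rfl, hT0.le⟩
  have hd := svq_A_dist (svt_quant_sv hz).1 (svt_quant_sv hz).2
  have hf : ∀ K : ℝ → ℝ, MonotoneOn K (Icc 0 1) → (∀ v ∈ Icc (0:ℝ) 1, 0 ≤ K v ∧ K v ≤ T) →
      llBase.fspin 1 K = llMod.V (llDist 1 K) 1 0 0 := fun K hK hb =>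
    (llBase_f one_pos one_pos ⟨fun _ _ _ _ _ => le_rfl, le_rfl⟩ ⟨hK, (hb 0 ⟨le_rfl, zero_le_one⟩).1⟩).trans
      (llMod_link 1 T K le_rfl hK hb)
  unfold LlBase.scObj
  rw [hf _ (fun x hx y hy hxy => mul_le_mul_of_nonneg_left (hz.1 hx hy hxy) hT0.le)
    (fun v hv => ⟨mul_nonneg hT0.le (hz.2 v hv).1, by nlinarith [(hz.2 v hv).2]⟩),
    lsc_id_dist hT0, (llMod_id _ 1 T T one_pos (lsc_id_prof hT0 hd) le_rfl).1 0 h0T, lsc_id_layer (svt_quant_sv hz)]
  unfold pkP pkV0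
  ring

/-- **the minimising quantile of LL 03 has the distribution function `α_T` of BOX-C** -/
theorem bip_svA {T : ℝ} (hT : 1 < T) : svA (llBase.zMin T) = pkAlT T := by
  have hT0 : 0 < T := by linarith
  have hmin := (exit_baseprof T hT).isMin
  refine pk_alT_unique hT0 (svq_A_dist (svt_quant_sv hmin.1).1 (svt_quant_sv hmin.1).2) fun α' hα' => ?_
  have h1 := hmin.2 _ (svt_quant_Q hα')
  rw [bip_obj hT0 hmin.1, bip_obj hT0 (svt_quant_Q hα'), svq_A_Q hα'] at h1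
  linarith

theorem bip_A0 {T : ℝ} (hT : 1 < T) (ξ : ℝ) : llBase.A0 T ξ = pkAlT T (ξ / T) := by
  rw [svt_A0_eq llBase (by linarith), bip_svA hT]

/-- `κ_T` of LL 03 is `κ_T` of PE Lemma 5.8 -/
theorem bip_kapT {T : ℝ} (hT : 1 < T) : llBase.kapT T = pkKap T := by
  have hT0 : 0 < T := by linarith
  obtain ⟨q, -, -, -, -, h4, -⟩ := pk_base hT
  have hlim := (pk_58 hT).2.1
  have hdil : Tendsto (fun ξ : ℝ => ξ / T) (𝓝[>] 0) (𝓝[>] 0) := by
    refine tendsto_nhdsWithin_iff.2 ⟨?_, ?_⟩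
    · have : Tendsto (fun ξ : ℝ => ξ / T) (𝓝 0) (𝓝 (0 / T)) := (continuous_id.div_const T).tendsto 0
      rw [zero_div] at this
      exact this.mono_left nhdsWithin_le_nhds
    · filter_upwards [self_mem_nhdsWithin] with ξ hξ
      exact div_pos hξ hT0
  have hw : HasDerivWithinAt (llBase.A0 T) (pkKap T / T) (Ici 0) 0 := by
    rw [hasDerivWithinAt_iff_tendsto_slope, Ici_sdiff_left]
    refine ((hlim.comp hdil).div_const T).congr' ?_
    filter_upwards [self_mem_nhdsWithin] with ξ hξ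
    have hξ0 : ξ ≠ 0 := ne_of_gt hξ
    rw [slope_def_field, bip_A0 hT, bip_A0 hT, zero_div, h4]
    simp only [Function.comp, sub_zero]
    field_simp
  unfold LlBase.kapT
  rw [hw.derivWithin (uniqueDiffOn_Ici (0:ℝ) 0 self_mem_Ici)]
  field_simp

/-- the mass profile of the clock `T q_T` -/
theorem bip_alK {T : ℝ} (hT0 : 0 < T) : scAlK 1 (fun s => T * mparQ T s) = pkA T (pkAlT T) := by
  have := mpar_alK hT0 (mparQ T)
  simp only [zero_add] at this
  rw [this, mpar_svA hT0]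

/-- the jets at the origin do not depend on the horizon -/
theorem bip_hor {T τ : ℝ} (hT0 : 0 < T) (hτ : T ≤ τ) (k : ℕ) :
    scaD (k + 1) (scLC 1) (pkA T (pkAlT T)) τ 0 = scaD (k + 1) (scLC 1) (pkA T (pkAlT T)) T 0 := by
  have hA := lsc_id_prof hT0 (pk_alT_dist hT0)
  rw [← lsc_id_D llMod_id one_pos hA hτ ⟨le_rfl, hT0.le.trans hτ⟩ k,
    ← lsc_id_D llMod_id one_pos hA le_rfl ⟨le_rfl, hT0.le⟩ k]

/-- **`κ_T = T a4²/(2 a2³)`** at the scalar clock `T q_T`, for the scalar API at any horizon `τ ≥ T` -/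
theorem bip_kap_sb7 {T τ : ℝ} (hT0 : 0 < T) (hτ : T ≤ τ) : pkKap T = bcpKap (sb7Sc τ) T (fun s => T * mparQ T s) := by
  unfold bcpKap pkKap pkMom
  show _ = T * scaD 4 (scLC 1) (scAlK 1 (fun s => T * mparQ T s)) τ 0 0 ^ 2
    / (2 * scaD 2 (scLC 1) (scAlK 1 (fun s => T * mparQ T s)) τ 0 0 ^ 3)
  rw [bip_alK hT0, bip_hor hT0 hτ 3, bip_hor hT0 hτ 1, mul_zero, pk_mv_N4, pk_mv_M3, scm_exit_N4_zero, scm_exit_M3_zero]

/-- **PRODUCER of the field `p2`** of `BudA.Sup` on the instance (`Sc := sb7Sc τ`, `qT := mparQ X.T`) -/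
theorem bip_p2 (hr : LlRef llBase Fx c C v0) (hf : BiFix Fx X K c C v0 sg Cu) {τ : ℝ} (hτ : Fx.T ≤ τ) (N1 : ℕ) :
    BcpP2 X (BiFam Fx X N1) (bcpKap (sb7Sc τ) X.T (fun s => X.T * mparQ X.T s)) := by
  have hT := hf.fx.T1
  rw [hf.tie.T, ← bip_kap_sb7 (by linarith) hτ, ← bip_kapT hT]
  exact bip_p2_kap hr hf N1

end

end Claimed.Agent.R286
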