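import Claimed.Agent.R286.Bud.Inst
import Claimed.Agent.R286.Exit.BcpAll
import Claimed.Agent.R286.Exit.BudLL

/-!
# Row 286 (S0533), EXIT `BcpInst`: three leaves of the imports of (C7) ON THE FAMILY `BiFam`      OWNER helper286 (prefix `bcj_`)
TEX[LL:bud:modified-closure]#889-1150

PROOFS of the leaves `bi7_rc`, `bi7_weak`, `bi7_c7b` of `Bud/Inst.lean` (19 moves them to `Bud/InstA.lean`), stated so that this file needs `Bud.Inst` only up to `bi_std`: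
the two facts which live next to the leaves, `Bd7P9` (`bi7_p9`, 12) and `Bd7WBase` (`bi7_wbase`, 129), are HYPOTHESES here.
* `exit_bi7_rc`   = the statement of `bi7_rc` verbatim   (`r = α⁻¹` continuous: `bud_bm_r_cont`; `C(·)` continuous: `cm_e_cont`; the LL clocks: `LlSec3.equi` + `LlSec3.adm`; the field clock jumps at the mask but is right-continuous there)
* `exit_bi7_weak` = `bi7_weak` from `exit_bcp_weak`   (constants BEFORE `X`)
* `exit_bi7_c7b`  = `bi7_c7b` from `exit_bcp_c7b` + `bip_p2` (95)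
-/

set_option autoImplicit false

namespace Claimed.Agent.R286

open MeasureTheory Set Filter Topology

noncomputable section

variable {Fx : LlFix} {X : BdFix} {K : BdCst} {c C v0 sg Cu : ℝ}

/-- a monotone function with a one-sided modulus is right-continuous -/
theorem bcj_rc_aux {f : ℝ → ℝ} {a u0 : ℝ} (hu : u0 ∈ Ioo 0 a) (hm : MonotoneOn f (Icc 0 a))
    (h : ∀ η : ℝ, 0 < η → ∃ δ : ℝ, 0 < δ ∧ ∀ u', u0 ≤ u' → u' ≤ a → u' - u0 ≤ δ → f u' - f u0 ≤ η) :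
    ContinuousWithinAt f (Ioi u0) u0 := by
  rw [Metric.continuousWithinAt_iff]
  intro ε hε
  obtain ⟨δ, hδ, hd⟩ := h (ε / 2) (by positivity)
  refine ⟨min δ (a - u0), lt_min hδ (by linarith [hu.2]), fun x hx hxd => ?_⟩
  have hx0 : u0 < x := hx
  rw [Real.dist_eq, abs_of_pos (by linarith)] at hxd
  have h1 : x - u0 < δ := hxd.trans_le (min_le_left _ _)
  have h2 : x - u0 < a - u0 := hxd.trans_le (min_le_right _ _)
  have h3 := hd x hx0.le (by linarith) h1.le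
  have h4 : f u0 ≤ f x := hm ⟨hu.1.le, hu.2.le⟩ ⟨by linarith [hu.1], by linarith⟩ hx0.le
  rw [Real.dist_eq, abs_of_nonneg (by linarith)]
  linarith

/-- rescaling keeps right-continuity -/
theorem bcj_rc_resc {f : ℝ → ℝ} {a v : ℝ} (ha : 0 < a) (h : ContinuousWithinAt f (Ioi (a * v)) (a * v)) :
    ContinuousWithinAt (btResc a f) (Ioi v) v := by
  unfold btResc
  refine continuousWithinAt_const.mul ?_
  refine ContinuousWithinAt.comp (t := Ioi (a * v)) h (by fun_prop) ?_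
  intro u hu
  exact mul_lt_mul_of_pos_left hu ha

/-- the changed clocks are right-continuous as soon as the bare ones are -/
theorem bcj_rc_chg {F : BdFr} (hF : F.Ok X) (Q : BdQ F X) (g : ℝ) {v : ℝ} (hv : v ∈ Ioo (0 : ℝ) 1)
    (hb : ContinuousWithinAt (F.b g) (Ioi v) v) (hh : ContinuousWithinAt (F.h g) (Ioi v) v) :
    ContinuousWithinAt (Q.bq g) (Ioi v) v ∧ ContinuousWithinAt (Q.hq g) (Ioi v) v := by
  have hr : ContinuousAt Q.r v := (bud_bm_r_cont hF Q).continuousAt (Icc_mem_nhds hv.1 hv.2)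
  have cC : Continuous (F.C X) := cm_e_cont (F.call X) F.C0
  have hC : ContinuousAt (fun v => F.C X (Q.r v)) v := cC.continuousAt.comp hr
  exact ⟨hb.sub hC.continuousWithinAt, hh.add (hC.mul hr).continuousWithinAt⟩

/-- **`bi7_rc`**: the changed clocks are right-continuous -/
theorem exit_bi7_rc (h3 : LlSec3 llBase Fx) (hf : BiFix Fx X K c C v0 sg Cu) :
    ∃ N0 : ℕ, ∀ N1, N0 ≤ N1 → Bd7CRc X skWorld (BiFam Fx X N1) := by
  obtain ⟨Ne, he⟩ := h3.equi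
  obtain ⟨ca, Ca, -, Na, ha⟩ := h3.adm
  refine ⟨0, fun N1 _ => ⟨max Ne Na, fun i hi hN v hv => ?_⟩⟩
  obtain ⟨p, hd, hp, hs, hdy, hFe⟩ := hi.fam.1
  have eN : i.F.N = p.N := congrArg BdFr.N hFe
  have eb : i.F.b = fun g => btResc p.ell ((p.loc hd g 0).b Fx llBase) := congrArg BdFr.b hFe
  have eh : i.F.h = fun g => btResc p.ell ((p.loc hd g 0).h Fx llBase) := congrArg BdFr.h hFe
  have hg4 : i.g ∈ Icc (-4 : ℝ) 4 := ⟨hf.g_lo.trans hi.g_mem.1, hi.g_mem.2.trans hf.g_hi⟩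
  set p' := p.loc hd i.g 0 with hp'
  have hpo : p'.Ok Fx := bi43_loc_ok hp hd hg4
  have hpN : p'.N = p.N := rfl
  have hpa : p'.a = p.ell := by
    show (if p.sm then (4 : ℝ) else p.ell) = p.ell
    rw [hs]; rfl
  have hpx : p'.x = p.x := rfl
  have hl : 0 < p.ell := lt_of_lt_of_le one_pos hp.ell1
  have hNe : Ne ≤ p.N := by rw [← eN]; exact (le_max_left _ _).trans hN
  have hNa : Na ≤ p'.N := by rw [hpN, ← eN]; exact (le_max_right _ _).trans hN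
  obtain ⟨mb, mh, -⟩ := ha p' hpo hNa
  rw [hpa] at mb mh
  have hu : p.ell * v ∈ Ioo 0 p.ell := ⟨mul_pos hl hv.1, by nlinarith [hv.2]⟩
  refine bcj_rc_chg hi.ok i.Q i.g hv ?_ ?_
  · rw [eb]
    refine bcj_rc_resc hl (bcj_rc_aux hu mb fun η hη => ?_)
    obtain ⟨δ, hδ, h⟩ := he p.N hNe η hη
    refine ⟨δ, hδ, fun u' h1 h2 h4 => ?_⟩
    exact (h p' hpo hpN _ u' hu.1.le h1 (by rw [hpa]; exact h2) h4).2.2.1
  · rw [eh]
    refine bcj_rc_resc hl (bcj_rc_aux hu mh fun η hη => ?_)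
    obtain ⟨δ, hδ, h⟩ := he p.N hNe η hη
    by_cases hx : p.ell * v < p.x
    · refine ⟨min δ ((p.x - p.ell * v) / 2), lt_min hδ (by linarith), fun u' h1 h2 h4 => ?_⟩
      have h5 : u' - p.ell * v ≤ (p.x - p.ell * v) / 2 := h4.trans (min_le_right _ _)
      exact (h p' hpo hpN _ u' hu.1.le h1 (by rw [hpa]; exact h2) (h4.trans (min_le_left _ _))).2.2.2.2
        (Or.inl (by rw [hpx]; linarith))
    · refine ⟨δ, hδ, fun u' h1 h2 h4 => ?_⟩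
      exact (h p' hpo hpN _ u' hu.1.le h1 (by rw [hpa]; exact h2) h4).2.2.2.2 (Or.inr (by rw [hpx]; exact not_lt.1 hx))

/-- **`bi7_weak`**: Step 1, the bounds `c0 C0` fixed BEFORE `X`; `hw` = `bi7_wbase` (129), `h9` = `bi7_p9` (12) -/
theorem exit_bi7_weak (h3 : LlSec3 llBase Fx) (hr : LlRef llBase Fx c C v0) {β0 : ℝ} (hβ0 : 0 < β0) :
    ∃ c0 C0 : ℝ, 0 < c0 ∧ c0 ≤ C0 ∧ ∀ (X : BdFix) (K : BdCst) (sg Cu : ℝ), BiFix Fx X K c C v0 sg Cu →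
      (∃ N0 : ℕ, ∀ N1, N0 ≤ N1 → Bd7WBase X (BiFam Fx X N1) β0 (Fx.T + 2)) →
      (∃ N0 : ℕ, ∀ N1, N0 ≤ N1 → Bd7P9 X (BiFam Fx X N1)) →
      ∃ N0 : ℕ, ∀ N1, N0 ≤ N1 → ∀ cL CL : ℝ, 0 < cL → cL < c0 → C0 < CL → Bd7Weak X skWorld (BiFam Fx X N1) cL CL := by
  obtain ⟨c0, C0, h1, h2, h⟩ := exit_bcp_weak h3.ok.T1 hβ0
  refine ⟨c0, C0, h1, h2, fun X K sg Cu hf hw h9 => ?_⟩
  obtain ⟨n1, a1⟩ := bi_std h3 hr hf
  obtain ⟨n2, a2⟩ := h9
  obtain ⟨n3, a3⟩ := hw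
  refine ⟨n1 + n2 + n3, fun N1 hN cL CL b1 b2 b3 => ?_⟩
  exact h X _ hf.ok hf.tie.T (a3 N1 (by omega)) (a2 N1 (by omega)) (a1 N1 (by omega)).2.2 cL CL b1 b2.le b3.le

/-- **`bi7_c7b`**: Step 3; `hw` = `bi7_wbase` (129), `h9` = `bi7_p9` (12) -/
theorem exit_bi7_c7b (h3 : LlSec3 llBase Fx) (hr : LlRef llBase Fx c C v0) (hf : BiFix Fx X K c C v0 sg Cu) {β0 : ℝ} (hβ0 : 0 < β0)
    (hw : ∃ N0 : ℕ, ∀ N1, N0 ≤ N1 → Bd7WBase X (BiFam Fx X N1) β0 (Fx.T + 2))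
    (h9 : ∃ N0 : ℕ, ∀ N1, N0 ≤ N1 → Bd7P9 X (BiFam Fx X N1)) :
    ∃ N0 : ℕ, ∀ N1, N0 ≤ N1 → ∀ cL CL : ℝ, 0 < cL → cL ≤ CL →
      Bd7C7a X skWorld (BiFam Fx X N1) cL CL → Bd7C7b X skWorld (BiFam Fx X N1) := by
  obtain ⟨n1, a1⟩ := bi_std h3 hr hf
  obtain ⟨n2, a2⟩ := h9
  obtain ⟨n3, a3⟩ := hw
  refine ⟨n1 + n2 + n3, fun N1 hN cL CL hcL _ h7 => ?_⟩
  have hT : X.T = Fx.T := hf.tie.T
  have hp2 := bip_p2 hr hf (τ := bcaTau Fx.T) (by unfold bcaTau; linarith [h3.ok.T1]) N1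
  have e : (fun s => X.T * mparQ X.T s) = (fun s => X.T * mparQ Fx.T s) := by rw [hT]
  rw [e] at hp2
  exact exit_bcp_c7b h3.ok.T1 hβ0 X _ hf.ok hT (a3 N1 (by omega)) (a2 N1 (by omega)) (a1 N1 (by omega)).2.2 hp2 cL CL hcL h7

end

end Claimed.Agent.R286
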