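-- KEEP
import Claimed.Agent.R286.Cmp.P6Sup

/-!
# Row 286 (S0533), EXIT `CmpDir`      OWNER helper294 (package P06, files R286/Cmp/P6*.lean);   ADV helper290;   section head helper295
source: PE comparisons.tex l.749-795 (statement), l.1017-1033, 1086-1219 (proofs)

**PE Prop. 3.8 (local second moments)** at a minimiser of (6), in UNIFORM form (all constants are fixed before the instance; decision D2): (18); (19) in its three forms (mass, radius, integral);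
the good split `*` with small `D_*`.      The comparison of the bracket `R18` of (18) with `x²/W` and `x²/(W²v)^{1/3}` is pure arithmetic: `cm_x_dt1_hi`, `cm_x_dt1_lo` (`Cmp/P6Out.lean`).
`I.num = cmkNum n b h` are the numbers of the CHANGED path (masses = positions after the jumps);   `W = cmW P lam x = max(x, √e(x))`.
HYPOTHESES MADE EXPLICIT: `h0` nondecreasing on the working interval (standing hypothesis of the paper, l.46);   `u0 ≤ x` (paper: `u0 = 0` or `u0 = o(a)`, and `x ≳ a`);   in `exit_cmp_dir19i`: `u0 ≤ κ x`.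
STATUS: PROVED here (glue `Cmp/P6Glue.lean`) from the supplies listed in `Cmp/P6Sup.lean` and the abstract exits.   PROOF = glue of: `exit_cmp_geo` (255), `exit_cmp_raw`, `exit_cmp_split` (247), `cmk_num_ok` (295), and the abstract exits `cm_x18`, `cm_x19_mass`, `cm_x19_rad`, `cm_x19_int`, `cm_x_Sband`, `cm_x_select` of `Cmp/P6Out.lean`.
-/

set_option autoImplicit false

namespace Claimed.Agent.R286

open MeasureTheory Set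

/-- TEX[PE:comp:direct-moments] (18): regular outer dyads, with a fixed enlargement `Gam` -/
theorem exit_cmp_dir18 {mm cE D0 Tm ca ce c C C0 ε Gam : ℝ} (hmm : 0 < mm) (hcE : 0 < cE) (hD0 : 0 < D0) (hTm : 0 < Tm) (hca : 0 < ca) (hce : 0 < ce)
    (hc : 0 < c) (hcC : c ≤ C) (hC0 : 0 < C0) (hε : 0 < ε) (hGam : 1 ≤ Gam) :
    ∃ (K1 C1 : ℝ) (n0 : ℕ), 0 < K1 ∧ 1 ≤ C1 ∧ ∀ (I : CmI) (x : ℝ), I.Std cE D0 Tm → MonotoneOn I.h0 (Icc I.P.u0 1) → I.P.m = mm → I.Loc ca ce c C C0 x → I.P.u0 ≤ x → n0 ≤ I.P.n →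
      ∀ v : ℝ, C1 * x ≤ v → v ≤ 1 →
        ∫ u in Icc (v / Gam) (Gam * v) ∩ Icc I.P.u0 1, I.num.D u ^ 2 ≤ K1 * I.P.N ^ (2 * ε) * v * I.P.R18 I.lam v ^ 2 :=
  cm6g_dir18 (cmk_sup mm cE D0 Tm hmm hcE hD0 hTm) hmm hcE hD0 hTm hca hce hc hcC hC0 hε hGam

/-- TEX[PE:comp:direct-moments] (19), `D = o(x)` in mass, with a polynomial rate -/
theorem exit_cmp_dir19m {mm cE D0 Tm ca ce c C C0 c' C' : ℝ} (hmm : 0 < mm) (hcE : 0 < cE) (hD0 : 0 < D0) (hTm : 0 < Tm) (hca : 0 < ca) (hce : 0 < ce)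
    (hc : 0 < c) (hcC : c ≤ C) (hC0 : 0 < C0) (hc' : 0 < c') (hC' : c' ≤ C') :
    ∃ (K1 : ℝ) (n0 : ℕ), 0 < K1 ∧ ∀ (I : CmI) (x : ℝ), I.Std cE D0 Tm → MonotoneOn I.h0 (Icc I.P.u0 1) → I.P.m = mm → I.Loc ca ce c C C0 x → I.P.u0 ≤ x → n0 ≤ I.P.n →
      ∫ u in {u | u ∈ Icc (c' * x) (C' * x) ∩ Icc I.P.u0 1 ∧ I.q.r u ≤ C' * x}, I.num.D u ^ 2 ≤ K1 * I.P.N ^ (-I.P.m) * x ^ 3 :=
  cm6g_dir19m (cmk_sup mm cE D0 Tm hmm hcE hD0 hTm) hmm hcE hD0 hTm hca hce hc hcC hC0 hc' hC'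

/-- TEX[PE:comp:direct-moments] (19), `D = o(x)` in radius, with a polynomial rate -/
theorem exit_cmp_dir19r {mm cE D0 Tm ca ce c C C0 c' C' : ℝ} (hmm : 0 < mm) (hcE : 0 < cE) (hD0 : 0 < D0) (hTm : 0 < Tm) (hca : 0 < ca) (hce : 0 < ce)
    (hc : 0 < c) (hcC : c ≤ C) (hC0 : 0 < C0) (hc' : 0 < c') (hC' : c' ≤ C') :
    ∃ (K1 : ℝ) (n0 : ℕ), 0 < K1 ∧ ∀ (I : CmI) (x : ℝ), I.Std cE D0 Tm → MonotoneOn I.h0 (Icc I.P.u0 1) → I.P.m = mm → I.Loc ca ce c C C0 x → I.P.u0 ≤ x → n0 ≤ I.P.n →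
      ∫ r in {r | r ∈ Icc I.P.rmin 1 ∧ r ≤ C' * x ∧ I.q.al r ∈ Icc (c' * x) (C' * x)}, I.num.D (I.q.al r) ^ 2
        ≤ K1 * I.P.N ^ (-(I.P.dl / 16)) * x ^ 3 :=
  cm6g_dir19r (cmk_sup mm cE D0 Tm hmm hcE hD0 hTm) hmm hcE hD0 hTm hca hce hc hcC hC0 hc' hC'

/-- TEX[PE:comp:direct-moments] (19), first assertion: `∫_0^{min(C'W,1)} D_u du = o(x²)` for a small direct test `e(x) ≥ cd x²` -/
theorem exit_cmp_dir19i {mm cE D0 Tm ca ce c C C0 cd C' η : ℝ} (hmm : 0 < mm) (hcE : 0 < cE) (hD0 : 0 < D0) (hTm : 0 < Tm) (hca : 0 < ca) (hce : 0 < ce)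
    (hc : 0 < c) (hcC : c ≤ C) (hC0 : 0 < C0) (hcd : 0 < cd) (hC' : 0 < C') (hη : 0 < η) :
    ∃ (κ : ℝ) (n0 : ℕ), 0 < κ ∧ ∀ (I : CmI) (x : ℝ), I.Std cE D0 Tm → MonotoneOn I.h0 (Icc I.P.u0 1) → I.P.m = mm → I.Loc ca ce c C C0 x → n0 ≤ I.P.n →
      cd * x ^ 2 ≤ I.P.e I.lam x → I.P.u0 ≤ κ * x →
        ∫ u in (0 : ℝ)..(min (C' * cmW I.P I.lam x) 1), I.num.D u ≤ η * x ^ 2 :=
  cm6g_dir19i (cmk_sup mm cE D0 Tm hmm hcE hD0 hTm) hmm hcE hD0 hTm hca hce hc hcC hC0 hcd hC' hη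

/-- TEX[PE:comp:direct-moments] the split `*`: if `W ≤ κ0` there is a mass `u*` in a regular band of scale `W`, above `G0 x`, with `S_* ≍ W`, (17) in every even moment, and `D_* ≤ n^(-c3) x²/W`.
The exponents `c2, c3` do not depend on `G0` nor on the moment order. -/
theorem exit_cmp_dir_split {mm cE D0 Tm ca ce c C C0 cd : ℝ} (hmm : 0 < mm) (hcE : 0 < cE) (hD0 : 0 < D0) (hTm : 0 < Tm) (hca : 0 < ca) (hce : 0 < ce)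
    (hc : 0 < c) (hcC : c ≤ C) (hC0 : 0 < C0) (hcd : 0 < cd) :
    ∃ c2 c3 : ℝ, 0 < c2 ∧ 0 < c3 ∧ ∀ G0 : ℝ, 1 ≤ G0 → ∃ (κ0 c' C' : ℝ) (Cl : ℕ → ℝ) (n0 : ℕ), 0 < κ0 ∧ 0 < c' ∧ c' ≤ C' ∧
      ∀ (I : CmI) (x : ℝ), I.Std cE D0 Tm → MonotoneOn I.h0 (Icc I.P.u0 1) → I.P.m = mm → I.Loc ca ce c C C0 x → I.P.u0 ≤ x → n0 ≤ I.P.n →
        cd * x ^ 2 ≤ I.P.e I.lam x → cmW I.P I.lam x ≤ κ0 →
        ∃ us : ℝ, us ≤ 1 ∧ G0 * x ≤ us ∧ C0 * x ≤ us ∧ c' * cmW I.P I.lam x ≤ us ∧ us ≤ C' * cmW I.P I.lam x ∧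
          c' * cmW I.P I.lam x ≤ I.num.S us ∧ I.num.S us ≤ C' * cmW I.P I.lam x ∧
          (∀ l : ℕ, 1 ≤ l → cmkMRc I.P.n I.b I.h l (ghPosA us) ≤ (Cl l * I.P.N ^ (-c2) * cmW I.P I.lam x) ^ (2 * l)) ∧
          I.num.D us ≤ I.P.N ^ (-c3) * (x ^ 2 / cmW I.P I.lam x) :=
  cm6g_split (cmk_sup mm cE D0 Tm hmm hcE hD0 hTm) hmm hcE hD0 hTm hca hce hc hcC hC0 hcd

end Claimed.Agent.R286
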