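-- KEEP
import Claimed.Agent.R286.Cmp.DefsSk
import Claimed.Agent.R286.Cmp.P5RawE

/-!
# Row 286 (S0533), EXIT `CmpRes`      OWNER helper247 (package P05; proof of the abstract core: helper38);   source: PE comparisons.tex l.608-640;   adversary helper38

**PE Lemma 3.6 (postprojection changes), (16)**, closed form.   Labels `0 = a`, `1 = a'`, `2 = b`: `a` and `b` split at the position `pf` (mass `≤ C1 x1`), `a'` is an independent continuation of `a`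
from the later position `pv` of mass `v ≥ C3 x1` (regular).   `E ((y_a - y_a')·y_b)^(2l) ≤ (K (log n)^5 / √(n e(v) v²))^(2l)`.
The projected forms and the anchored form (gain `√(x1/v)`) are `exit_cmp_proj` + conditional Jensen.
FOR OTHER HIERARCHIES (rest-only system of PE Sec. 4, ask A3 of the ledger of 142): use the ABSTRACT theorem `cm5_tbl_pf` (Cmp/P5Tbl.lean): it takes the raw moments as a HYPOTHESIS on any `CmPath`.
-/

set_option autoImplicit false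

namespace Claimed.Agent.R286

/-- TEX[PE:comp:resampling]   UNIFORM FORM (ask of 18, ruling 295): the threshold `C3` of the later position is chosen BEFORE the moment order `l` (in `cm5_tbl_pf` the thresholds `x0 ≤ w0`, `2 mass j ≤ w0`
do not see the exponent: `w0 = pv.u/(2Γ)`, `C3 = 2Γ max(C0', 2 C1)`); only `K` depends on `l`.      TARGET of the assembly (192). -/
theorem exit_cmp_res_u (mlo cE D0 Tm ca ce c C C0 C1 : ℝ) (hm : 0 < mlo) (hcE : 0 < cE) (hD0 : 0 < D0) (hTm : 0 < Tm) (hca : 0 < ca)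
    (hce : 0 < ce) (hc : 0 < c) (hC : 0 < C) (hC0 : 0 < C0) (hC1 : 0 < C1) :
    ∃ C3 : ℝ, 0 < C3 ∧ ∀ l : ℕ, 1 ≤ l → ∃ K : ℝ, 0 < K ∧
      ∀ (I : CmI) (x x1 : ℝ), mlo ≤ I.P.m → I.Std cE D0 Tm → MonotoneOn I.h0 (Set.Icc I.P.u0 1) → I.P.u0 ≤ x →
      I.Loc ca ce c C C0 x → x ≤ x1 → ∀ pf pv : GhPos, pf.Ok 1 → pv.Ok 1 → pf.u ≤ C1 * x1 → C3 * x1 ≤ pv.u →
        skCNu I.P.n 1 I.b I.h 3
            (fun y z => if y = z then ⊤ else if y = 2 ∨ z = 2 then (pf : WithTop GhPos) else (pv : WithTop GhPos))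
            (fun σ => (skOv (σ 0) (σ 2) - skOv (σ 1) (σ 2)) ^ (2 * l))
          ≤ (K * I.P.Lam ^ 5 / Real.sqrt (I.P.N * I.P.e I.lam pv.u * pv.u ^ 2)) ^ (2 * l) :=
  cm5r_exit_res_u mlo cE D0 Tm ca ce c C C0 C1 hm hcE hD0 hTm hca hce hc hC hC0 hC1

/-- TEX[PE:comp:resampling] -/
theorem exit_cmp_res (mlo cE D0 Tm ca ce c C C0 C1 : ℝ) (hm : 0 < mlo) (hcE : 0 < cE) (hD0 : 0 < D0) (hTm : 0 < Tm) (hca : 0 < ca)
    (hce : 0 < ce) (hc : 0 < c) (hC : 0 < C) (hC0 : 0 < C0) (hC1 : 0 < C1) (l : ℕ) (hl : 1 ≤ l) :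
    ∃ K C3 : ℝ, 0 < K ∧ 0 < C3 ∧ ∀ (I : CmI) (x x1 : ℝ), mlo ≤ I.P.m → I.Std cE D0 Tm → MonotoneOn I.h0 (Set.Icc I.P.u0 1) → I.P.u0 ≤ x →
      I.Loc ca ce c C C0 x → x ≤ x1 → ∀ pf pv : GhPos, pf.Ok 1 → pv.Ok 1 → pf.u ≤ C1 * x1 → C3 * x1 ≤ pv.u →
        skCNu I.P.n 1 I.b I.h 3
            (fun y z => if y = z then ⊤ else if y = 2 ∨ z = 2 then (pf : WithTop GhPos) else (pv : WithTop GhPos))
            (fun σ => (skOv (σ 0) (σ 2) - skOv (σ 1) (σ 2)) ^ (2 * l))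
          ≤ (K * I.P.Lam ^ 5 / Real.sqrt (I.P.N * I.P.e I.lam pv.u * pv.u ^ 2)) ^ (2 * l) := by
  obtain ⟨C3, hC3, h⟩ := exit_cmp_res_u mlo cE D0 Tm ca ce c C C0 C1 hm hcE hD0 hTm hca hce hc hC hC0 hC1
  obtain ⟨K, hK, h'⟩ := h l hl
  exact ⟨K, C3, hK, hC3, h'⟩

end Claimed.Agent.R286
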