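-- KEEP
import Claimed.Agent.R286.Cmp.DefsSk
import Claimed.Agent.R286.Cmp.P5SplitE

/-!
# Row 286 (S0533), EXIT `CmpSplit`      OWNER helper247 (package P05; proof of the abstract core: helper38);   source: PE comparisons.tex l.642-750;   adversary helper38

**PE Lemma 3.7 (good split), (17)**, closed form.   `θ = n^(-c1)`, any `0 < c1 ≤ mlo/2`.   In every mass interval `[s1,s2] ⊆ [v,2v]` of length `≥ v/C1` at a regular small scale `v` there is a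
DETERMINISTIC window `[t0 - θ v, t0 + 2 θ v]`, chosen through `S` only (BEFORE the moment order `l`), of `S`-oscillation `≤ K0 θ v`, such that at EVERY position of mass in `[t0, t0 + θ v/3]`
`E (R_p - S_p)^(2l) ≤ (Kf l n^(-c2) v)^(2l)` and `E (|X_p|² - S_p)^(2l) ≤ (Kf l n^(-c2) v)^(2l)`, for ALL `l`.      The hypothesis `S ≍ v` of the paper is not used.
Remark 3.8 (fixed-degree tree tests) = this + pruning + Hoelder under the positive tree law: no separate exit.      TEXDROP[PE:comp:good-split-trees] remark, consequence of pruning + Hoelder.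
-/

set_option autoImplicit false

namespace Claimed.Agent.R286

/-- TEX[PE:comp:good-split] -/
theorem exit_cmp_split (mlo cE D0 Tm ca ce c C C0 C1 c1 : ℝ) (hm : 0 < mlo) (hcE : 0 < cE) (hD0 : 0 < D0) (hTm : 0 < Tm) (hca : 0 < ca)
    (hce : 0 < ce) (hc : 0 < c) (hC : 0 < C) (hC0 : 0 < C0) (hC1 : 1 ≤ C1) (hc1 : 0 < c1) (hc1' : c1 ≤ mlo / 2) :
    ∃ (c2 C2 K0 : ℝ) (N0 : ℕ) (Kf : ℕ → ℝ), 0 < c2 ∧ 0 < C2 ∧ 0 < K0 ∧
      ∀ (I : CmI) (x : ℝ), mlo ≤ I.P.m → I.Std cE D0 Tm → MonotoneOn I.h0 (Set.Icc I.P.u0 1) → I.P.u0 ≤ x →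
      I.Loc ca ce c C C0 x → N0 ≤ I.P.n → ∀ v s1 s2 : ℝ, C2 * x ≤ v → C2 * v ≤ 1 → v ≤ s1 → s2 ≤ 2 * v → v ≤ C1 * (s2 - s1) →
        ∃ t0 : ℝ, s1 ≤ t0 - I.P.N ^ (-c1) * v ∧ t0 + 2 * I.P.N ^ (-c1) * v ≤ s2 ∧
          skCS I.P.n 1 I.b I.h (ghPosA (t0 + 2 * I.P.N ^ (-c1) * v)) - skCS I.P.n 1 I.b I.h (ghPosA (t0 - I.P.N ^ (-c1) * v))
            ≤ K0 * I.P.N ^ (-c1) * v ∧
          ∀ l : ℕ, 1 ≤ l → ∀ p : GhPos, p.Ok 1 → t0 ≤ p.u → p.u ≤ t0 + I.P.N ^ (-c1) * v / 3 →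
            cmkMRc I.P.n I.b I.h l p ≤ (Kf l * I.P.N ^ (-c2) * v) ^ (2 * l) ∧
            cmkMXc I.P.n I.b I.h l p ≤ (Kf l * I.P.N ^ (-c2) * v) ^ (2 * l) :=
  cm5e_exit mlo cE D0 Tm ca ce c C C0 C1 c1 hm hcE hD0 hca hce hc hC hC1 hc1 hc1'

end Claimed.Agent.R286
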