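-- KEEP
import Claimed.Agent.R286.Bud.InstA
import Claimed.Agent.R286.Bud.InstRh
import Claimed.Agent.R286.Bud.InstP11
import Claimed.Agent.R286.Bud.TopExit
import Claimed.Agent.R286.Bud.RigA2c
import Claimed.Agent.R286.Bud.RigBCut

/-!
# Row 286 (S0533), EXIT `Bud` = LL sec. 7 (`07-budgets.tex`)      OWNER helper162 (section head LL07)      (prefix `bx_`)

**`exit_bud`**: Proposition bud:targets = (C1) + (C2) at the SK objects (`llBase`, physical points `ll04Pt`, law `ll04Mu`), from LL 03 (`LlSec3 llBase Fx`), LL 06 (`BtG1 llBase Fx cG`) and the ranges `BiExp Fx cG` of the exponents.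
ASSEMBLY (all glue PROVED here):
  `bi_fix_ex` (fixed data) -> `bi_std` (`BdStd`, `CuStd`, `Base`) + `bi_optex bi_path bi_exc0 bi_r0 bi_c7 bi_hpin bi_ffin` (`Bud/Inst`) + `bx_rig` (N18, axiom clean) -> `BudB.exit_all` (157) -> `bx_loc_of` -> `bx_loc : BtLoc`
  -> `bt_targets` (66) with the supplies `bx_world bx_sys bx_site bx_scale bx_end` (ALL PROVED, `Bud/Inst` sec. 0).
-/

set_option autoImplicit false

namespace Claimed.Agent.R286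

open MeasureTheory Set Filter Topology
open scoped Pointwise

/-- **N18** -/
theorem bx_rig : BudRig := bud_rig_of bud_rigA bud_rigB

theorem bx_zj_nonneg (F : BdFr) (X : BdFix) (W : BdWorld) (g : ℝ) : 0 ≤ F.Zj X W g := by
  unfold BdFr.Zj
  split_ifs
  · exact zero_le_one
  · exact Real.sqrt_nonneg _
  · exact zero_le_one

/-- the exit of part B gives the local assertions (i), (ii) in the form of `Bud/Top` -/
theorem bx_loc_of {X : BdFix} {W : BdWorld} {Fam : BdFr → Prop} (hX : X.Ok) (hEx : BudOptEx X W Fam)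
    (h3 : BudB.C3 X W Fam) (hZ : BudZ X W Fam (X.J + 1)) (hc : BudCost X W Fam (X.J + 1) (X.J + 1)) : BtLoc X W Fam := by
  obtain ⟨C3, N3, h3⟩ := h3
  obtain ⟨CZ, NZ, hZ⟩ := hZ
  obtain ⟨Cc, Nc, hc⟩ := hc
  obtain ⟨-, -, hg0, hg1⟩ := BudB.fix_nest hX (X.J + 1) le_rfl
  obtain ⟨hr0, hr1⟩ := hX.groom
  refine ⟨max C3 (max CZ Cc), max N3 (max NZ Nc), fun Fr hF hO hA hst hN => ⟨Fr.Zj X W, ?_⟩⟩
  have hN3 : N3 ≤ Fr.N := (le_max_left _ _).trans hN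
  have hNZ : NZ ≤ Fr.N := ((le_max_left _ _).trans (le_max_right _ _)).trans hN
  have hNc : Nc ≤ Fr.N := ((le_max_right _ _).trans (le_max_right _ _)).trans hN
  have hAt : BdAt X Fam (X.J + 1) Fr := ⟨hF, hA, hst⟩
  obtain ⟨-, hgood, hZi, hZb⟩ := hZ Fr hAt hNZ
  obtain ⟨he0, hec, heb⟩ := hc Fr hAt hNc
  have hsub : Icc (1 / 3 : ℝ) (2 / 3) ⊆ Icc (X.glo (X.J + 1)) (X.ghi (X.J + 1)) := Icc_subset_Icc hr0.le hr1.le
  have hsub0 : Icc (X.glo (X.J + 1)) (X.ghi (X.J + 1)) ⊆ Icc (X.glo 0) (X.ghi 0) := Icc_subset_Icc hg0 hg1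
  have hlt : X.glo (X.J + 1) ≤ X.ghi (X.J + 1) := by linarith
  have h13 : (1 / 3 : ℝ) ≤ 2 / 3 := by norm_num
  have hu : uIcc (1 / 3 : ℝ) (2 / 3) ⊆ uIcc (X.glo (X.J + 1)) (X.ghi (X.J + 1)) := by
    rw [uIcc_of_le hlt, uIcc_of_le h13]; exact hsub
  have heI : IntervalIntegrable (Fr.exc X W) volume (X.glo (X.J + 1)) (X.ghi (X.J + 1)) :=
    (hec.mono (by rw [uIcc_of_le hlt]; exact hsub0)).intervalIntegrable
  have hup := BdFr.bds_u_pos hO hX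
  have hcost : 0 ≤ Fr.cost X := by
    unfold BdFr.cost BdFr.Lam
    have := (BdFr.bds_x_pos hO).le
    have := (BdFr.bds_lam_pos hO).le
    positivity
  refine ⟨heI.mono_set hu, ?_, hZi.mono_set hu, ?_, ?_⟩
  · calc ∫ g in (1 / 3 : ℝ)..(2 / 3), Fr.exc X W g
        ≤ ∫ g in (X.glo (X.J + 1))..(X.ghi (X.J + 1)), Fr.exc X W g :=
          intervalIntegral.integral_mono_interval hr0.le h13 hr1.le
            ((ae_restrict_iff' measurableSet_Ioc).2 (ae_of_all _ fun g hg => he0 g (hsub0 (Ioc_subset_Icc_self hg)))) heI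
      _ ≤ Cc * Fr.cost X := heb
      _ ≤ max C3 (max CZ Cc) * Fr.btCost X :=
          mul_le_mul_of_nonneg_right ((le_max_right _ _).trans (le_max_right _ _)) hcost
  · calc ∫ g in (1 / 3 : ℝ)..(2 / 3), Fr.Zj X W g ^ 2
        ≤ ∫ g in (X.glo (X.J + 1))..(X.ghi (X.J + 1)), Fr.Zj X W g ^ 2 :=
          intervalIntegral.integral_mono_interval hr0.le h13 hr1.le (ae_of_all _ fun g => sq_nonneg _) hZi
      _ ≤ CZ := hZb
      _ ≤ max C3 (max CZ Cc) := (le_max_left _ _).trans (le_max_right _ _)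
  · have hgood' := ae_restrict_of_ae_restrict_of_subset hsub hgood
    rw [ae_restrict_iff' measurableSet_Icc] at hgood' ⊢
    filter_upwards [hgood'] with g hg hgm
    obtain ⟨Q, hQ⟩ := hEx Fr hF g (hsub0 (hsub hgm))
    refine ⟨Q, hQ, fun v hv hcu => ?_⟩
    obtain ⟨h1, h2⟩ := h3 ⟨Fr, g, Q⟩ ⟨hAt, hsub hgm, hg hgm, hQ⟩ hN3 v (Ioo_subset_Icc_self hv) hcu
    refine ⟨h1.trans (mul_le_mul_of_nonneg_right (le_max_left _ _) ?_), h2⟩
    exact mul_nonneg (mul_nonneg hup.le (BdFr.bds_agoal_pos hO hX).le) (bx_zj_nonneg _ _ _ _)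

section inst

variable {Fx : LlFix} {X : BdFix} {K : BdCst} {c C v0 sg Cu : ℝ}

/-- (C7a) of 12 in the form of `HubB` -/
theorem bx_c7a {W : BdWorld} {Fam : BdFr → Prop} {cL CL : ℝ} (hcL : 0 < cL) (hok : ∀ F, Fam F → F.Ok X)
    (h : Bd7C7a X W Fam cL CL) : BudB.C7a X W Fam := by
  obtain ⟨N0, h⟩ := h
  refine ⟨cL, CL, hcL, N0, fun i hi hN v hv => ?_⟩
  exact h ⟨i.F, i.g, i.Q, v⟩ ⟨hi.1, hok _ hi.1, hi.2.1, hi.2.2⟩ hN hv

/-- **the local assertions (i), (ii)** on the SK objects -/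
theorem bx_loc (h3 : LlSec3 llBase Fx) (hr : LlRef llBase Fx c C v0) (hG : BtG1 llBase Fx K.cG) (hf : BiFix Fx X K c C v0 sg Cu)
    {cL CL : ℝ} (hcL : 0 < cL)
    (h7 : ∃ N0 : ℕ, ∀ N1, N0 ≤ N1 → Bd7C7a X skWorld (BiFam Fx X N1) cL CL ∧ BudC7al X skWorld (BiFam Fx X N1))
    (hcH : 4 * max (max 4 (2 / llBase.pTop Fx.T)) (4 * CL / cL) * max 1 (K.Cb * X.cI + 2) ≤ X.cH) :
    BtLoc X skWorld (BtFam llBase Fx) := by
  obtain ⟨Na, ha⟩ := bi_std h3 hr hf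
  obtain ⟨Nb, hb⟩ := bi_optex h3 hr hf
  obtain ⟨P, Nc, hc⟩ := bi_path h3 hr hf
  obtain ⟨Nd, hd⟩ := bi_exc0 h3 hr hf
  obtain ⟨Ne, he⟩ := bi_r0 h3 hG hf
  obtain ⟨Nf, hf7⟩ := h7
  obtain ⟨Ng, hg⟩ := bi_hpin h3 hr hf hcL ⟨Nf, fun N1 hN => (hf7 N1 hN).1⟩ hcH
  have hcH' : K.Cb * X.cI + 1 ≤ X.cH := by
    have h1 : (1 : ℝ) ≤ 4 * max (max 4 (2 / llBase.pTop Fx.T)) (4 * CL / cL) := by
      have : (4 : ℝ) ≤ max (max 4 (2 / llBase.pTop Fx.T)) (4 * CL / cL) := (le_max_left _ _).trans (le_max_left _ _)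
      linarith
    have h2 : K.Cb * X.cI + 2 ≤ max 1 (K.Cb * X.cI + 2) := le_max_right _ _
    have h3 : (0 : ℝ) ≤ max 1 (K.Cb * X.cI + 2) := zero_le_one.trans (le_max_left _ _)
    have h4 := le_mul_of_one_le_left h3 h1
    linarith
  obtain ⟨Nh, hh⟩ := bi_ffin h3 hr hf hcL ⟨Nf, hf7⟩ hcH'
  obtain ⟨Cm, Ni, hi⟩ := bi_p11x h3 hr hf
  obtain ⟨Nj, hj⟩ := bi7_p9 h3 hf
  obtain ⟨cR, hrh⟩ := bi_rhp h3 hr hf
  obtain ⟨N1, h1a, h1b, h1c, h1d, h1e, h1f, h1g, h1h, h1i, h1j, h1r⟩ :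
      ∃ N1, Na ≤ N1 ∧ Nb ≤ N1 ∧ Nc ≤ N1 ∧ Nd ≤ N1 ∧ Ne ≤ N1 ∧ Nf ≤ N1 ∧ Ng ≤ N1 ∧ Nh ≤ N1 ∧ Ni ≤ N1 ∧ Nj ≤ N1 ∧ cR.N0 ≤ N1 :=
    ⟨Na + Nb + Nc + Nd + Ne + Nf + Ng + Nh + Ni + Nj + cR.N0, by omega, by omega, by omega, by omega, by omega, by omega, by omega, by omega,
      by omega, by omega, by omega⟩
  obtain ⟨hS, hcu, -⟩ := ha N1 h1a
  obtain ⟨x3, xZ, xc⟩ := BudB.exit_all hS skWorld_isHub bx_rig (hb N1 h1b) (hd N1 h1d) (he N1 h1e) (hc N1 h1c)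
    (hi N1 h1i) (hj N1 h1j) (bx_c7a hcL hS.ok (hf7 N1 h1f).1) (hf7 N1 h1f).2 (hg N1 h1g) (hh N1 h1h) (hrh N1 h1r) hcu
  obtain ⟨C', N0, h⟩ := bx_loc_of hf.ok (hb N1 h1b) x3 xZ xc
  exact ⟨C', max N0 N1, fun Fr hF hO hA hst hN =>
    h Fr ⟨hF, hO, (le_max_right _ _).trans hN⟩ hO hA hst ((le_max_left _ _).trans hN)⟩

end inst

/-- the constants of `LlRef` are ordered (there is a point of every size) -/
theorem bx_c_le {Fx : LlFix} {c C v0 : ℝ} (hp : Fx.pS ≤ 12) (hr : LlRef llBase Fx c C v0) : c ≤ C := by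
  obtain ⟨N0, h⟩ := hr
  have hN : (1 : ℝ) < ((N0 + 2 : ℕ) : ℝ) := by
    have : (0 : ℝ) ≤ (N0 : ℝ) := Nat.cast_nonneg _
    push_cast; linarith
  have hx0 : 0 < ((N0 + 2 : ℕ) : ℝ) ^ (-(1 / 6) : ℝ) := Real.rpow_pos_of_pos (by linarith) _
  have hx1 : ((N0 + 2 : ℕ) : ℝ) ^ (-(1 / 6) : ℝ) < 1 := Real.rpow_lt_one_of_one_lt_of_neg hN (by norm_num)
  have hp' : (⟨N0 + 2, 1, (((N0 + 2 : ℕ) : ℝ) ^ (-(1 / 6) : ℝ)) ^ Fx.pS, 0, 0, 0, 1, false⟩ : LlPt).Ok Fx :=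
    { N2 := by show 2 ≤ N0 + 2; omega
      ell1 := le_rfl
      ell2 := Real.one_le_rpow (by norm_num) (by norm_num)
      lam_lo := Real.rpow_le_rpow_of_exponent_ge hx0 hx1.le hp
      lam_hi := le_rfl
      g0 := by constructor <;> norm_num
      gu := fun _ => by constructor <;> norm_num
      chiL := by constructor <;> norm_num
      chiE := by constructor <;> norm_num
      sm_fin := fun h => by cases h }
  have := h _ hp' (by show N0 ≤ N0 + 2; omega)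
  exact this.b0_lo.trans this.b0_hi

/-- **EXIT of LL sec. 7**: Proposition bud:targets at the SK objects.     TEX[LL:bud:targets] -/
theorem exit_bud {Fx : LlFix} {cG : ℝ} (hcG : 0 < cG) (he : BiExp Fx cG) (h3 : LlSec3 llBase Fx) (hG1 : BtG1 llBase Fx cG) :
    BtC1 llBase Fx ∧ BtC2 llBase Fx (min cG (1 / 8) / 2) := by
  obtain ⟨c, C, v0, hc, hv0, hr⟩ := h3.ref
  have hcC : c ≤ C := bx_c_le (by linarith [he.p_le]) hr
  obtain ⟨cL, CL, hcL, h7⟩ := bi_c7 h3 hr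
  refine bt_targets (W := skWorld) h3 (bx_end h3) bx_sys bx_site bx_world bx_scale (by linarith [he.s_lo]) ?_ hcG hG1 ?_ ?_
  · have := he.e_le; have := he.s_lo; linarith
  · rw [le_div_iff₀ (by norm_num), le_min_iff]
    constructor
    · linarith [he.p_cG, he.p_pos]
    · linarith [he.p_le]
  · intro CU
    obtain ⟨X, K, sg, Cu, hf, hK, hCU, hcH⟩ := bi_fix_ex Fx h3.ok hcG (lt_of_lt_of_le one_pos (le_max_right CU 1)) he hc hcC hv0
      (4 * max (max 4 (2 / llBase.pTop Fx.T)) (4 * CL / cL))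
    refine ⟨X, by rw [hCU]; exact le_max_left _ _, ⟨hf.tie, hf.ok, ?_⟩, ?_⟩
    · have := hf.cG_s0
      rw [hK] at this
      unfold BdFix.s0 BdFix.sS at this
      linarith
    · exact bx_loc h3 hr (by rw [hK]; exact hG1) hf hcL (h7 X K sg Cu hf) hcH

end Claimed.Agent.R286
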