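import Claimed.Agent.R286.Bud.TopDefs
import Claimed.Agent.R286.LL.PathsBase
import Claimed.Agent.R286.Exit.ClkSite
import Claimed.Agent.R286.Brg.PrSk

/-!
# Row 286 (S0533), EXIT `BtInst` : THE INSTANCES `BtSite llBase`, `BtScale llBase` of `Bud/TopDefs.lean`      (helper26; prefix `bts_`, exits `bt_site_inst`, `bt_scale_inst`)      sorry free

TEX[LL:bud:targets] (LL 11 l.20-37: terminal mass `a` -> terminal mass one).
1. generic: base `(w,a)`, levels `(m,A)`, field `z`   <->   `(w,1)`, `(m/a, a A)`, `a z`:   `bts_F : F' = a F`,   `bts_D`, `bts_Gw`, `bts_Nu` : planted densities, Gibbs weights, tree expectations of spin tests are INVARIANT.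
2. positions `(u,lam) <-> (u/a,lam)` (`btsP`): order isomorphism, `bts_ps` (chains), `bts_map_atTop`, `bts_lim` (the limit operator), `bts_idx` (tables), `bts_at : ghAt 1 (btsC a c) (btsP a p) = a^2 ghAt a c p`.
3. SK: `bts_pr`, `bts_cpr : skCPr n 1 (btsC a b) (btsC a h) = a skCPr n a b h`,   `bts_cnu` (ANY real tree, any spin test),   `bts_cS`, `bts_cB`.
4. `bts_ext : clkExt 1 (btResc a c) = btsC a (clkExt a c)`;   **`bt_site_inst`**, **`bt_scale_inst`**.
-/

set_option autoImplicit false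
set_option linter.unusedSectionVars false

namespace Claimed.Agent.R286

open MeasureTheory ProbabilityTheory Filter Topology Function Set
open scoped Pointwise

/-! ## 1. generic rescaling of a Gaussian hierarchy -/

section gh
variable {S ι : Type} [Fintype S] [Fintype ι]

/-- the level read at the terminal mass one -/
noncomputable def ghRsL (a : ℝ) (l : GhLv S ι) : GhLv S ι := ⟨l.m / a, fun s i => a * l.A s i⟩

/-- the base with the terminal mass one -/
def ghRsB (B : GhB S) : GhB S := ⟨B.w, 1⟩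

theorem bts_inc (a : ℝ) (l : GhLv S ι) (ξ : ι → ℝ) : (ghRsL a l).inc ξ = a • l.inc ξ := by
  funext s
  simp only [GhLv.inc, ghRsL, Pi.smul_apply, smul_eq_mul, Finset.mul_sum]
  exact Finset.sum_congr rfl fun i _ => by ring

theorem bts_T {Ω : Type} [MeasurableSpace Ω] (μ : Measure Ω) {a : ℝ} (ha : a ≠ 0) (m : ℝ) (F : Ω → ℝ) :
    ghT μ (m / a) (fun ω => a * F ω) = a * ghT μ m F := by
  unfold ghT
  by_cases hm : m = 0
  · rw [if_pos hm, if_pos (by rw [hm, zero_div]), integral_const_mul]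
  · rw [if_neg hm, if_neg (div_ne_zero hm ha)]
    have : ∀ ω, m / a * (a * F ω) = m * F ω := fun ω => by field_simp
    simp_rw [this]
    field_simp

theorem bts_F0 (B : GhB S) (h : B.a ≠ 0) (z : S → ℝ) : ghF0 (ghRsB B) (B.a • z) = B.a * ghF0 B z := by
  unfold ghF0 ghRsB
  simp only [Pi.smul_apply, smul_eq_mul, one_mul, inv_one]
  field_simp

theorem bts_F (B : GhB S) (h : B.a ≠ 0) :
    ∀ (ls : List (GhLv S ι)) (z : S → ℝ), ghF (ghRsB B) (ls.map (ghRsL B.a)) (B.a • z) = B.a * ghF B ls z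
  | [], z => bts_F0 B h z
  | l :: ls, z => by
      simp only [List.map_cons, ghF]
      have e : ∀ ξ, ghF (ghRsB B) (ls.map (ghRsL B.a)) (B.a • z + (ghRsL B.a l).inc ξ) = B.a * ghF B ls (z + l.inc ξ) := by
        intro ξ
        rw [bts_inc, ← smul_add, bts_F B h ls]
      simp_rw [e]
      exact bts_T _ h _ _

theorem bts_D (B : GhB S) (h : B.a ≠ 0) (l : GhLv S ι) (ls : List (GhLv S ι)) (z : S → ℝ) (ξ : ι → ℝ) :
    ghD (ghRsB B) (ghRsL B.a l) (ls.map (ghRsL B.a)) (B.a • z) ξ = ghD B l ls z ξ := by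
  unfold ghD
  rw [bts_inc, ← smul_add, bts_F B h ls, ← List.map_cons, bts_F B h (l :: ls)]
  congr 1
  simp only [ghRsL]
  field_simp

theorem bts_Gw (B : GhB S) (z : S → ℝ) (s : S) : ghGw (ghRsB B) (B.a • z) s = ghGw B z s := by
  unfold ghGw ghRsB
  simp only [Pi.smul_apply, smul_eq_mul, one_mul]

/-- tree expectations of spin tests are invariant -/
theorem bts_Nu (B : GhB S) (h : B.a ≠ 0) {q : ℕ} (P : (Fin q → S) → ℝ) :
    ∀ (ls : List (GhLv S ι)) (rep : ℕ → Fin q → Fin q) (G : Fin q → S → ℝ),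
      ghNu (ghRsB B) (ls.map (ghRsL B.a)) rep (fun x => B.a • G x) (fun _ σ => P σ) = ghNu B ls rep G (fun _ σ => P σ)
  | [], rep, G => by
      simp only [List.map_nil, ghNu, bts_Gw]
  | l :: ls, rep, G => by
      simp only [List.map_cons, ghNu]
      refine integral_congr_ae (Eventually.of_forall fun W => ?_)
      simp only
      have e1 : ghDT (ghRsB B) (ghRsL B.a l) (ls.map (ghRsL B.a)) (rep 0) (fun x => B.a • G x) W = ghDT B l ls (rep 0) G W := by
        unfold ghDT
        simp only [bts_D B h]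
      have e2 : (fun x => B.a • G x + (ghRsL B.a l).inc (W (rep 0 x))) = fun x => B.a • (G x + l.inc (W (rep 0 x))) := by
        funext x
        rw [bts_inc, smul_add]
      rw [e1, e2, bts_Nu B h P ls]

end gh

/-! ## 2. positions, clocks, the net -/

section pos

/-- the clock read at the terminal mass one (`= btResc` of `Bud/TopDefs`) -/
def btsC (a : ℝ) (c : ℝ → ℝ) : ℝ → ℝ := fun u => a ^ 2 * c (a * u)

/-- the position read at the terminal mass one -/
noncomputable def btsP (a : ℝ) (p : GhPos) : GhPos := toLex (p.u / a, p.lam)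

/-- and back -/
noncomputable def btsQ (a : ℝ) (p : GhPos) : GhPos := toLex (a * p.u, p.lam)

theorem bts_P_u (a : ℝ) (p : GhPos) : (btsP a p).u = p.u / a := rfl
theorem bts_P_lam (a : ℝ) (p : GhPos) : (btsP a p).lam = p.lam := rfl

theorem bts_PQ {a : ℝ} (ha : 0 < a) (p : GhPos) : btsP a (btsQ a p) = p := by
  have : a * p.u / a = p.u := by field_simp
  simp only [btsP, btsQ, GhPos.u, GhPos.lam, ofLex_toLex] at this ⊢
  rw [this]
  rfl

theorem bts_QP {a : ℝ} (ha : 0 < a) (p : GhPos) : btsQ a (btsP a p) = p := by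
  have : a * (p.u / a) = p.u := by field_simp
  simp only [btsP, btsQ, GhPos.u, GhPos.lam, ofLex_toLex] at this ⊢
  rw [this]
  rfl

theorem bts_P_le {a : ℝ} (ha : 0 < a) (p q : GhPos) : btsP a p ≤ btsP a q ↔ p ≤ q := by
  rw [gh_os_pos_le_iff, gh_os_pos_le_iff, bts_P_u, bts_P_u, bts_P_lam, bts_P_lam, div_lt_div_iff_of_pos_right ha,
    div_left_inj' ha.ne']

theorem bts_P_inj {a : ℝ} (ha : 0 < a) : Function.Injective (btsP a) := fun p q h => by
  rw [← bts_QP ha p, h, bts_QP ha]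

theorem bts_P_ok {a : ℝ} (ha : 0 < a) (p : GhPos) : (btsP a p).Ok 1 ↔ p.Ok a := by
  unfold GhPos.Ok
  rw [bts_P_u, bts_P_lam, div_le_one ha, le_div_iff₀ ha, zero_mul]

theorem bts_clamp {a : ℝ} (ha : 0 < a) (c : ℝ → ℝ) (u : ℝ) : ghClamp 1 (btsC a c) u = a ^ 2 * ghClamp a c (a * u) := by
  unfold ghClamp btsC
  by_cases hu : u < 0
  · rw [if_pos hu, if_pos (mul_neg_of_pos_of_neg ha hu), mul_zero]
  · rw [if_neg hu, if_neg (not_lt.2 (mul_nonneg ha.le (not_lt.1 hu)))]
    congr 2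
    rw [mul_min_of_nonneg _ _ ha.le, mul_one]

theorem bts_left {a : ℝ} (ha : 0 < a) {c : ℝ → ℝ} (hc : GhClk1 a c) (u : ℝ) :
    leftLim (ghClamp 1 (btsC a c)) u = a ^ 2 * leftLim (ghClamp a c) (a * u) := by
  apply leftLim_eq_of_tendsto
  have h1 := (gh_os_clamp_mono ha.le hc).tendsto_leftLim (a * u)
  have h2 : Tendsto (fun x : ℝ => a * x) (𝓝[<] u) (𝓝[<] (a * u)) := by
    refine tendsto_nhdsWithin_of_tendsto_nhds_of_eventually_within _
      ((continuous_const.mul continuous_id).tendsto u |>.mono_left nhdsWithin_le_nhds) ?_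
    filter_upwards [self_mem_nhdsWithin] with x hx
    exact mul_lt_mul_of_pos_left hx ha
  have h3 := (h1.comp h2).const_mul (a ^ 2)
  refine h3.congr fun x => ?_
  simp only [Function.comp, bts_clamp ha]

theorem bts_right {a : ℝ} (ha : 0 < a) {c : ℝ → ℝ} (hc : GhClk1 a c) (u : ℝ) :
    rightLim (ghClamp 1 (btsC a c)) u = a ^ 2 * rightLim (ghClamp a c) (a * u) := by
  apply rightLim_eq_of_tendsto
  have h1 := (gh_os_clamp_mono ha.le hc).tendsto_rightLim (a * u)
  have h2 : Tendsto (fun x : ℝ => a * x) (𝓝[>] u) (𝓝[>] (a * u)) := by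
    refine tendsto_nhdsWithin_of_tendsto_nhds_of_eventually_within _
      ((continuous_const.mul continuous_id).tendsto u |>.mono_left nhdsWithin_le_nhds) ?_
    filter_upwards [self_mem_nhdsWithin] with x hx
    exact mul_lt_mul_of_pos_left hx ha
  have h3 := (h1.comp h2).const_mul (a ^ 2)
  refine h3.congr fun x => ?_
  simp only [Function.comp, bts_clamp ha]

theorem bts_at {a : ℝ} (ha : 0 < a) {c : ℝ → ℝ} (hc : GhClk1 a c) (p : GhPos) :
    ghAt 1 (btsC a c) (btsP a p) = a ^ 2 * ghAt a c p := by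
  unfold ghAt
  have : a * (p.u / a) = p.u := by field_simp
  rw [bts_P_u, bts_P_lam, bts_left ha hc, bts_right ha hc, this]
  ring

/-- the chain of the image = the image of the chain -/
theorem bts_ps {a : ℝ} (ha : 0 < a) (F : Finset GhPos) : ghPs 1 (F.image (btsP a)) = (ghPs a F).map (btsP a) := by
  classical
  have s1 : (ghPs 1 (F.image (btsP a))).Pairwise (· ≤ ·) := gh_os_ps_pairwise _ _
  have s2 : ((ghPs a F).map (btsP a)).Pairwise (· ≤ ·) := by
    rw [List.pairwise_map]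
    exact (gh_os_ps_pairwise a F).imp fun h => (bts_P_le ha _ _).2 h
  refine List.Perm.eq_of_pairwise (fun _ _ _ _ h1 h2 => le_antisymm h1 h2) s1 s2 ?_
  rw [List.perm_ext_iff_of_nodup (gh_os_ps_nodup _ _) ((gh_os_ps_nodup a F).map (bts_P_inj ha))]
  intro x
  rw [gh_os_ps_mem, List.mem_map, Finset.mem_image]
  constructor
  · rintro ⟨⟨p, hp, rfl⟩, hok⟩
    exact ⟨p, gh_os_ps_mem.2 ⟨hp, (bts_P_ok ha p).1 hok⟩, rfl⟩
  · rintro ⟨p, hp, rfl⟩
    exact ⟨⟨p, (gh_os_ps_mem.1 hp).1, rfl⟩, (bts_P_ok ha p).2 (gh_os_ps_mem.1 hp).2⟩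

theorem bts_map_atTop {a : ℝ} (ha : 0 < a) :
    Filter.map (fun F : Finset GhPos => F.image (btsP a)) atTop = atTop := by
  classical
  refine Filter.map_atTop_eq_of_gc (fun G : Finset GhPos => G.image (btsQ a)) ∅ (fun F F' h => Finset.image_subset_image h) ?_ ?_
  · intro F G _
    constructor
    · intro h p hp
      exact Finset.mem_image.2 ⟨btsP a p, h (Finset.mem_image_of_mem _ hp), bts_QP ha p⟩
    · intro h x hx
      obtain ⟨p, hp, rfl⟩ := Finset.mem_image.1 hx
      obtain ⟨y, hy, rfl⟩ := Finset.mem_image.1 (h hp)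
      rwa [bts_PQ ha]
  · intro G _ x hx
    exact Finset.mem_image.2 ⟨btsQ a x, Finset.mem_image_of_mem _ hx, bts_PQ ha x⟩

/-- transfer of the limit operator -/
theorem bts_lim {a : ℝ} (ha : 0 < a) (Q1 Qa : List GhPos → ℝ) (h : ∀ ps : List GhPos, Q1 (ps.map (btsP a)) = Qa ps) :
    ghLim 1 Q1 = ghLim a Qa := by
  unfold ghLim limUnder
  have e : Filter.map (fun F : Finset GhPos => Q1 (ghPs 1 F)) atTop = Filter.map (fun F : Finset GhPos => Qa (ghPs a F)) atTop := by
    conv_lhs => rw [← bts_map_atTop ha, Filter.map_map]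
    congr 1
    funext F
    simp only [Function.comp, bts_ps ha, h]
  rw [e]

/-- normal form of `ghIdx` -/
theorem bts_idx_eq (ps : List GhPos) (p : WithTop GhPos) :
    ghIdx ps p = (ps.filter fun x : GhPos => decide ((x : WithTop GhPos) ≤ p)).length + if p = ⊤ then 1 else 0 := by
  unfold ghIdx
  congr 1
  have : (do let a ← ps; pure (a : WithTop GhPos)) = ps.map (fun x : GhPos => (x : WithTop GhPos)) := by
    simp [List.map_eq_flatMap]
  rw [this, List.filter_map, List.length_map]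
  rfl

theorem bts_idx {a : ℝ} (ha : 0 < a) (ps : List GhPos) (p : WithTop GhPos) :
    ghIdx (ps.map (btsP a)) (p.map (btsP a)) = ghIdx ps p := by
  rw [bts_idx_eq, bts_idx_eq]
  congr 1
  · rw [List.filter_map, List.length_map]
    congr 1
    refine List.filter_congr fun x _ => ?_
    simp only [Function.comp, decide_eq_decide]
    cases p with
    | top => simp
    | coe p => simp only [WithTop.map_coe, WithTop.coe_le_coe, bts_P_le ha]
  · cases p with
    | top => simp
    | coe p => simp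

end pos

/-! ## 3. the SK instance -/

section sk
variable {n : ℕ}

/-- one revelation read at the terminal mass one -/
noncomputable def btsE (a : ℝ) (e : SkInc) : SkInc := ⟨e.m / a, a ^ 2 * e.db, a ^ 2 * e.dh⟩

theorem bts_lv {a : ℝ} (ha : 0 < a) (e : SkInc) : (btsE a e).lv n = ghRsL a (e.lv n) := by
  unfold SkInc.lv ghLvF ghRsL btsE
  congr 1
  funext s i
  cases i with
  | inl p => simp only [Sum.elim_inl]; rw [Real.sqrt_mul (sq_nonneg a), Real.sqrt_sq ha.le]; ring
  | inr p => simp only [Sum.elim_inr]; rw [Real.sqrt_mul (sq_nonneg a), Real.sqrt_sq ha.le]; ring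

theorem bts_lvs {a : ℝ} (ha : 0 < a) (P : SkStp) : skLvs n (P.map (btsE a)) = (skLvs n P).map (ghRsL a) := by
  unfold skLvs
  rw [List.map_map, List.map_map]
  exact List.map_congr_left fun e _ => bts_lv ha e

theorem bts_stp {a : ℝ} (ha : 0 < a) {b h : ℝ → ℝ} (hb : GhClk1 a b) (hh : GhClk1 a h) :
    ∀ (ps : List GhPos) (b0 h0 : ℝ),
      skCStp 1 (btsC a b) (btsC a h) (a ^ 2 * b0) (a ^ 2 * h0) (ps.map (btsP a)) = (skCStp a b h b0 h0 ps).map (btsE a)
  | [], _, _ => rfl
  | p :: ps, b0, h0 => by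
      simp only [List.map_cons, skCStp, bts_at ha hb, bts_at ha hh]
      rw [bts_stp ha hb hh ps]
      congr 1
      simp only [btsE, bts_P_u, mul_sub]

theorem bts_stp0 {a : ℝ} (ha : 0 < a) {b h : ℝ → ℝ} (hb : GhClk1 a b) (hh : GhClk1 a h) (ps : List GhPos) :
    skCStp 1 (btsC a b) (btsC a h) 0 0 (ps.map (btsP a)) = (skCStp a b h 0 0 ps).map (btsE a) := by
  have := bts_stp ha hb hh ps 0 0
  simpa using this

theorem bts_tot (a : ℝ) (P : SkStp) : skTotB (P.map (btsE a)) = a ^ 2 * skTotB P ∧ skTotH (P.map (btsE a)) = a ^ 2 * skTotH P := by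
  unfold skTotB skTotH
  induction P with
  | nil => simp
  | cons e P ih =>
      simp only [List.map_cons, List.sum_cons, ih.1, ih.2, btsE]
      constructor <;> ring

theorem bts_pr {a : ℝ} (ha : 0 < a) (P : SkStp) : skPr n 1 (P.map (btsE a)) = a * skPr n a P := by
  unfold skPr skF
  have h1 := bts_F (skBase n a) (ι := SkDr n) ha.ne' (skLvs n P) 0
  have e1 : ghRsB (skBase n a) = skBase n 1 := rfl
  have e2 : (skBase n a).a = a := rfl
  rw [e1, e2, smul_zero] at h1
  rw [bts_lvs ha, h1, (bts_tot a P).1, (bts_tot a P).2]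
  ring

/-- the rescaled tree -/
noncomputable def btsT (a : ℝ) (τ : ℕ → ℕ → WithTop GhPos) : ℕ → ℕ → WithTop GhPos := fun x y => (τ x y).map (btsP a)

theorem bts_disc {a : ℝ} (ha : 0 < a) (ps : List GhPos) (τ : ℕ → ℕ → WithTop GhPos) :
    ghDisc (ps.map (btsP a)) (btsT a τ) = ghDisc ps τ := by
  funext x y
  exact bts_idx ha ps (τ x y)

/-- (R1) the pressure -/
theorem bts_cpr {a : ℝ} (ha : 0 < a) {b h : ℝ → ℝ} (hb : GhClk1 a b) (hh : GhClk1 a h)
    (hex : GhLimEx a (fun ps => skPr n a (skCStp a b h 0 0 ps))) :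
    skCPr n 1 (btsC a b) (btsC a h) = a * skCPr n a b h := by
  unfold skCPr
  rw [← (gh_nt_const_mul a hex).2]
  refine bts_lim ha _ _ fun ps => ?_
  rw [bts_stp0 ha hb hh, bts_pr ha]

/-- (R2) tree expectations of spin tests -/
theorem bts_cnu {a : ℝ} (ha : 0 < a) {b h : ℝ → ℝ} (hb : GhClk1 a b) (hh : GhClk1 a h) (q : ℕ) (τ : ℕ → ℕ → WithTop GhPos)
    (P : (Fin q → SkCfg n) → ℝ) :
    skCNu n 1 (btsC a b) (btsC a h) q (btsT a τ) P = skCNu n a b h q τ P := by
  unfold skCNu
  refine bts_lim ha _ _ fun ps => ?_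
  rw [bts_stp0 ha hb hh, bts_lvs ha, bts_disc ha]
  have h1 := bts_Nu (skBase n a) (ι := SkDr n) ha.ne' P (skLvs n (skCStp a b h 0 0 ps)) (ghRepN q (ghDisc ps τ)) (fun _ => 0)
  have e1 : ghRsB (skBase n a) = skBase n 1 := rfl
  have e2 : (skBase n a).a = a := rfl
  rw [e1, e2] at h1
  simp only [smul_zero] at h1
  exact h1

theorem bts_R2 {a : ℝ} (ha : 0 < a) (w : ℝ) : btsT a (ghR2 (ghPosA (a * w))) = ghR2 (ghPosA w) := by
  funext x y
  unfold btsT ghR2
  split_ifs
  · rfl
  · have : a * w / a = w := by field_simp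
    simp only [WithTop.map_coe, btsP, ghPosA, GhPos.u, GhPos.lam, ofLex_toLex, this]

theorem bts_cS {a : ℝ} (ha : 0 < a) {b h : ℝ → ℝ} (hb : GhClk1 a b) (hh : GhClk1 a h) (w : ℝ) :
    skCS n 1 (btsC a b) (btsC a h) (ghPosA w) = skCS n a b h (ghPosA (a * w)) := by
  unfold skCS
  rw [← bts_R2 ha w, bts_cnu ha hb hh]

theorem bts_cB {a : ℝ} (ha : 0 < a) {b h : ℝ → ℝ} (hb : GhClk1 a b) (hh : GhClk1 a h) (w : ℝ) :
    skCB n 1 (btsC a b) (btsC a h) (ghPosA w) = skCB n a b h (ghPosA (a * w)) := by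
  unfold skCB
  rw [← bts_R2 ha w, bts_cnu ha hb hh]

end sk

/-! ## 4. the instances -/

section inst

theorem bts_ext {a : ℝ} (ha : 0 < a) (c : ℝ → ℝ) : clkExt 1 (btResc a c) = btsC a (clkExt a c) := by
  funext u
  unfold clkExt btsC btResc
  beta_reduce
  by_cases h0 : u ≤ 0
  · rw [if_pos h0, if_pos (mul_nonpos_of_nonneg_of_nonpos ha.le h0), mul_zero]
  · have h0' : ¬ a * u ≤ 0 := not_le.2 (mul_pos ha (not_le.1 h0))
    by_cases h1 : u < 1
    · rw [if_neg h0, if_pos h1, if_neg h0', if_pos (by nlinarith)]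
    · have h1' : ¬ a * u < a := not_lt.2 (by nlinarith [not_lt.1 h1])
      rw [if_neg h0, if_neg h1, if_neg h0', if_neg h1']
      have e : (fun u => a ^ 2 * c (a * u)) '' Ioo 0 1 = (a ^ 2) • (c '' Ioo 0 a) := by
        ext y
        rw [Set.mem_smul_set]
        constructor
        · rintro ⟨v, hv, rfl⟩
          exact ⟨c (a * v), ⟨a * v, ⟨mul_pos ha hv.1, by nlinarith [hv.2]⟩, rfl⟩, rfl⟩
        · rintro ⟨_, ⟨v, hv, rfl⟩, rfl⟩
          refine ⟨v / a, ⟨div_pos hv.1 ha, (div_lt_one ha).2 hv.2⟩, ?_⟩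
          have : a * (v / a) = v := by field_simp
          simp only [this, smul_eq_mul]
      rw [e, Real.sSup_smul_of_nonneg (sq_nonneg a), smul_eq_mul]

theorem bts_ext_zero {a : ℝ} (ha : 0 < a) : clkExt a (0 : ℝ → ℝ) = fun _ => 0 := by
  funext u
  unfold clkExt
  have : (0 : ℝ → ℝ) '' Ioo 0 a = {0} := by
    ext y
    simp only [Set.mem_image, Pi.zero_apply, Set.mem_singleton_iff]
    constructor
    · rintro ⟨_, _, rfl⟩; rfl
    · rintro rfl; exact ⟨a / 2, ⟨by linarith, by linarith⟩, rfl⟩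
  rw [this, csSup_singleton]
  split_ifs <;> rfl

/-- **INSTANCE (SITE)** -/
theorem bt_site_inst : BtSite llBase := by
  intro m a K hm ha _ _
  show skCPr m a (clkExt a 0) (clkExt a K) = skCPr 1 a (clkExt a 0) (clkExt a K)
  rw [bts_ext_zero ha]
  exact exit_clk_site hm ha _

/-- **INSTANCE (SCALE)** -/
theorem bt_scale_inst : BtScale llBase where
  f := fun m a b h ha hb hh _ _ => by
    show skCPr m 1 (clkExt 1 (btResc a b)) (clkExt 1 (btResc a h)) = a * skCPr m a (clkExt a b) (clkExt a h)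
    have hadm := psi_adm ha hb hh
    rw [bts_ext ha, bts_ext ha]
    exact bts_cpr ha hadm.1 hadm.2 (gh_pk_lim_pr ha hadm 0).2
  S := fun m a b h ha hb hh _ _ w _ => by
    show skCS m 1 (clkExt 1 (btResc a b)) (clkExt 1 (btResc a h)) (ghPosA w) = skCS m a (clkExt a b) (clkExt a h) (ghPosA (a * w))
    have hadm := psi_adm ha hb hh
    rw [bts_ext ha, bts_ext ha]
    exact bts_cS ha hadm.1 hadm.2 w
  B := fun m a b h ha hb hh _ _ w _ => by
    show skCB m 1 (clkExt 1 (btResc a b)) (clkExt 1 (btResc a h)) (ghPosA w) = skCB m a (clkExt a b) (clkExt a h) (ghPosA (a * w))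
    have hadm := psi_adm ha hb hh
    rw [bts_ext ha, bts_ext ha]
    exact bts_cB ha hadm.1 hadm.2 w

end inst

theorem bts_eqns_cite : True := by
  have := @ghRsL.eq_1
  have := @ghRsB.eq_1
  have := @btsC.eq_1
  have := @btsP.eq_1
  have := @btsQ.eq_1
  have := @btsE.eq_1
  have := @btsT.eq_1
  trivial

end Claimed.Agent.R286
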