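-- KEEP
import Claimed.Agent.R286.Exit.Bud
import Claimed.Agent.R286.LL.Chain
import Claimed.Agent.R286.LL.PathsBase

/-!
# Row 286 (S0533), EXIT `C12`      typed + glued by helper224 (deputy of 207 for the LL chain);   OWNER: helper162 (head LL 07) with helper66 (`bt_targets`);   ADV helper167

TEX[LL:bud:targets]
**LL Prop. 7.1 = (C1) + (C2) at the concrete base, in the protocol of the LL chain** (PATH level: points `ll04Pt`, law `ll04Mu`, statistics `skCS`, `skCB`):
for every record of cut-offs `F0` with the P-list and every LEGAL stage `pB : LLParB` (`LlcStB`: (G1) holds with the saving `pB.cG` at `(pB.sStar, pB.eta)`) there is a threshold `p0 > 0` such that for all `p_* ≤ p0`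
`BtC1 llBase F` and `BtC2 llBase F c`, `F = F0.wExp pB.sStar pB.eta p_*`, with the saving `c = llcCC pB = min(c_G, 1/8)/2` FIXED BEFORE `p_*`.
All the other parameters of LL 07 (`τ_0, b_s, b_ℓ, h_e, ζ, m_PE, ρ`, patches, stages: `BdFix`) are INTERNAL (`∃ X` in `c12_loc`): no later section reads them.

GLUE (compiled, NO own sorry; helper213, owner of misfit M4): `exit_c12 ⟸ exit_bud` (162, `Exit/Bud.lean`: `bt_targets` of 66 + the supplies `bx_end bx_sys bx_site bx_world bx_scale bx_loc`, which live THERE) + `BiExp` from the fields of `pB` and `pS ≤ llcP7 pB`.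
CONSUMERS: `exit_dz` (246), `exit_d11` (163: the half `BtC2.gap`), `exit_d15` (234: `Z_g`), `exit_dcs` (228).
-/

set_option autoImplicit false

namespace Claimed.Agent.R286

open MeasureTheory Set

/-- the saving `c` of (C2), fixed at the stage B -/
noncomputable def llcCC (pB : LLParB) : ℝ := min pB.cG (1 / 8) / 2

/-- the explicit threshold on `p_*` of LL 07 -/
noncomputable def llcP7 (pB : LLParB) : ℝ := min (1 / 1000000) (min (pB.cG / 2000) (min pB.cG (1 / 8) / 8))

/-- **EXIT FORM of LL Sec. 7** -/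
def LlcC12 (𝔹 : LlBase) (T : ℝ) : Prop :=
  ∀ F0 : LlFix, F0.T = T → LlBaseProfile 𝔹 T → LlcP 𝔹 F0 → ∀ pB : LLParB, LlcStB 𝔹 F0 pB → ∃ p0 : ℝ, 0 < p0 ∧ ∀ pS : ℝ, 0 < pS → pS ≤ p0 →
    BtC1 𝔹 (F0.wExp pB.sStar pB.eta pS) ∧ BtC2 𝔹 (F0.wExp pB.sStar pB.eta pS) (llcCC pB)

theorem c12_eqns_cite : True := by
  have := @llcCC.eq_1
  have := @llcP7.eq_1
  have := @LlcC12.eq_1
  trivial

theorem llcCC_pos (pB : LLParB) : 0 < llcCC pB := by
  have := pB.cG_pos
  unfold llcCC
  have : 0 < min pB.cG (1 / 8) := lt_min this (by norm_num)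
  linarith

theorem llcP7_pos (pB : LLParB) : 0 < llcP7 pB := by
  have h := pB.cG_pos
  unfold llcP7
  refine lt_min (by norm_num) (lt_min (by linarith) ?_)
  have : 0 < min pB.cG (1 / 8) := lt_min h (by norm_num)
  linarith

theorem llcP7_le_one (pB : LLParB) : llcP7 pB ≤ 1 := (min_le_left _ _).trans (by norm_num)

/-- terminal mass of a legal point -/
theorem llc_a_pos {p : LlPt} {F : LlFix} (hp : p.Ok F) : 0 < p.a := by
  unfold LlPt.a
  split_ifs
  · norm_num
  · linarith [hp.ell1]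

/-- **GLUE (proved)**: (G1) of the chain is the supply (G1) of `Bud/TopDefs` (interval integral = integral over `Ioo`) -/
theorem llc_g1_bt {𝔹 : LlBase} {F : LlFix} {cG : ℝ} (h : LlcG1 𝔹 F cG) : BtG1 𝔹 F cG := by
  obtain ⟨N0, h⟩ := h
  refine ⟨N0, fun p hp hN hsm m h1 h2 => ?_⟩
  have h3 := (h p hp hN hsm m h1 h2).2
  have e : ∫ v in (0 : ℝ)..p.a, p.b F 𝔹 v * p.q F 𝔹 v ^ 2 = ∫ v in Ioo (0 : ℝ) p.a, p.b F 𝔹 v * p.q F 𝔹 v ^ 2 := by
    rw [intervalIntegral.integral_of_le (llc_a_pos hp).le, integral_Ioc_eq_integral_Ioo]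
  unfold LlPt.gapG at h3
  rw [e] at h3
  linarith

/-! ### the exit -/

theorem exit_c12 (T : ℝ) (_hT : 1 < T) : LlcC12 llBase T := by
  intro F0 _hFT _hprof hP pB hB
  refine ⟨llcP7 pB, llcP7_pos pB, fun pS h0 hp => ?_⟩
  have h1 : pS ≤ 1 := hp.trans (llcP7_le_one pB)
  have hE : LlExpOk pB.sStar pB.eta pS := llc_expOk pB h0 h1
  have h3 : LlSec3 llBase (F0.wExp pB.sStar pB.eta pS) := (hP _ _ _ hE).sec3
  have hG : BtG1 llBase (F0.wExp pB.sStar pB.eta pS) pB.cG := llc_g1_bt (hB pS h0 h1)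
  have hp6 : pS ≤ 1 / 1000000 := hp.trans (min_le_left _ _)
  have hpc : pS ≤ pB.cG / 2000 := hp.trans ((min_le_right _ _).trans (min_le_left _ _))
  have he : BiExp (F0.wExp pB.sStar pB.eta pS) pB.cG :=
    { s_hi := hE.s_hi
      s_lo := by show 1 / 2 - pB.sStar ≤ 1 / 100000; have := pB.tau_le; unfold LLParB.sStar; linarith
      s_cG := by show 100 * (1 / 2 - pB.sStar) ≤ pB.cG; have := pB.tau_le_cG; have := pB.tau_pos; unfold LLParB.sStar; linarith
      e_pos := pB.eta_pos
      e_le := by show pB.eta ≤ (1 / 2 - pB.sStar) / 100; have := pB.eta_le; unfold LLParB.sStar; linarith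
      p_pos := h0
      p_le := hp6
      p_cG := by show 2000 * pS ≤ pB.cG; linarith }
  exact exit_bud pB.cG_pos he h3 hG

end Claimed.Agent.R286
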