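-- KEEP
import Claimed.Agent.R286.L02.Defs
import Claimed.Agent.R286.L02.TiltG

/-!
# Row 286 (S0533), EXIT `LL02A4`      OWNER helper77 (co-architect of L02, inner file R286/L02/Tilt.lean);  head helper93;  ADV helper73;  source: LL 02-foundations.tex l.283-305

(A4) and the structure of the tilted laws, FINE LEVEL (fine path `P`, tilt stage `js` of mass `s = llMs a P js`, hypotheses `LlTiltA4`).
Consumers: LL 04 (l.72, 164, 222), LL 08 (l.890-965, 1303, 1486), LL 09 (l.271).

RETYPED for GENERIC CHAINS (ruling of 93 on the misfit of 189/22): `LlTiltA4.low` = each stage `≤ js` is empty for the matrix model or has the mass `0`.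
`G_n` of (A4) = `skG n a (llMrg js P)`, `llMrg js P` = the MERGED path (`L02/Defs`): ONE initial revelation `b(0+) = skCumB (llMat P) (js+1)` of mass `0`, then the stages `> js`.

ALL EXITS ARE COMPILED GLUE on `L02/Tilt.lean`, `L02/TiltG.lean` (0 sorry).
* section 1 (`ll2b_*`): NORMAL FORMS  `llMvAt js P = ll2PT b0 msT s hi` (`ll2b_nfT`, explicit `ll2b_nfG`),  `llMat P = lo ++ hi` with `lo` FLAT (`ll2b_flat`);
* section 2: `exit_a4_adm, _cum, _mrg (NEW), _psi, _laplace, _reweight, _unt (NEW), _indep, _flip`;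
* section 3: the CHANGE OF MEASURE of LL 04 l.164-170 (`exit_a4_transfer`, `exit_a4_transfer_prod`), with the constant `exp ((K(p's) - p' K(s)) / p')`,
  `K = llA4K n a P js` = the Laplace transform of (A4) (`exit_a4_K`: `K(s) = s n ψ_n(s)`; `exit_a4_KK`: `K(t) = skKK n a t (llMrg js P)` ALL `t`; `exit_a4_K_nonneg`, `exit_a4_int`, `exit_a4_G_int`).
-/

set_option autoImplicit false

namespace Claimed.Agent.R286

open MeasureTheory ProbabilityTheory

/-! ### 1. normal forms -/

theorem ll2b_sum_zero {l : List ℝ} (h0 : ∀ x ∈ l, 0 ≤ x) (hs : l.sum = 0) : ∀ x ∈ l, x = 0 := by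
  induction l with
  | nil => intro x hx; simp at hx
  | cons a l ih =>
    have ha := h0 a List.mem_cons_self
    have hl : 0 ≤ l.sum := List.sum_nonneg fun x hx => h0 x (List.mem_cons_of_mem _ hx)
    rw [List.sum_cons] at hs
    intro x hx
    rcases List.mem_cons.1 hx with rfl | hx
    · linarith
    · exact ih (fun y hy => h0 y (List.mem_cons_of_mem _ hy)) (by linarith) x hx

theorem ll2b_split {α : Type} (P : List α) {js : ℕ} (h : js < P.length) : P = P.take js ++ P[js] :: P.drop (js + 1) := by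
  rw [← List.drop_eq_getElem_cons h, List.take_append_drop]

/-- the moved path on an explicit decomposition -/
theorem ll2b_mvAt (M : LlStp) (pS : LlInc) (H : LlStp) :
    llMvAt M.length (M ++ pS :: H)
      = M.map (fun e => ⟨e.m, 0, e.dh⟩) ++ ⟨pS.m, skCumB (llMat (M ++ pS :: H)) (M.length + 1), pS.dh⟩ :: llMat H := by
  unfold llMvAt
  rw [List.mapIdx_append, List.mapIdx_cons]
  congr 1
  · refine List.ext_getElem (by simp) fun i h1 h2 => ?_
    have hi : i < M.length := by simpa using h1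
    simp [hi]
  · congr 1
    · simp
    · refine List.ext_getElem (by simp [llMat]) fun i h1 h2 => ?_
      simp [llMat]

theorem ll2b_ex {α : Type} (P : List α) {js : ℕ} (h : js < P.length) : ∃ M pS H, P = M ++ pS :: H ∧ M.length = js :=
  ⟨P.take js, P[js], P.drop (js + 1), ll2b_split P h, by simp; omega⟩

theorem ll2b_cumH (M : LlStp) (pS : LlInc) (H : LlStp) :
    skCumH (llMat (M ++ pS :: H)) (M.length + 1) = (M.map LlInc.dh).sum + pS.dh := by
  have e : llMat (M ++ pS :: H) = (llMat M ++ [⟨pS.m, pS.db, pS.dh⟩]) ++ llMat H := by simp [llMat]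
  unfold skCumH
  rw [e, List.take_left' (by simp [llMat])]
  simp [llMat, List.map_map, Function.comp_def]

theorem ll2b_cumB (M : LlStp) (pS : LlInc) (H : LlStp) :
    skCumB (llMat (M ++ pS :: H)) (M.length + 1) = (M.map LlInc.db).sum + pS.db := by
  have e : llMat (M ++ pS :: H) = (llMat M ++ [⟨pS.m, pS.db, pS.dh⟩]) ++ llMat H := by simp [llMat]
  unfold skCumB
  rw [e, List.take_left' (by simp [llMat])]
  simp [llMat, List.map_map, Function.comp_def]

theorem ll2b_ms (a : ℝ) (M : LlStp) (pS : LlInc) (H : LlStp) : llMs a (M ++ pS :: H) M.length = pS.m := by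
  simp [llMs]

theorem ll2b_nonneg {a : ℝ} {P : LlStp} (hP : LlStpAdm a P) {e : LlInc} (he : e ∈ P) : 0 ≤ e.db ∧ 0 ≤ e.dh := by
  have := hP.1.2 ⟨e.m, e.db, e.dh⟩ (List.mem_map.2 ⟨e, he, rfl⟩)
  exact ⟨this.2.2.1, this.2.2.2⟩

/-- no field up to the tilt stage -/
theorem ll2b_dh {a : ℝ} {M : LlStp} {pS : LlInc} {H : LlStp} (hP : LlStpAdm a (M ++ pS :: H))
    (h : skCumH (llMat (M ++ pS :: H)) (M.length + 1) = 0) : (∀ e ∈ M, e.dh = 0) ∧ pS.dh = 0 := by
  rw [ll2b_cumH] at h
  have h1 : ∀ x ∈ M.map LlInc.dh, 0 ≤ x := fun x hx => by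
    obtain ⟨e, he, rfl⟩ := List.mem_map.1 hx
    exact (ll2b_nonneg hP (List.mem_append_left _ he)).2
  have h2 : 0 ≤ pS.dh := (ll2b_nonneg hP (by simp)).2
  have h3 : 0 ≤ (M.map LlInc.dh).sum := List.sum_nonneg h1
  refine ⟨fun e he => ll2b_sum_zero h1 (by linarith) _ (List.mem_map.2 ⟨e, he, rfl⟩), by linarith⟩

/-- NORMAL FORM of the moved path -/
theorem ll2b_T {M : LlStp} {pS : LlInc} {H : LlStp} (h1 : ∀ e ∈ M, e.dh = 0) (h2 : pS.dh = 0) :
    llMvAt M.length (M ++ pS :: H)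
      = ll2PT (skCumB (llMat (M ++ pS :: H)) (M.length + 1)) (M.map LlInc.m) pS.m (llMat H) := by
  rw [ll2b_mvAt, h2]
  unfold ll2PT
  congr 1
  rw [List.map_map]
  exact List.map_congr_left fun e he => by simp [ll2E, h1 e he]

/-- **normal form of the moved path** under `LlTiltOk` -/
theorem ll2b_nfT {a : ℝ} {P : LlStp} {js : ℕ} (hP : LlStpAdm a P) (h : LlTiltOk P (some js)) :
    ∃ b0 msT hi, llMvAt js P = ll2PT b0 msT (llMs a P js) hi ∧ msT.length = js ∧ js + 1 + hi.length = P.length := by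
  obtain ⟨hjs, hH⟩ := h
  obtain ⟨M, pS, H, rfl, rfl⟩ := ll2b_ex P hjs
  obtain ⟨h1, h2⟩ := ll2b_dh hP hH
  exact ⟨_, _, _, by rw [ll2b_ms]; exact ll2b_T h1 h2, by simp, by simp [llMat]; omega⟩

/-- **explicit normal form of the moved path** under `LlTiltOk` -/
theorem ll2b_nfG {a : ℝ} {P : LlStp} {js : ℕ} (hP : LlStpAdm a P) (h : LlTiltOk P (some js)) :
    llMvAt js P = ll2PT (skCumB (llMat P) (js + 1)) ((P.take js).map LlInc.m) (llMs a P js) ((llMat P).drop (js + 1)) := by
  obtain ⟨hjs, hH⟩ := h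
  obtain ⟨M, pS, H, rfl, rfl⟩ := ll2b_ex P hjs
  obtain ⟨h1, h2⟩ := ll2b_dh hP hH
  have e : llMat (M ++ pS :: H) = (llMat M ++ [⟨pS.m, pS.db, pS.dh⟩]) ++ llMat H := by simp [llMat]
  have e2 : (llMat (M ++ pS :: H)).drop (M.length + 1) = llMat H := by
    rw [e, List.drop_left' (by simp [llMat])]
  rw [ll2b_ms, ll2b_T h1 h2, e2, List.take_left' rfl]

/-- the low stages of the untilted path are FLAT -/
theorem ll2b_flat {a : ℝ} {P : LlStp} {js : ℕ} (h : LlTiltA4 a P js) : Ll2Flat ((llMat P).take (js + 1)) := by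
  intro e he
  obtain ⟨i, hi, rfl⟩ := List.mem_take_iff_getElem.1 he
  have hi' : i < P.length := by
    have : i < (llMat P).length := by omega
    simpa [llMat] using this
  have h1 := h.low i (by omega) P[i] (List.getElem?_eq_getElem hi')
  have h2 := ll2b_nonneg h.adm (List.getElem_mem hi')
  simpa [llMat] using (⟨h1.1, h2.1, h1.2⟩ : P[i].dh = 0 ∧ 0 ≤ P[i].db ∧ (P[i].db = 0 ∨ P[i].m = 0))

theorem ll2b_len {P : LlStp} {js : ℕ} (h : js < P.length) :
    ((llMat P).take (js + 1)).length = ((P.take js).map LlInc.m).length + 1 ∧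
      ((P.take js).map LlInc.m).length = js ∧ js + 1 + ((llMat P).drop (js + 1)).length = P.length := by
  refine ⟨?_, ?_, ?_⟩ <;> simp [llMat] <;> omega

/-! ### 2. the exits -/

theorem ll2b_cumB_nonneg {a : ℝ} {Q : SkStp} (hQ : SkAdm a Q) (t : ℕ) : 0 ≤ skCumB Q t := by
  unfold skCumB
  refine List.sum_nonneg fun x hx => ?_
  obtain ⟨e, he, rfl⟩ := List.mem_map.1 hx
  exact (hQ.2 e (List.mem_of_mem_take he)).2.2.1

/-- the moved path is admissible -/
theorem exit_a4_adm {a : ℝ} {P : LlStp} (hP : LlStpAdm a P) (tl : Option ℕ) : SkAdm a (llMv tl P) := by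
  cases tl with
  | none => exact hP.1
  | some js =>
    show SkAdm a (llMvAt js P)
    have hm : (llMvAt js P).map SkInc.m = (llMat P).map SkInc.m :=
      List.ext_getElem (by simp [llMvAt, llMat]) fun i h1 h2 => by simp [llMvAt, llMat]
    constructor
    · have h1 : ((llMat P).map SkInc.m).Pairwise (· ≤ ·) := List.pairwise_map.2 hP.1.1
      rw [← hm] at h1
      exact List.pairwise_map.1 h1
    · intro e he
      obtain ⟨i, hi, rfl⟩ := List.mem_iff_getElem.1 he
      have hi' : i < P.length := by simpa [llMvAt] using hi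
      have hmem := hP.1.2 ⟨P[i].m, P[i].db, P[i].dh⟩ (List.mem_map.2 ⟨P[i], List.getElem_mem hi', rfl⟩)
      simp only [llMvAt, List.getElem_mapIdx]
      refine ⟨hmem.1, hmem.2.1, ?_, hmem.2.2.2⟩
      split_ifs
      · exact le_rfl
      · exact ll2b_cumB_nonneg hP.1 _
      · exact hmem.2.2.1

/-- the clocks of the moved path are the masked clocks -/
theorem exit_a4_cum {P : LlStp} {tl : Option ℕ} (h : LlTiltOk P tl) (t : ℕ) :
    skCumB (llMv tl P) t = llMk tl t * skCumB (llMat P) t ∧ skCumH (llMv tl P) t = skCumH (llMat P) t := by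
  cases tl with
  | none => exact ⟨by simp [llMv, llMk], rfl⟩
  | some js =>
    obtain ⟨hjs, -⟩ := h
    show skCumB (llMvAt js P) t = llMk (some js) t * skCumB (llMat P) t ∧ skCumH (llMvAt js P) t = skCumH (llMat P) t
    constructor
    · obtain ⟨M, pS, H, rfl, rfl⟩ := ll2b_ex P hjs
      rw [ll2b_mvAt, ll2b_cumB]
      by_cases ht : M.length < t
      · obtain ⟨k, rfl⟩ : ∃ k, t = M.length + (k + 1) := ⟨t - M.length - 1, by omega⟩
        have e1 : llMat (M ++ pS :: H) = llMat M ++ ⟨pS.m, pS.db, pS.dh⟩ :: llMat H := by simp [llMat]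
        have l1 : (M.map fun e => (⟨e.m, 0, e.dh⟩ : SkInc)).length = M.length := by simp
        have l2 : (llMat M).length = M.length := by simp [llMat]
        simp only [llMk, if_pos ht, one_mul]
        unfold skCumB
        rw [e1]
        conv_lhs => rw [← l1, List.take_length_add_append]
        conv_rhs => rw [← l2, List.take_length_add_append]
        simp [llMat, List.map_map, Function.comp_def, add_assoc]
      · simp only [llMk, if_neg ht, zero_mul]
        unfold skCumB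
        rw [List.take_append_of_le_length (by simp; omega)]
        refine List.sum_eq_zero fun x hx => ?_
        obtain ⟨e, he, rfl⟩ := List.mem_map.1 hx
        obtain ⟨e', -, rfl⟩ := List.mem_map.1 (List.mem_of_mem_take he)
        rfl
    · have hm : (llMvAt js P).map SkInc.dh = (llMat P).map SkInc.dh :=
        List.ext_getElem (by simp [llMvAt, llMat]) fun i h1 h2 => by simp [llMvAt, llMat]
      unfold skCumH
      rw [List.map_take, List.map_take, hm]

/-- TEX[LL:found:estimates] **MERGE**: the stages `≤ js` of the untilted path = ONE initial revelation of mass `0` (Gaussian semigroup) -/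
theorem exit_a4_mrg {n : ℕ} (hn : 0 < n) {a : ℝ} (ha : 0 < a) {P : LlStp} {js : ℕ} (h : LlTiltA4 a P js) :
    skPr n a (llMat P) = skPr n a (llMrg js P) := by
  have := ll2g_sk_pr n hn ha (ll2b_flat h) ((llMat P).drop (js + 1))
  rwa [List.take_append_drop] at this

/-- `ψ` of the fine grid = `ψ_n(s)` of `Defs/Sk.lean` on the merged path -/
theorem exit_a4_psi {n : ℕ} (hn : 0 < n) {a : ℝ} (ha : 0 < a) {P : LlStp} {js : ℕ} (h : LlTiltA4 a P js) :
    llPsi llMv n a js P = skPsi n a (llMs a P js) (llMrg js P) := by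
  show skPr n a (llMvAt js P) - skPr n a (llMat P) = skPr n a (skTilt (llMs a P js) (llMrg js P)) - skPr n a (llMrg js P)
  rw [exit_a4_mrg hn ha h, ll2b_nfG h.adm h.ok]
  unfold llMrg
  rw [ll2g_sk_tilt n a _ ((P.take js).map LlInc.m)]

/-- `K_n(t) = log E exp{t (G_n - E G_n)}`, `G_n` = the continuation just after the initial matrix revelation of the MERGED untilted path -/
noncomputable def llA4K (n : ℕ) (a : ℝ) (P : LlStp) (js : ℕ) (t : ℝ) : ℝ :=
  Real.log (∫ ξ, Real.exp (t * (skG n a (llMrg js P) ξ - ∫ ξ', skG n a (llMrg js P) ξ' ∂ghStd (SkDr n))) ∂ghStd (SkDr n))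

theorem ll2b_eqns_cite : True := by
  have := @llA4K.eq_1
  trivial

theorem ll2b_K (n : ℕ) (a : ℝ) (P : LlStp) (js : ℕ) (t : ℝ) :
    llA4K n a P js t = ll2sK n a (skCumB (llMat P) (js + 1)) ((llMat P).drop (js + 1)) t := (ll2g_sk_K n a _ _ t).symm

/-- TEX[LL:found:estimates] **(A4)**: `K_n(s) = s n ψ_n(s) = log E exp{s (G_n - E G_n)}` -/
theorem exit_a4_laplace {n : ℕ} (hn : 0 < n) {a : ℝ} (ha : 0 < a) {P : LlStp} {js : ℕ} (h : LlTiltA4 a P js) (hs : 0 < llMs a P js) :
    llMs a P js * n * llPsi llMv n a js P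
      = Real.log (∫ ξ, Real.exp (llMs a P js * (skG n a (llMrg js P) ξ - ∫ ξ', skG n a (llMrg js P) ξ' ∂ghStd (SkDr n))) ∂ghStd (SkDr n)) := by
  show llMs a P js * n * (skPr n a (llMvAt js P) - skPr n a (llMat P)) = llA4K n a P js (llMs a P js)
  rw [exit_a4_mrg hn ha h, ll2b_nfG h.adm h.ok, ll2b_K]
  exact ll2g_sk_A4 n hn ha hs.ne' _ _ _

/-- (A4), LL 02 l.296: a tilted tree all of whose splits are `≥ s` = the conditional tree number of the stages `> js` reweighted by `exp(s G_n) / E exp(s G_n)`;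
`ξ` = driver of the (merged) initial matrix revelation, the remaining tree starts from the field `inc ξ`.      No hypothesis on the low stages of the UNTILTED path. -/
theorem exit_a4_reweight {n : ℕ} {a : ℝ} (ha : 0 < a) {P : LlStp} {js : ℕ} (hP : LlStpAdm a P) (h : LlTiltOk P (some js))
    {q : ℕ} {τ : ℕ → ℕ → ℕ} (hτ : IsTr P.length q τ) (hsh : ∀ x y, x < q → y < q → js < τ x y) (T : (ℕ → SkCfg n) → ℝ) :
    llNu n a P (some js) q τ T * (∫ ξ, Real.exp (llMs a P js * skG n a (llMrg js P) ξ) ∂ghStd (SkDr n))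
      = ∫ ξ, Real.exp (llMs a P js * skG n a (llMrg js P) ξ) *
          trNu (skBase n a) (skLvs n ((llMat P).drop (js + 1))) q (fun x y => τ x y - (js + 1))
            (((⟨0, skCumB (llMat P) (js + 1), 0⟩ : SkInc).lv n).inc ξ) T ∂ghStd (SkDr n) := by
  obtain ⟨-, l2, l3⟩ := ll2b_len h.1
  have hadm : SkAdm a (llMvAt js P) := exit_a4_adm hP (some js)
  show trNu (skBase n a) (skLvs n (llMvAt js P)) q τ 0 T * _ = _
  rw [ll2b_nfG hP h] at hadm ⊢
  have := ll2g_sk_reweight n ha hadm (q := q) (τ := τ) (by rw [l2, l3]; exact hτ) (by rw [l2]; exact hsh) T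
  rw [l2] at this
  exact this

/-- (A4), LL 02 l.296, UNTILTED side: a tree all of whose pairs share the stages `≤ js` = the mean of the SAME conditional tree number -/
theorem exit_a4_unt {n : ℕ} (hn : 0 < n) {a : ℝ} (ha : 0 < a) {P : LlStp} {js : ℕ} (h : LlTiltA4 a P js)
    {q : ℕ} {τ : ℕ → ℕ → ℕ} (hτ : IsTr P.length q τ) (hsh : ∀ x y, x < q → y < q → js < τ x y) (T : (ℕ → SkCfg n) → ℝ) :
    llNu n a P none q τ T
      = ∫ ξ, trNu (skBase n a) (skLvs n ((llMat P).drop (js + 1))) q (fun x y => τ x y - (js + 1))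
            (((⟨0, skCumB (llMat P) (js + 1), 0⟩ : SkInc).lv n).inc ξ) T ∂ghStd (SkDr n) := by
  obtain ⟨l1, l2, l3⟩ := ll2b_len h.ok.1
  rw [l2] at l1
  have := ll2g_sk_nu n hn ha (ll2b_flat h) (hi := (llMat P).drop (js + 1)) (by rw [List.take_append_drop]; exact h.adm.1) (q := q) (τ := τ)
    (by rw [l1, l3]; exact hτ) (fun x y hx hy => by rw [l1]; exact hsh x y hx hy) T
  rw [List.take_append_drop, l1] at this
  exact this

/-- (A4), LL 02 l.296: distinct components (classes of `{τ > js}`) of a tilted tree are independent -/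
theorem exit_a4_indep {n : ℕ} (hn : 0 < n) {a : ℝ} (ha : 0 < a) {P : LlStp} {js : ℕ} (hP : LlStpAdm a P) (h : LlTiltOk P (some js))
    {q : ℕ} {τ : ℕ → ℕ → ℕ} (hτ : IsTr P.length q τ) (A : ℕ → Prop) (hA : ∀ x y, x < q → y < q → A x → ¬ A y → τ x y ≤ js)
    (T T' : (ℕ → SkCfg n) → ℝ) (hT : ∀ σ σ' : ℕ → SkCfg n, (∀ x, x < q → A x → σ x = σ' x) → T σ = T σ')
    (hT' : ∀ σ σ' : ℕ → SkCfg n, (∀ x, x < q → ¬ A x → σ x = σ' x) → T' σ = T' σ') :
    llNu n a P (some js) q τ (fun σ => T σ * T' σ) = llNu n a P (some js) q τ T * llNu n a P (some js) q τ T' := by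
  obtain ⟨b0, msT, hi, hT0, lT, hl⟩ := ll2b_nfT hP h
  have hadm : SkAdm a (llMvAt js P) := exit_a4_adm hP (some js)
  show trNu (skBase n a) (skLvs n (llMvAt js P)) q τ 0 _ = trNu (skBase n a) (skLvs n (llMvAt js P)) q τ 0 _
    * trNu (skBase n a) (skLvs n (llMvAt js P)) q τ 0 _
  rw [hT0] at hadm ⊢
  exact ll2t_sk_forest n ha hadm (by rw [lT, hl]; exact hτ) A (by rw [lT]; exact hA) T T' hT hT'

/-- (A4), LL 02 l.304: flip of one component: `ν[P Q_{ij}] = ν[P Q^*_{ij}]` for tests which see the overlaps through `Q^*` only -/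
theorem exit_a4_flip {n : ℕ} (hn : 0 < n) {a : ℝ} (ha : 0 < a) {P : LlStp} {tl : Option ℕ} (hP : LlStpAdm a P) (h : LlTiltOk P tl)
    {q : ℕ} {τ : ℕ → ℕ → ℕ} (hτ : IsTr P.length q τ) (p : (ℕ → ℕ → ℝ) → ℝ)
    (hp : ∀ A A' : ℕ → ℕ → ℝ, (∀ c d, c < q → d < q → A c d = A' c d) → p A = p A') {i j : ℕ} (hi : i < q) (hj : j < q) :
    llNu n a P tl q τ (fun σ => p (fun c d => (llJs n a P tl).Qs τ σ c d) * skOv (σ i) (σ j))
      = llNu n a P tl q τ fun σ => p (fun c d => (llJs n a P tl).Qs τ σ c d) * (llJs n a P tl).Qs τ σ i j := by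
  cases tl with
  | none => simp [JtCtx.Qs, llJs, llMk]
  | some js =>
    have hQ : ∀ (σ : ℕ → SkCfg n) (c d : ℕ), (llJs n a P (some js)).Qs τ σ c d
        = (if js < τ c d then 1 else 0) * skOv (σ c) (σ d) := fun σ c d => rfl
    by_cases hij : js < τ i j
    · simp only [hQ _ i j, if_pos hij, one_mul]
    obtain ⟨b0, msT, hi0, hT0, lT, hl⟩ := ll2b_nfT hP h
    have hadm : SkAdm a (llMvAt js P) := exit_a4_adm hP (some js)
    have hG : GhAdm (skBase n a) 0 (skLvs n (llMvAt js P)) := sk_sy_adm hadm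
    simp only [hQ _ i j, if_neg hij, zero_mul, mul_zero]
    show trNu (skBase n a) (skLvs n (llMvAt js P)) q τ 0 _ = trNu (skBase n a) (skLvs n (llMvAt js P)) q τ 0 _
    rw [ll2t_nu_one (sk_sy_base_ok n ha) hG]
    rw [hT0] at hadm ⊢
    refine ll2t_sk_mask n hn ha hadm (by rw [lT, hl]; exact hτ) hi hj (by rw [lT]; omega) _ (fun σ σ' hσ => ?_) (fun σ => ?_)
    · refine hp _ _ fun c d hc hd => ?_
      rw [hQ, hQ, hσ c hc, hσ d hd]
    · refine hp _ _ fun c d hc hd => ?_
      rw [hQ, hQ, lT]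
      by_cases hcd : js < τ c d
      · rw [ll2t_sk_ov_inv hτ hi hc hd hcd]
      · rw [if_neg hcd, zero_mul, zero_mul]

/-! ### 3. the change of measure -/

/-- (A4) in terms of `llA4K` -/
theorem exit_a4_K {n : ℕ} (hn : 0 < n) {a : ℝ} (ha : 0 < a) {P : LlStp} {js : ℕ} (h : LlTiltA4 a P js) (hs : 0 < llMs a P js) :
    llA4K n a P js (llMs a P js) = llMs a P js * n * llPsi llMv n a js P := (exit_a4_laplace hn ha h hs).symm

/-- Jensen (no hypothesis on the path) -/
theorem exit_a4_K_nonneg (n : ℕ) {a : ℝ} (ha : 0 < a) (P : LlStp) (js : ℕ) (t : ℝ) : 0 ≤ llA4K n a P js t := by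
  rw [ll2b_K]
  exact ll2t_K_nonneg (sk_sy_base_ok n ha) _ _ _ _

/-- `K_n(t) = t n ψ_n(t)` of `Defs/Sk.lean` on the merged path, for EVERY `t` (no hypothesis on the path): `ll04_stop_x` applies to `llMrg js P` -/
theorem exit_a4_KK {n : ℕ} (hn : 0 < n) {a : ℝ} (ha : 0 < a) (P : LlStp) (js : ℕ) (t : ℝ) :
    llA4K n a P js t = skKK n a t (llMrg js P) := by
  by_cases ht : t = 0
  · subst ht; simp [llA4K, skKK]
  · rw [ll2b_K]
    exact (ll2g_sk_A4 n hn ha ht _ [] _).symm

/-- `G_n` is integrable -/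
theorem exit_a4_G_int (n : ℕ) {a : ℝ} (ha : 0 < a) (P : LlStp) (js : ℕ) : Integrable (skG n a (llMrg js P)) (ghStd (SkDr n)) := by
  have := ll2t_G_int (sk_sy_base_ok n ha) (ll2A0 n (skCumB (llMat P) (js + 1))) (skLvs n ((llMat P).drop (js + 1))) 0
  exact this.congr (Filter.Eventually.of_forall fun ξ => (ll2g_sk_G n a _ _ ξ).symm)

/-- all exponential moments of `G_n` are finite -/
theorem exit_a4_int (n : ℕ) {a : ℝ} (ha : 0 < a) (P : LlStp) (js : ℕ) (t c : ℝ) :
    Integrable (fun ξ => Real.exp (t * (skG n a (llMrg js P) ξ - c))) (ghStd (SkDr n)) := by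
  have := (ll2t_G_int_exp (sk_sy_base_ok n ha) (ll2A0 n (skCumB (llMat P) (js + 1))) (skLvs n ((llMat P).drop (js + 1))) 0 t).mul_const
    (Real.exp (-(t * c)))
  refine this.congr (Filter.Eventually.of_forall fun ξ => ?_)
  show _ * _ = Real.exp (t * (skG n a (llMrg js P) ξ - c))
  unfold llMrg
  rw [ll2g_sk_G, ← Real.exp_add]
  congr 1
  ring

/-- TEX[LL:found:estimates] TEX[LL:red:lem-augmentation] **CHANGE OF MEASURE** (LL 02 l.296-298, LL 04 l.164-170).  `τ` = ANY tree on the fine grid, the same in both ensembles;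
the test uses the leaves of a set `A` inside ONE component of the tilted ensemble.  `‖R_n‖_{p'} = exp ((K(p's) - p' K(s)) / p')`. -/
theorem exit_a4_transfer {n : ℕ} (hn : 0 < n) {a : ℝ} (ha : 0 < a) {P : LlStp} {js : ℕ} (h : LlTiltA4 a P js) (hs : 0 < llMs a P js)
    {q : ℕ} {τ : ℕ → ℕ → ℕ} (hτ : IsTr P.length q τ) (A : ℕ → Prop) {a0 : ℕ} (ha0 : a0 < q) (hAa : A a0)
    (hA : ∀ x y, x < q → y < q → A x → A y → js < τ x y)
    (T : (ℕ → SkCfg n) → ℝ) (hT : ∀ σ σ' : ℕ → SkCfg n, (∀ x, x < q → A x → σ x = σ' x) → T σ = T σ') {p p' : ℝ}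
    (hpp : p.HolderConjugate p') :
    |llNu n a P (some js) q τ T|
      ≤ Real.exp ((llA4K n a P js (p' * llMs a P js) - p' * llA4K n a P js (llMs a P js)) / p')
        * (llNu n a P none q τ fun σ => |T σ| ^ p) ^ (1 / p) := by
  obtain ⟨l1, l2, l3⟩ := ll2b_len h.ok.1
  have admT : SkAdm a (llMvAt js P) := exit_a4_adm h.adm (some js)
  show |trNu (skBase n a) (skLvs n (llMvAt js P)) q τ 0 T| ≤ _ * (trNu (skBase n a) (skLvs n (llMat P)) q τ 0 _) ^ (1 / p)
  rw [ll2b_K, ll2b_K]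
  rw [ll2b_nfG h.adm h.ok] at admT ⊢
  have := ll2g_sk_transfer n hn ha hs.ne' (ll2b_flat h) l1 (hi := (llMat P).drop (js + 1)) (by rw [List.take_append_drop]; exact h.adm.1) admT
    (q := q) (τ := τ) (by rw [l2, l3]; exact hτ) A ha0 hAa (by rw [l2]; exact hA) T hT hpp
  rw [List.take_append_drop] at this
  exact this

/-- TEX[LL:found:estimates] TEX[LL:red:lem-augmentation] **change of measure for products over several components** (LL 04 l.167-169: "their roots remain independent;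
no common untilted root is introduced"): each factor `X k` uses the leaves of a set `A k` inside one component. -/
theorem exit_a4_transfer_prod {n : ℕ} (hn : 0 < n) {a : ℝ} (ha : 0 < a) {P : LlStp} {js : ℕ} (h : LlTiltA4 a P js) (hs : 0 < llMs a P js)
    {q : ℕ} {τ : ℕ → ℕ → ℕ} (hτ : IsTr P.length q τ) {r : ℕ} (hr : 0 < r) (X : Fin r → (ℕ → SkCfg n) → ℝ)
    (A : Fin r → ℕ → Prop) (a0 : Fin r → ℕ) (ha0 : ∀ k, a0 k < q) (hAa : ∀ k, A k (a0 k))
    (hA : ∀ k x y, x < q → y < q → A k x → A k y → js < τ x y)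
    (hX : ∀ k (σ σ' : ℕ → SkCfg n), (∀ x, x < q → A k x → σ x = σ' x) → X k σ = X k σ') {p p' : ℝ} (hpp : p.HolderConjugate p') :
    |llNu n a P (some js) q τ fun σ => ∏ k, X k σ|
      ≤ Real.exp ((llA4K n a P js (p' * llMs a P js) - p' * llA4K n a P js (llMs a P js)) / p')
        * ∏ k, (llNu n a P none q τ fun σ => |X k σ| ^ ((r : ℝ) * p)) ^ (1 / ((r : ℝ) * p)) := by
  obtain ⟨l1, l2, l3⟩ := ll2b_len h.ok.1
  have admT : SkAdm a (llMvAt js P) := exit_a4_adm h.adm (some js)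
  show |trNu (skBase n a) (skLvs n (llMvAt js P)) q τ 0 _|
    ≤ _ * ∏ k, (trNu (skBase n a) (skLvs n (llMat P)) q τ 0 _) ^ (1 / ((r : ℝ) * p))
  rw [ll2b_K, ll2b_K]
  rw [ll2b_nfG h.adm h.ok] at admT ⊢
  have := ll2g_sk_transfer_prod n hn ha hs.ne' (ll2b_flat h) l1 (hi := (llMat P).drop (js + 1)) (by rw [List.take_append_drop]; exact h.adm.1)
    admT (q := q) (τ := τ) (by rw [l2, l3]; exact hτ) hr X A a0 ha0 hAa (by rw [l2]; exact hA) hX hpp
  rw [List.take_append_drop] at this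
  exact this

end Claimed.Agent.R286
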