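-- KEEP
import Claimed.Agent.R286.L02.Defs
import Claimed.Agent.R286.L02.Row
import Claimed.Agent.R286.L02.A7Full
import Claimed.Agent.R286.L02.A7Inst
import Claimed.Agent.R286.Exit.LL02A4

/-!
# Row 286 (S0533), EXIT `LL02A7`      OWNER helper93 (unit L02, inner files R286/L02/A7*.lean);  ADV helper73;  source: LL 02-foundations.tex l.306-400

**LL Lemma 2.2 (finite cavity quotient), (A7), (A8)**, FINE LEVEL: fine path `P`, ensemble `tl`, jet context `llJs n a P tl` (`L02/Defs.lean`, `Defs/Jet.lean`).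
* `exit_a7_row_one / _taylor / _zero` : the row model (one interacting scalar row along the affine interpolation): endpoint, EXACT Taylor formula, factorisation at the independent endpoint;
* `exit_a7_exact` : (A7) as an IDENTITY, remainder = the DEFINITION `llRemA7` (LL 02 l.399 "unestimated remainder representation"; LL 07 l.1862-1995 uses symmetries inside it);
* `exit_a7_abs`   : `|llRemA7| ≤ C ×` (`k` insertions, absolute allocation measure, ACTUAL law);   constants depend on `q, k, M0` only (`b ≤ M0`, `|h - K| ≤ M0`: never `sup h`, `sup K`);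
* `exit_a7`       : true overlap `Q_{ij}`, test = bounded Lipschitz function of the overlaps, contact error `C (Bp + L) / n`; no invariance needed;
* `exit_a7_masked`: the paper's form (`JtCtx.A7`): `Q^*_{ij}` on the left, test = function of the masked overlaps;
* `exit_a8`       : the linear kernel.
Consumers: LL 05 ((A8)), 06 l.585 (`k = 2`), 07 l.1862-1995 (`k = 3`, exact), 08 l.1208 (`k = 1`), 1516, 1590, 09 l.255-325 (general `k`).
-/

set_option autoImplicit false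

namespace Claimed.Agent.R286

open scoped BigOperators Nat

/-- the row model at `θ = 1` is the actual model -/
theorem exit_a7_row_one {n : ℕ} (hn : 0 < n) {a : ℝ} (ha : 0 < a) {P : LlStp} (hP : LlStpAdm a P) (tl : Option ℕ) (i0 : Fin n)
    (q : ℕ) (τ : ℕ → ℕ → ℕ) (T : (ℕ → SkCfg n) → ℝ) : llRowNu n a P tl i0 1 q τ T = llNu n a P tl q τ T :=
  l2rw_row_one hn ha hP tl i0 q τ T

/-- Taylor's formula of the row model, EXACT (any spin test `T` on the labels `< r`; it may see the site `i0`) -/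
theorem exit_a7_row_taylor {n : ℕ} (hn : 0 < n) {a : ℝ} (ha : 0 < a) {P : LlStp} {tl : Option ℕ} (hP : LlStpAdm a P) (htl : LlTiltOk P tl)
    (i0 : Fin n) {r : ℕ} {τ : ℕ → ℕ → ℕ} (hτ : IsTr P.length r τ) {T : (ℕ → SkCfg n) → ℝ} (hT : TrUses r T) {k : ℕ} (hk : 0 < k) :
    llNu n a P tl r τ T
      = ∑ d ∈ Finset.range k, ((d ! : ℝ))⁻¹ * llRowD n a P tl i0 0 d r τ T + llRowRem n a P tl i0 k r τ T :=
  l2rw_row_taylor hn ha hP htl i0 hτ hT hk

/-- factorisation at `θ = 0`: the site `i0` is an independent scalar row at `K`; `T` does not see the site, `g` = function of the cavity spins -/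
theorem exit_a7_row_zero {n : ℕ} (hn : 0 < n) {a : ℝ} (ha : 0 < a) {P : LlStp} (hP : LlStpAdm a P) (tl : Option ℕ) (i0 : Fin n)
    {r : ℕ} {τ : ℕ → ℕ → ℕ} (hτ : IsTr P.length r τ) {T : (ℕ → SkCfg n) → ℝ} (hT0 : LlNoSite i0 T) (g : (ℕ → Bool) → ℝ) :
    llRowNu n a P tl i0 0 r τ (fun σ => T σ * g fun x => σ x i0) = llRowNu n a P tl i0 0 r τ T * llNuS a P r τ g :=
  l2rw_row_zero hn ha hP tl i0 hτ hT0 g

/-- TEX[LL:found:cavity-quotient] **(A7), EXACT**: one chosen site `i0`, deleted overlaps, remainder = `llRemA7` -/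
theorem exit_a7_exact {n : ℕ} (hn : 0 < n) {a : ℝ} (ha : 0 < a) {P : LlStp} {tl : Option ℕ} (hP : LlStpAdm a P) (htl : LlTiltOk P tl) (i0 : Fin n)
    {q : ℕ} {τ0 : ℕ → ℕ → ℕ} (hτ : IsTr P.length q τ0) {T : (ℕ → SkCfg n) → ℝ} (hT : TrUses q T) (hT0 : LlNoSite i0 T)
    {i j : ℕ} (hi : i < q) (hj : j < q) (hij : i ≠ j) {k : ℕ} (hk : 0 < k) :
    llNu n a P tl q τ0 (fun σ => T σ * (skSp (σ i) i0 * skSp (σ j) i0))
      = (llJsD n a P tl i0).evLt q τ0 (fun r τ => (llJsD n a P tl i0).Quo r q i j τ) T k + llRemA7 n a P tl i0 q τ0 T i j k :=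
  ll2w_exact ha hP htl i0 hτ hT hT0 hi hj hij hk

/-- TEX[LL:found:cavity-quotient] **(A7), absolute bound of the remainder**: `k` insertions, absolute allocation measure, ACTUAL law (Gronwall, PE Lemma 2.9) -/
theorem exit_a7_abs (q k : ℕ) (M0 : ℝ) : ∃ C : ℝ, ∀ (n : ℕ) (a : ℝ) (P : LlStp) (tl : Option ℕ) (i0 : Fin n) (τ0 : ℕ → ℕ → ℕ)
    (T : (ℕ → SkCfg n) → ℝ) (i j : ℕ), 0 < a → a ≤ 4 → LlStpAdm a P → LlTiltOk P tl → LlBd M0 P → IsTr P.length q τ0 → TrUses q T →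
    LlNoSite i0 T → i < q → j < q → i ≠ j → 0 < k →
      |llRemA7 n a P tl i0 q τ0 T i j k| ≤ C * (llJsD n a P tl i0).rem q τ0 T k :=
  ll2w_abs q k M0

/-- TEX[LL:found:cavity-quotient] **(A7)** for the true overlap `Q_{ij}` and a bounded Lipschitz function of the overlaps (no invariance needed) -/
theorem exit_a7 (q k : ℕ) (M0 : ℝ) : ∃ C : ℝ, ∀ (n : ℕ) (a : ℝ) (P : LlStp) (tl : Option ℕ) (τ0 : ℕ → ℕ → ℕ)
    (p : (ℕ → ℕ → ℝ) → ℝ) (Bp L : ℝ) (i j : ℕ), 0 < n → 0 < a → a ≤ 4 → LlStpAdm a P → LlTiltOk P tl → LlBd M0 P → IsTr P.length q τ0 →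
    LlOvBd q p Bp L → i < q → j < q → i ≠ j → 0 < k →
      |llNu n a P tl q τ0 (fun σ => llOvT p σ * skOv (σ i) (σ j))
          - (llJs n a P tl).evLt q τ0 (fun r τ => (llJs n a P tl).Quo r q i j τ) (llOvT p) k|
        ≤ C * (llJs n a P tl).rem q τ0 (llOvT p) k + C * (Bp + L) / n := by
  obtain ⟨Ca, hCa⟩ := exit_a7_abs q k M0
  exact l2af_a7 q k M0 Ca (fun n a P tl i0 τ0 T i j hn ha hP htl hτ hT hT0 hi hj hij hk =>
    exit_a7_exact hn ha hP htl i0 hτ hT hT0 hi hj hij hk) hCa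

/-- TEX[LL:found:cavity-quotient] **(A7)** as in the paper: masked overlap on the left, test = function of the masked overlaps (`JtCtx.A7` of `Defs/Jet.lean`) -/
theorem exit_a7_masked (q k : ℕ) (M0 : ℝ) : ∃ C : ℝ, ∀ (n : ℕ) (a : ℝ) (P : LlStp) (tl : Option ℕ) (τ0 : ℕ → ℕ → ℕ)
    (p : (ℕ → ℕ → ℝ) → ℝ) (Bp L : ℝ) (i j : ℕ), 0 < n → 0 < a → a ≤ 4 → LlStpAdm a P → LlTiltOk P tl → LlBd M0 P → IsTr P.length q τ0 →
    LlOvBd q p Bp L → i < q → j < q → i ≠ j → 0 < k →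
      (llJs n a P tl).A7 q τ0 (fun σ => p fun c d => (llJs n a P tl).Qs τ0 σ c d) i j k C (C * (Bp + L) / n) := by
  obtain ⟨C, hC⟩ := exit_a7 q k M0
  exact ⟨C, l2af_a7_masked hC fun n a P tl q τ p i j hn ha hP htl hτ hp hi hj => exit_a4_flip hn ha hP htl hτ p hp hi hj⟩

/-- TEX[LL:found:cavity-quotient] **(A8)**: the linear cavity kernel; `cd` = the pair `0` over `q` old labels, `r` labels present -/
theorem exit_a8 (n : ℕ) {a : ℝ} (ha : 0 < a) {P : LlStp} (hP : LlStpAdm a P) (tl : Option ℕ) (r q i j : ℕ) (τ : ℕ → ℕ → ℕ) (hτ : IsTr P.length r τ) :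
    (llJs n a P tl).Mker r q i j τ
      = 2⁻¹ * (llNuS a P r τ (fun s => (∏ y ∈ ({i, j} : Finset ℕ), jtSp (s y)) * (jtSp (s q) * jtSp (s (q + 1))))
          - llNuS a P r τ (fun s => ∏ y ∈ ({i, j} : Finset ℕ), jtSp (s y)) * llNuS a P r τ fun s => jtSp (s q) * jtSp (s (q + 1))) :=
  l2af_a8 (llJs n a P tl) r q i j τ

end Claimed.Agent.R286
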