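-- KEEP
import Claimed.Agent.R286.L08.SaTop
import Claimed.Agent.R286.Exit.C12

/-!
# Row 286 (S0533), EXIT `D11`      typed by helper75 (head of LL 08);   OWNER of the proof: helper163;   ADV: helper233

TEX[LL:prop:statistics-size-accuracy] TEX[LL:eq:D11] TEX[LL:eq:D12] TEX[LL:eq:D13] TEX[LL:eq:D14]
**(D11): uniform all-moment accuracy on the smoothed size paths**, `δ_* = llDStar = 1/10000`.
Vocabulary: `L08/Defs.lean` (instance `L8In`, shape `L8Ev`: `N ≥ N0`, tilt mass, all sufficiently fine chains, then UNIFORMLY all points and sizes); PART 2, 3 of the same file = the statement.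
PROOF: `L08/SaTop.lean` (163): COMPILED glue `l8z_d11` over the named leaves of that file (map in its header).
-/

set_option autoImplicit false

namespace Claimed.Agent.R286

/-- the supply (C2) of `L08/SaTop.lean`: the half `BtC2` of `exit_c12` (helper52) -/
theorem l8z_sup_c2 (T : ℝ) (hT : 1 < T) : L8zSupC2 T := by
  intro F0 hF pB hSt
  obtain ⟨p0, hp0, h⟩ := exit_c12 T hT F0 hF.1 hF.2.1 hF.2.2 pB hSt
  exact ⟨p0, hp0, fun pS h0 h1 => ⟨llcCC pB, llcCC_pos pB, (h pS h0 h1).2⟩⟩

theorem exit_d11 (T : ℝ) (hT : 1 < T) : L8xD11 llBase T := l8z_d11 T hT (l8z_sup_c2 T hT)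

end Claimed.Agent.R286
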