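import Claimed.Agent.R286.PM.InstL
import Claimed.Agent.R286.Exit.D11
import Claimed.Agent.R286.L08.Brz
import Claimed.Agent.R286.L08.SPC
import Claimed.Agent.R286.Fd.Contract

/-!
# Row 286 (S0533), EXIT `Cap` = Cor. 8.10 (the capped scale on the smoothed size paths)      (owner helper163; prefix `cap_`)

TEX[LL:cor:statistics-cap]
`exit_cap : L8qCap llBase T` (contract of `PM/InstL.lean`, 37): for all sufficiently fine chains, at every point of a smoothed size path:  `1 ≤ Z_c = min(Z, x^(δ_*/3)/U)`  and (D1) holds with the scale `Y_c = U Z_c`.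
PROOF.  `x ≤ U = x^(1 - p_* s_*/2) ≤ x^(δ_*/3)`, `Z ≥ 1`.   `f² ≤ A` (`S² ≤ B`).
(a) scale `U Z`: for `U ≤ r ≤ 4` take the dyadic mass `r ≤ u < 2 r`: `r ∫_r^(2r) f² ≤ u ∫_(u/4)^(4u) A ≤ bud ≤ (U Z)⁴` by the DEFINITION of `Z`.
(b) scale `x^(δ_*/3)`: (D11) at the order `2`, untilted, TERMINAL endpoints: `A_k = E (Q - q_k)² ≤ (C x^δ_*)²`; so `∫_r^(2r) f² ≤ 4 C² x^(2 δ_*) ≤ 16 C² x^(4 δ_*/3)/r`.
-/

set_option autoImplicit false

namespace Claimed.Agent.R286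

open MeasureTheory Set Filter Finset

/-- second moment of the terminal overlap of a fork about ANY constant -/
theorem cap_fork_sq {Ω : Type} [MeasurableSpace Ω] {m : ℕ} (P : L8P Ω m) (h : P.Ok) (k : ℕ) (q : ℝ) :
    ∫ p, (P.Q p - q) ^ 2 ∂(P.fork k) = P.B k - 2 * q * P.S k + q ^ 2 := by
  have := P.l8s_fork_prob h k
  obtain ⟨hQm, hQb⟩ := P.l8s_fork_Q_bd_aux h
  have i1 : Integrable P.Q (P.fork k) := P.l8s_fork_integrable_aux h k hQm hQb
  have i2 : Integrable (fun p => P.Q p ^ 2) (P.fork k) :=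
    P.l8s_fork_integrable_aux h k (hQm.pow_const 2) (c := 1) (fun p => by
      rw [abs_pow]; exact pow_le_one₀ (abs_nonneg _) (hQb p))
  have e : ∀ p, (P.Q p - q) ^ 2 = P.Q p ^ 2 - (2 * q) * P.Q p + q ^ 2 := fun p => by ring
  simp only [e]
  have i3 : Integrable (fun p => P.Q p ^ 2 - 2 * q * P.Q p) (P.fork k) := i2.sub (i1.const_mul _)
  rw [integral_add i3 (integrable_const _), integral_sub i2 (i1.const_mul _),
    integral_const_mul, P.l8s_fork_Q h k, P.l8s_fork_Q_sq h k]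
  simp only [integral_const, probReal_univ, smul_eq_mul, one_mul]

/-- `A_k` is the second moment of the terminal overlap about `q_k` -/
theorem cap_A_eq (I : L8In) (ha : 0 < I.a) (hm : 1 ≤ I.m) (hadm : SkAdm I.a I.P0) (k : ℕ) (hk : k ≤ I.n) :
    I.moF false k 1 (fun ω => (I.sp false).QX (I.n + 1) (I.n + 1) ω - I.q k) = I.A k := by
  have hP : (I.sp false).Ok := l8i_ok I.m hm I.a ha I.P0 hadm
  have hlen : I.P0.length = I.n := l8b_P0_len I
  have hQ : ∀ ω, (I.sp false).QX (I.n + 1) (I.n + 1) ω = (I.sp false).Q ω := by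
    intro ω
    unfold L8P.QX L8P.Q
    refine Finset.sum_congr rfl fun i _ => ?_
    have e1 := l8i_X_gt I.m I.a I.P0 (I.n + 1) (by omega) i ω.1
    have e2 := l8i_X_gt I.m I.a I.P0 (I.n + 1) (by omega) i ω.2
    have e1' : (I.sp false).X (I.n + 1) i ω.1 = skY ω.1.2 i := e1
    have e2' : (I.sp false).X (I.n + 1) i ω.2 = skY ω.2.2 i := e2
    rw [e1', e2']
    rfl
  unfold L8In.moF
  simp only [hQ, mul_one]
  rw [cap_fork_sq _ hP]
  have eS : (I.sp false).S k = I.S k := l8i_S I.m I.a ha I.P0 hadm k (by omega)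
  have eB : (I.sp false).B k = I.B k := l8i_B I.m I.a ha I.P0 hadm k (by omega)
  rw [eS, eB]
  rfl

/-- `f² ≤ A` -/
theorem cap_f_le (I : L8In) (ha : 0 < I.a) (hm : 1 ≤ I.m) (hadm : SkAdm I.a I.P0) (k : ℕ) : I.f k ^ 2 ≤ I.A k := by
  have h := (fd_B_range (by omega : 0 < I.m) ha I.P0 hadm 0 k).1
  have eS : I.S k = obS I.m I.a I.P0 0 k := rfl
  have eB : I.B k = obB I.m I.a I.P0 0 k := rfl
  unfold L8In.f L8In.A
  rw [eS, eB]
  nlinarith

theorem cap_dv_nonneg (I : L8In) (ha : 0 < I.a) (hadm : SkAdm I.a I.P0) (k : ℕ) : 0 ≤ I.dv k := by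
  rw [l8b_dv]
  have := l8b_L_le (v := I.v) (bud_pp_ms_mono ha hadm) (bud_pp_ms_nonneg ha hadm 0) k
  linarith

theorem cap_dv_sum (I : L8In) : ∑ k ∈ range (I.n + 1), I.dv k = I.a := by
  have h := l8b_tel I.v (fun t => t) I.n
  simp only [sub_zero] at h
  rw [l8b_v_top] at h
  rw [← h]
  exact Finset.sum_congr rfl fun k _ => l8b_dv I k

/-- monotonicity of the mass integrals -/
theorem cap_int_mono (I : L8In) (hdv : ∀ k, 0 ≤ I.dv k) {lo hi lo' hi' : ℝ} (h1 : lo' ≤ lo) (h2 : hi ≤ hi') {g g' : ℕ → ℝ} (hg : ∀ k, g k ≤ g' k) (hg' : ∀ k, 0 ≤ g' k) :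
    I.int lo hi g ≤ I.int lo' hi' g' := by
  unfold L8In.int
  refine (Finset.sum_le_sum fun k _ => mul_le_mul_of_nonneg_left (hg k) (hdv k)).trans ?_
  refine Finset.sum_le_sum_of_subset_of_nonneg ?_ fun k _ _ => mul_nonneg (hdv k) (hg' k)
  intro k hk
  rw [Finset.mem_filter] at hk ⊢
  exact ⟨hk.1, h1.trans hk.2.1, hk.2.2.trans h2⟩

/-- a bounded integrand -/
theorem cap_int_le (I : L8In) (hdv : ∀ k, 0 ≤ I.dv k) (lo hi : ℝ) {g : ℕ → ℝ} {c : ℝ} (hc : 0 ≤ c) (hg : ∀ k ≤ I.n, g k ≤ c) : I.int lo hi g ≤ c * I.a := by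
  unfold L8In.int
  calc ∑ k ∈ (range (I.n + 1)).filter (fun k => lo ≤ I.v k ∧ I.v k ≤ hi), I.dv k * g k
      ≤ ∑ k ∈ (range (I.n + 1)).filter (fun k => lo ≤ I.v k ∧ I.v k ≤ hi), I.dv k * c := by
        refine Finset.sum_le_sum fun k hk => mul_le_mul_of_nonneg_left (hg k ?_) (hdv k)
        have := Finset.mem_range.1 (Finset.mem_filter.1 hk).1
        omega
    _ ≤ ∑ k ∈ range (I.n + 1), I.dv k * c :=
        Finset.sum_le_sum_of_subset_of_nonneg (Finset.filter_subset _ _) fun k _ _ => mul_nonneg (hdv k) hc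
    _ = c * I.a := by rw [← Finset.sum_mul, cap_dv_sum, mul_comm]

/-- the dyadic mass of a scale -/
theorem cap_dy {r : ℝ} (h0 : 0 < r) (h4 : r ≤ 4) : ∃ j : ℕ, r ≤ L8In.dy j ∧ L8In.dy j ≤ 2 * r := by
  classical
  have hex : ∃ j : ℕ, L8In.dy (j + 1) < r := by
    obtain ⟨n, hn⟩ := exists_pow_lt_of_lt_one (by positivity : 0 < r / 4) (by norm_num : (2 : ℝ)⁻¹ < 1)
    refine ⟨n, ?_⟩
    unfold L8In.dy
    rw [pow_succ]
    have : (0 : ℝ) ≤ (2 : ℝ)⁻¹ ^ n := by positivity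
    nlinarith
  refine ⟨Nat.find hex, ?_, ?_⟩
  · rcases Nat.eq_zero_or_pos (Nat.find hex) with h | h
    · rw [h]
      unfold L8In.dy
      simpa using h4
    · have := Nat.find_min hex (m := Nat.find hex - 1) (by omega)
      rw [show Nat.find hex - 1 + 1 = Nat.find hex by omega] at this
      exact not_lt.1 this
  · have := Nat.find_spec hex
    unfold L8In.dy at this ⊢
    rw [pow_succ] at this
    linarith

/-- the dyadic masses `≥ x` are in the range of the budget -/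
theorem cap_dy_lt {N j : ℕ} (hN : 2 ≤ N) (h : (N : ℝ) ^ (-(1 / 6) : ℝ) ≤ L8In.dy j) : j < N + 3 := by
  by_contra hj
  rw [not_lt] at hj
  have hN1 : (1 : ℝ) ≤ N := by exact_mod_cast (by omega : 1 ≤ N)
  have hN0 : (0 : ℝ) < N := by linarith
  have h1 : (N : ℝ) ^ (-1 : ℝ) ≤ (N : ℝ) ^ (-(1 / 6) : ℝ) := Real.rpow_le_rpow_of_exponent_le hN1 (by norm_num)
  rw [Real.rpow_neg_one] at h1
  have h2 : L8In.dy j ≤ L8In.dy (N + 3) := by
    unfold L8In.dy
    exact mul_le_mul_of_nonneg_left (pow_le_pow_of_le_one (by norm_num) (by norm_num) hj) (by norm_num)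
  have h3 : L8In.dy (N + 3) = (2 : ℝ)⁻¹ * ((2 : ℝ) ^ N)⁻¹ := by
    unfold L8In.dy
    rw [pow_add, inv_pow]
    norm_num
    ring
  have h4 : (N : ℝ) < (2 : ℝ) ^ N := by exact_mod_cast Nat.lt_two_pow_self
  have h5 : ((2 : ℝ) ^ N)⁻¹ < (N : ℝ)⁻¹ := by
    rw [inv_lt_inv₀ (by positivity) hN0]
    exact h4
  have h6 : (0 : ℝ) < ((2 : ℝ) ^ N)⁻¹ := by positivity
  linarith

/-- the scales on a smoothed size path: `x ≤ U ≤ x^(3/4)` -/
theorem cap_U (I : L8In) (hOk : I.Ok) (hS : l8Siz I.p) (hs0 : 0 ≤ I.F.sS) (hs1 : I.F.sS ≤ 1 / 2) (hp0 : 0 ≤ I.F.pS) (hp1 : I.F.pS ≤ 1) :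
    I.x ≤ I.U ∧ I.U ≤ I.x ^ (3 / 4 : ℝ) := by
  have hx0 := I.x_pos hOk
  have hx1 := I.x_le_one hOk
  have hlam : I.p.lam = I.x ^ I.F.pS := (hOk.pt.sm_fin hS.1).1
  have e : I.p.x * I.p.lam ^ (-(I.F.sS / 2)) = I.x ^ (1 - I.F.pS * I.F.sS / 2) := by
    rw [hlam, ← Real.rpow_mul hx0.le]
    show I.x * I.x ^ _ = _
    nth_rewrite 1 [← Real.rpow_one I.x]
    rw [← Real.rpow_add hx0]
    congr 1
    ring
  have hU : I.U = min 1 (I.x ^ (1 - I.F.pS * I.F.sS / 2)) := by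
    rw [← e]; rfl
  have hps : I.F.pS * I.F.sS ≤ 1 / 2 := by nlinarith
  have hps0 : 0 ≤ I.F.pS * I.F.sS := mul_nonneg hp0 hs0
  constructor
  · rw [hU]
    refine le_min hx1 ?_
    nth_rewrite 1 [← Real.rpow_one I.x]
    exact Real.rpow_le_rpow_of_exponent_ge hx0 hx1 (by linarith)
  · rw [hU]
    exact (min_le_right _ _).trans (Real.rpow_le_rpow_of_exponent_ge hx0 hx1 (by linarith))

/-- **Cor. 8.10 at ONE instance**, from (D11) at the order `2` with terminal endpoints -/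
theorem cap_pt (I : L8In) (hOk : I.Ok) (hS : l8Siz I.p) (hs0 : 0 ≤ I.F.sS) (hs1 : I.F.sS ≤ 1 / 2) (hp0 : 0 ≤ I.F.pS) (hp1 : I.F.pS ≤ 1) (hadm : SkAdm I.a I.P0) (C : ℝ)
    (hD : ∀ k ≤ I.n, I.moF false k 1 (fun ω => (I.sp false).QX (I.n + 1) (I.n + 1) ω - I.q k) ≤ (C * I.x ^ llDStar) ^ (2 * 1)) :
    L8qCapAt I (max 1 (16 * C ^ 2)) := by
  have hx0 := I.x_pos hOk
  have hx1 := I.x_le_one hOk
  have ha4 : I.a = 4 := by
    show (if I.p.sm then (4 : ℝ) else I.p.ell) = 4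
    rw [hS.1]; rfl
  have ha : 0 < I.a := by rw [ha4]; norm_num
  have hm : 1 ≤ I.m := by have := hOk.m_lo; have := hOk.pt.N2; omega
  obtain ⟨hxU, hUx⟩ := cap_U I hOk hS hs0 hs1 hp0 hp1
  have hU0 : 0 < I.U := hx0.trans_le hxU
  have hdv := cap_dv_nonneg I ha hadm
  have hA0 : ∀ k, 0 ≤ I.A k := fun k => (sq_nonneg _).trans (cap_f_le I ha hm hadm k)
  have hd3 : I.x ^ (3 / 4 : ℝ) ≤ I.x ^ (llDStar / 3) := Real.rpow_le_rpow_of_exponent_ge hx0 hx1 (by unfold llDStar; norm_num)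
  have hX0 : 0 < I.x ^ (llDStar / 3) := Real.rpow_pos_of_pos hx0 _
  -- the budget
  have hint0 : ∀ lo hi, 0 ≤ I.int lo hi I.A := fun lo hi => Finset.sum_nonneg fun k _ => mul_nonneg (hdv k) (hA0 k)
  have hdy0 : ∀ j, 0 < L8In.dy j := fun j => by unfold L8In.dy; positivity
  have hbud0 : 0 ≤ I.bud := Finset.sum_nonneg fun j _ => by
    split_ifs
    · exact mul_nonneg (hdy0 j).le (hint0 _ _)
    · exact le_rfl
  have hy0 : 0 ≤ I.bud / I.U ^ 4 := div_nonneg hbud0 (by positivity)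
  have hw0 : 0 ≤ (I.bud / I.U ^ 4) ^ (1 / 4 : ℝ) := Real.rpow_nonneg hy0 _
  have hZ1 : 1 ≤ I.Z := by unfold L8In.Z; linarith
  have hZbud : I.bud ≤ (I.U * I.Z) ^ 4 := by
    have e1 : ((I.bud / I.U ^ 4) ^ (1 / 4 : ℝ)) ^ 4 = I.bud / I.U ^ 4 := by
      rw [← Real.rpow_natCast, ← Real.rpow_mul hy0]
      norm_num
    have e2 : ((I.bud / I.U ^ 4) ^ (1 / 4 : ℝ)) ^ 4 ≤ I.Z ^ 4 := pow_le_pow_left₀ hw0 (by unfold L8In.Z; linarith) 4
    rw [e1, div_le_iff₀ (by positivity)] at e2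
    rw [mul_pow]
    linarith
  refine ⟨?_, ?_⟩
  · -- `1 ≤ Z_c`
    unfold L8In.Zc
    refine le_min hZ1 ?_
    rw [le_div_iff₀ hU0, one_mul]
    exact hUx.trans hd3
  · intro r hr1 hr2
    have hr0 : 0 < r := hU0.trans_le hr1
    rw [ha4] at hr2
    set Cc := max 1 (16 * C ^ 2) with hCc
    have hCc1 : 1 ≤ Cc := le_max_left _ _
    have hform : ∀ Y : ℝ, Cc * r * (Y ^ 4 / r ^ 2) = Cc * Y ^ 4 / r := fun Y => by field_simp
    rw [hform]
    rw [le_div_iff₀ hr0]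
    have hb0 : 0 ≤ I.band r (fun k => I.f k ^ 2) := by
      unfold L8In.band L8In.int
      exact Finset.sum_nonneg fun k _ => mul_nonneg (hdv k) (sq_nonneg _)
    -- (a)
    have ba : I.band r (fun k => I.f k ^ 2) * r ≤ (I.U * I.Z) ^ 4 := by
      obtain ⟨j, hj1, hj2⟩ := cap_dy hr0 hr2
      have hjN : j < I.p.N + 3 := cap_dy_lt hOk.pt.N2 ((hxU.trans hr1).trans hj1)
      have t1 : I.band r (fun k => I.f k ^ 2) ≤ I.int (L8In.dy j / 4) (4 * L8In.dy j) I.A :=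
        cap_int_mono I hdv (by linarith) (by linarith) (fun k => cap_f_le I ha hm hadm k) hA0
      have t2 : L8In.dy j * I.int (L8In.dy j / 4) (4 * L8In.dy j) I.A ≤ I.bud := by
        have := Finset.single_le_sum (f := fun j => if I.U ≤ L8In.dy j then L8In.dy j * I.int (L8In.dy j / 4) (4 * L8In.dy j) I.A else 0)
          (fun j _ => by
            show 0 ≤ if I.U ≤ L8In.dy j then L8In.dy j * I.int (L8In.dy j / 4) (4 * L8In.dy j) I.A else 0
            split_ifs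
            · exact mul_nonneg (hdy0 j).le (hint0 _ _)
            · exact le_rfl) (Finset.mem_range.2 hjN)
        simp only [if_pos (hr1.trans hj1)] at this
        exact this
      calc I.band r (fun k => I.f k ^ 2) * r ≤ I.int (L8In.dy j / 4) (4 * L8In.dy j) I.A * L8In.dy j :=
            mul_le_mul t1 hj1 hr0.le (hint0 _ _)
        _ = L8In.dy j * I.int (L8In.dy j / 4) (4 * L8In.dy j) I.A := mul_comm _ _
        _ ≤ I.bud := t2
        _ ≤ _ := hZbud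
    -- (b)
    have bb : I.band r (fun k => I.f k ^ 2) * r ≤ 16 * C ^ 2 * (I.x ^ (llDStar / 3)) ^ 4 := by
      have t1 : I.band r (fun k => I.f k ^ 2) ≤ (C * I.x ^ llDStar) ^ 2 * I.a :=
        cap_int_le I hdv _ _ (sq_nonneg _) fun k hk => by
          have := hD k hk
          rw [cap_A_eq I ha hm hadm k hk, mul_one] at this
          exact (cap_f_le I ha hm hadm k).trans this
      have t2 : (I.x ^ llDStar) ^ 2 ≤ (I.x ^ (llDStar / 3)) ^ 4 := by
        rw [← Real.rpow_natCast, ← Real.rpow_natCast, ← Real.rpow_mul hx0.le, ← Real.rpow_mul hx0.le]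
        exact Real.rpow_le_rpow_of_exponent_ge hx0 hx1 (by unfold llDStar; norm_num)
      rw [ha4] at t1
      calc I.band r (fun k => I.f k ^ 2) * r ≤ ((C * I.x ^ llDStar) ^ 2 * 4) * 4 := mul_le_mul t1 hr2 hr0.le (by positivity)
        _ = 16 * C ^ 2 * (I.x ^ llDStar) ^ 2 := by ring
        _ ≤ _ := mul_le_mul_of_nonneg_left t2 (by positivity)
    -- the minimum
    unfold L8In.Yc L8In.Zc
    rcases le_total I.Z (I.x ^ (llDStar / 3) / I.U) with h | h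
    · rw [min_eq_left h]
      refine ba.trans ?_
      have : 0 ≤ (I.U * I.Z) ^ 4 := by positivity
      nlinarith
    · rw [min_eq_right h, mul_div_cancel₀ _ hU0.ne']
      refine bb.trans ?_
      exact mul_le_mul_of_nonneg_right (le_max_right _ _) (by positivity)

/-- **Cor. 8.10** -/
theorem exit_cap (T : ℝ) (hT : 1 < T) : L8qCap llBase T := by
  intro F0 hF pB hSt
  obtain ⟨p0, hp0, hD⟩ := exit_d11 T hT F0 hF pB hSt
  refine ⟨min p0 1, lt_min hp0 one_pos, min_le_right _ _, fun pS h0 h1 => ?_⟩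
  have h1' : pS ≤ 1 := h1.trans (min_le_right _ _)
  obtain ⟨C, N0, hD⟩ := hD pS h0 (h1.trans (min_le_left _ _)) 1 1 one_pos one_pos 1 le_rfl
  obtain ⟨N1, hev⟩ := L8Ev.of_fine (l8g_fine T hT) hF pB h0 h1' 1 0 (R := l8Siz)
    (Φ := fun I => (∀ k ≤ I.n, I.moF false k 1 (fun ω => (I.sp false).QX (I.n + 1) (I.n + 1) ω - I.q k) ≤ (C * I.x ^ llDStar) ^ (2 * 1)) →
      L8qCapAt I (max 1 (16 * C ^ 2))) (by
      intro I hIF _ _ hR hOk hfine hD
      have hs : I.F.sS = pB.sStar := by rw [hIF]; rfl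
      have hp : I.F.pS = pS := by rw [hIF]; rfl
      have ht := pB.tau_pos
      have ht' := pB.tau_le
      refine cap_pt I hOk hR ?_ ?_ ?_ ?_ hfine.adm.1 C hD
      · rw [hs]; unfold LLParB.sStar; linarith
      · rw [hs]; unfold LLParB.sStar; linarith
      · rw [hp]; exact h0.le
      · rw [hp]; exact h1')
  refine ⟨max 1 (16 * C ^ 2), max N1 N0, le_max_left _ _, (hev.and hD).mono le_rfl ?_⟩
  rintro I _ ⟨h1, h2⟩
  refine h1 fun k hk => ?_
  exact h2 false (fun h => absurd h (by simp)) k ⟨hk, fun h => absurd h (by simp)⟩ (I.n + 1) (I.n + 1) (by omega) (by omega)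

end Claimed.Agent.R286
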