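-- KEEP
import Claimed.Agent.R286.Cmp.P6Sup

/-!
# Row 286 (S0533), EXIT `CmpErr`      OWNER helper294 (package P06, files R286/Cmp/P6*.lean);   ADV helper290;   section head helper295
source: PE comparisons.tex l.796-808 (statement), l.1035-1084 (proof)

**PE Prop. 3.9 (conditional comparison error)**, UNIFORM form.   `A_λ = P.Al lam = n^δ √n E/√λ`;   `cmkErr` = the integral (7) at the minimiser `q`.
* `exit_cmp_err_small`   `A_λ ≤ κ0`: a regular outer region above `A_λ` is assumed;      * `exit_cmp_err_large`   `A_λ ≥ κ` (ANY fixed `κ > 0`): no regularity hypothesis.      Both also for the wall variant (fixed strength, no sweep).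
* `exit_cmp_sweep`       the consequence along an admissible sweep: `0 ≤ 𝓜_λ - f_n(b0,h0) ≤ n^(20δ) E`.
HYPOTHESES MADE EXPLICIT: `h0` nondecreasing on the working interval (l.46; automatic for a sweep);   `u0 ≤ A_λ` resp. `u0 ≤ a` (paper: `u0 = 0` or `u0 = o(a)`; `A_λ ≥ n^δ a`).
STATUS: PROVED here (glue `Cmp/P6Glue.lean`) from the supplies listed in `Cmp/P6Sup.lean` and the abstract exits.   PROOF = glue of `exit_cmp_geo`, `exit_cmp_env` (255), `exit_cmp_raw` (247), `cmk_num_ok` (295), `cm_x_ce_small`, `cm_x_ce_large` (`Cmp/P6Out.lean`).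
-/

set_option autoImplicit false

namespace Claimed.Agent.R286

open MeasureTheory Set

/-- TEX[PE:comp:conditional-error] `A_λ` small, regular outer region above `A_λ` -/
theorem exit_cmp_err_small {mm cE D0 Tm c C C0 : ℝ} (hmm : 0 < mm) (hcE : 0 < cE) (hD0 : 0 < D0) (hTm : 0 < Tm) (hc : 0 < c) (hcC : c ≤ C) (hC0 : 0 < C0) :
    ∃ (κ0 : ℝ) (n0 : ℕ), 0 < κ0 ∧ ∀ I : CmI, I.Std cE D0 Tm → MonotoneOn I.h0 (Icc I.P.u0 1) → I.P.m = mm → n0 ≤ I.P.n → I.P.N ^ (-(10 : ℝ)) ≤ I.lam →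
      I.P.Al I.lam ≤ κ0 → I.P.u0 ≤ I.P.Al I.lam → I.q.Reg c C C0 (I.P.Al I.lam) →
        cmkErr I.P I.lam I.b0 I.h0 I.q ≤ I.P.N ^ (10 * I.P.dl) * I.P.E :=
  cm6g_err_small (cmk_sup mm cE D0 Tm hmm hcE hD0 hTm) hmm hcE hD0 hTm hc hcC hC0

/-- TEX[PE:comp:conditional-error] `A_λ` bounded below -/
theorem exit_cmp_err_large {mm cE D0 Tm κ : ℝ} (hmm : 0 < mm) (hcE : 0 < cE) (hD0 : 0 < D0) (hTm : 0 < Tm) (hκ : 0 < κ) :
    ∃ n0 : ℕ, ∀ I : CmI, I.Std cE D0 Tm → MonotoneOn I.h0 (Icc I.P.u0 1) → I.P.m = mm → n0 ≤ I.P.n → I.P.N ^ (-(10 : ℝ)) ≤ I.lam → κ ≤ I.P.Al I.lam →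
      cmkErr I.P I.lam I.b0 I.h0 I.q ≤ I.P.N ^ (10 * I.P.dl) * I.P.E :=
  cm6g_err_large (cmk_sup mm cE D0 Tm hmm hcE hD0 hTm) hmm hcE hD0 hκ

/-- TEX[PE:comp:conditional-error] the sweep: if at every strength `l ∈ [n^(-10), lam1]` SOME minimiser is regular above `A_l` (needed only when `A_l ≤ κ0`), then `0 ≤ 𝓜_λ - f_n(b0,h0) ≤ n^(20δ) E` -/
theorem exit_cmp_sweep {mm cE D0 Tm c C C0 : ℝ} (hmm : 0 < mm) (hcE : 0 < cE) (hD0 : 0 < D0) (hTm : 0 < Tm) (hc : 0 < c) (hcC : c ≤ C) (hC0 : 0 < C0) :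
    ∃ (κ0 : ℝ) (n0 : ℕ), 0 < κ0 ∧ ∀ (P : CmCall) (b0 h0 : ℝ → ℝ) (lam1 : ℝ), P.Ok cE D0 → P.m = mm → n0 ≤ P.n → 0 ≤ lam1 → lam1 ≤ P.d ^ 2 →
      P.u0 ≤ P.a → CmkSweep P lam1 b0 h0 → b0 1 ≤ Tm → h0 1 + P.d ^ 2 ≤ Tm →
      (∀ l : ℝ, P.N ^ (-(10 : ℝ)) ≤ l → l ≤ lam1 → ∃ q : CmQ P, CmkMin P l b0 h0 q ∧ (P.Al l ≤ κ0 → q.Reg c C C0 (P.Al l))) →
        skCPr P.n 1 b0 h0 ≤ cmkVal P lam1 b0 h0 ∧ cmkVal P lam1 b0 h0 ≤ skCPr P.n 1 b0 h0 + P.N ^ (20 * P.dl) * P.E :=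
  cm6g_sweep (cmk_sup mm cE D0 Tm hmm hcE hD0 hTm) (cmk_env mm cE D0 hmm hcE hD0) hmm hcE hD0 hTm hc hcC hC0

end Claimed.Agent.R286
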