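-- KEEP
import Claimed.Agent.R286.L02.Defs
import Claimed.Agent.R286.L02.Ref
import Claimed.Agent.R286.L02.SzInst
import Claimed.Agent.R286.L02.RowI
import Claimed.Agent.R286.Exit.LL02A7

/-!
# Row 286 (S0533), EXIT `LL02A9`      OWNER helper73 (second head of L02; statements = the Props of R286/L02/Contract2.lean);  head + ADV of these three: helper93;  source: LL 02-foundations.tex l.402-517

LL Lemma 2.3 (change of scalar reference), Lemma 2.4 = (A9) (differentiated row identity), Lemma 2.5 (finite increments in the number of sites), FINE LEVEL,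
for THE instance `Jt := llJs`, `Ens := llMv` of `L02/Defs.lean`.      Consumers: LL 09 (l.27-60, 226-325), LL 10 l.199.
`exit_a9` PROVED from: `RdData.rd_main`, `rd_top`, `rd_frz_deriv` (L02/RowD, helper239), the instance `ll2_ri_ok`, `ll2_ri_press` (L02/RowI, helper73), `exit_a7_masked`.
-/

set_option autoImplicit false

namespace Claimed.Agent.R286

/-- TEX[LL:found:reference-change] -/
theorem exit_ref : L02RefChange llJs := l2rc_exit l2ri_inst

/-- the majorant of (A7) is nonnegative -/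
theorem xa9_rem_nonneg (n : ℕ) {a : ℝ} (ha : 0 < a) {P : LlStp} (hP : LlStpAdm a P) (tl : Option ℕ) (q : ℕ) (τ0 : JtTopo)
    (T : (ℕ → SkCfg n) → ℝ) (k : ℕ) : 0 ≤ (llJs n a P tl).rem q τ0 T k := by
  unfold JtCtx.rem
  refine trw_absK_nonneg _ _ _ _ _ fun τ' => mul_nonneg ?_ ?_
  · unfold JtCtx.off
    exact Finset.prod_nonneg fun i _ => by split_ifs <;> norm_num
  · exact (ll2_law_nu n ha hP tl).nonneg _ _ fun σ => mul_nonneg (abs_nonneg _) (abs_nonneg _)

/-- TEX[LL:found:row-derivative] (A9), one ensemble; the deterministic term `detR` is common to the two ensembles -/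
theorem exit_a9 : L02RowDeriv llJs llMv := by
  intro k M0
  obtain ⟨C7, hC7⟩ := exit_a7_masked 2 k M0
  obtain ⟨Ck, hCk0, hCk⟩ := RdData.rd_top k
  refine ⟨(2 * |C7|) * (1 + 2 * M0) + Ck, ?_⟩
  intro n a e I ϑ₀ P Pd tl hk hn ha1 ha4 hF hBd htl
  have ha : 0 < a := by linarith
  have hn0 : 0 < n := hn
  have hnR : (0 : ℝ) < n := Nat.cast_pos.2 hn0
  have hOk : (ll2Rd n a e I ϑ₀ P Pd tl).Ok := ll2_ri_ok n ha e hF tl
  have hadm := hF.adm ϑ₀ hF.mem
  refine ⟨(ll2Rd n a e I ϑ₀ P Pd tl).D1, (ll2Rd n a e I ϑ₀ P Pd tl).D2 k, ll2Qd a (P ϑ₀) Pd, ll2_ri_dq ha hF,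
    ll2_ri_press hn0 ha e hF htl, RdData.rd_frz_deriv hOk k, ?_⟩
  refine RdData.rd_main hOk k M0 (2 * |C7|) n Ck (fun t => ?_) (by positivity) hnR hCk0 (hCk _ hOk) ?_
  · show |skCumB (llMat (P ϑ₀)) t| ≤ M0
    rw [abs_of_nonneg (ll2_law_cumB_nonneg hadm.1 t)]
    exact (hBd t).1
  · intro τ0 hτ0 _ α β
    have hOv : LlOvBd 2 (fun A : ℕ → ℕ → ℝ => α + β * A 0 1) (|α| + |β|) |β| := by
      refine ⟨fun A A' h => by rw [h 0 1 (by norm_num) (by norm_num)], fun A hA => ?_, fun A A' δ _ _ hδ => ?_⟩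
      · refine (abs_add_le _ _).trans (add_le_add le_rfl ?_)
        rw [abs_mul]
        exact mul_le_of_le_one_right (abs_nonneg _) (hA 0 1)
      · have e1 : α + β * A 0 1 - (α + β * A' 0 1) = β * (A 0 1 - A' 0 1) := by ring
        rw [e1, abs_mul]
        exact mul_le_mul_of_nonneg_left (hδ 0 1) (abs_nonneg _)
    have h7 := hC7 n a (P ϑ₀) tl τ0 (fun A => α + β * A 0 1) (|α| + |β|) |β| 0 1 hn0 ha ha4 hadm (htl ϑ₀ hF.mem) hBd hτ0 hOv
      (by norm_num) (by norm_num) (by norm_num) hk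
    unfold JtCtx.A7 at h7 ⊢
    refine h7.trans ?_
    have hrem := xa9_rem_nonneg n ha hadm tl 2 τ0 (fun σ => α + β * (llJs n a (P ϑ₀) tl).Qs τ0 σ 0 1) k
    have hc : C7 ≤ |C7| := le_abs_self _
    have hc0 : 0 ≤ |C7| := abs_nonneg _
    have hα : 0 ≤ |α| := abs_nonneg _
    have hβ : 0 ≤ |β| := abs_nonneg _
    refine add_le_add ?_ ?_
    · exact mul_le_mul_of_nonneg_right (by linarith) hrem
    · refine div_le_div_of_nonneg_right ?_ hnR.le
      nlinarith [mul_nonneg hc0 hα, mul_nonneg hc0 hβ, mul_le_mul_of_nonneg_right hc (add_nonneg (add_nonneg hα hβ) hβ)]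

/-- TEX[LL:found:size-increment] -/
theorem exit_size : L02SizeIncr llJs llMv := sz_inst_size

end Claimed.Agent.R286
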