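-- KEEP
import Claimed.Agent.R286.LL.Chain
import Claimed.Agent.R286.LL04.Clk
import Claimed.Agent.R286.LL04.ClkHe

/-!
# Row 286 (S0533), EXIT `LlClk`      typed by helper224 (deputy of 207 for the LL chain);   PROVED (0 sorry below): helper258 (LL04/Clk.lean: (CLK)) + helper245 (LL04/ClkHe.lean: `H_e`, (END))

**The adapter LL 03 → LL 04**: the two supplies (CLK), (END) of `LL04/Defs.lean` (258) from the P-list `LlSec3 llBase F` (272), for EVERY record `F` of fixed data with exponents in `LlExpOk`.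
 (CLK) on each of the four segments (`ll04Dir F N ell i`, `ll04Siz F N Θ`; all parameters clamped): `b`, `h` admissible on `[0,a]` (`GhClk1`), `b(a) + h(a) ≤ C x^(-1/8)`, and the clocks are `L¹(dv)`-Lipschitz
       in (segment parameter, `γ`) with the constant `C x^(-1/8)`.      Paper: 03 l.356-437, l.469-490, (P2b), (P3), (P6), (P7).      SPEC F, H of 253 (difference form) are exactly the inputs.
 (END) at `λ = x^12` the direct clocks are `(T/ℓ², 0)` up to `C x^6` in `L¹`.      Paper: 04 l.241-247.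
If a fact about the model is missing in `LlSec3` (e.g. `K(a) ≤ M/ℓ²` AT the endpoint `v = a`; `Ref.K_top` speaks of `Ioo 0 a` only): 272 adds a field to `LlSec3`; do NOT change the shape of this exit.
-/

set_option autoImplicit false

namespace Claimed.Agent.R286

/-- the record `Ll04cHe` of `LL04/Clk` from (H2), (H3) of `LL04/ClkHe` -/
theorem exit_llclk_he (F : LlFix) (𝔹 : LlBase) (hF : F.Ok) (hB : LlBaseProfile 𝔹 F.T) : ∃ CH : ℝ, Ll04cHe 𝔹 F CH := by
  obtain ⟨C, hC0, hC⟩ := ll04h_He_lip F 𝔹 hF hB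
  have hE := ll04h_E_pos (F := F) hB
  refine ⟨C + (1 + ll04hE 𝔹 F.T), by linarith, fun p hsm hN _ hlam _ v hv => ?_, fun p hsm hN _ hlam l2 A v hl hl1 hA hv hξ => ?_⟩
  · have hl1 : 0 ≤ p.lam1 F := (Real.rpow_pos_of_pos hlam _).le
    refine (ll04h_He_abs hF hB hsm hN hlam hv).trans ?_
    rw [mul_comm]
    exact mul_le_mul_of_nonneg_right (by linarith) hl1
  · have hd : 0 ≤ Real.log (l2 / p.lam) := Real.log_nonneg ((one_le_div hlam).2 hl)
    refine (hC p l2 A v hsm hN hlam hl hl1 hA hv hξ).trans ?_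
    exact mul_le_mul_of_nonneg_right (mul_le_mul_of_nonneg_right (by linarith) (by linarith)) hd

/-- the adapter for an ABSTRACT base -/
theorem exit_llclk_abs (𝔹 : LlBase) (T : ℝ) : LlcClkExit 𝔹 T := by
  intro F hT hE hB h3
  subst hT
  obtain ⟨Cb, CR, CT, ξ0, N0, env⟩ := ll04c_env 𝔹 F h3
  obtain ⟨CH, hHe⟩ := exit_llclk_he F 𝔹 h3.ok hB
  exact ⟨ll04c_clk F h3.ok 𝔹 hB env hHe hE, ll04h_end F 𝔹 hE hB h3⟩

theorem exit_llclk (T : ℝ) (_hT : 1 < T) : LlcClkExit llBase T := exit_llclk_abs llBase T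

end Claimed.Agent.R286
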