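-- KEEP
import Claimed.Agent.R286.L08.Glue
import Claimed.Agent.R286.L08.TlTil
import Claimed.Agent.R286.L08.CenX
import Claimed.Agent.R286.PM.InstZ

/-!
# Row 286 (S0533), EXIT `DLow`      typed by helper75 (head of LL 08);   OWNER of the proof: helper37, helper228 + helper187 (same proofs as DDir, parameters `Y = Yc`, `Z_h = 1`, `vt = v0`), helper163 (cap);   ADV: helper189, helper233

TEX[LL:cor:statistics-cap] TEX[LL:prop:statistics-pointwise] TEX[LL:lem:statistics-integrated] TEX[LL:lem:statistics-lower-band] TEX[LL:lem:statistics-centered] TEX[LL:cor:statistics-low-projection]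
**The low-region variant of (D1)-(D10) on the smoothed size paths**, with the capped low scale of Cor. 8.10.
Vocabulary: `L08/Defs.lean` (instance `L8In`, shape `L8Ev`: `N ≥ N0`, tilt mass, all sufficiently fine chains, then UNIFORMLY all points and sizes); PART 2, 3 of the same file = the statement.
BODY = compiled glue (`L08/Glue.lean`) from `l8p_core_dir` / `l8q_core_low` (`PM/InstZ.lean`, 37), `l8x_cen` (`L08/CenX.lean`, 148), `l8g_til` (`L08/TlTil.lean`, 189).
-/

set_option autoImplicit false

namespace Claimed.Agent.R286

theorem exit_dlow (T : ℝ) (hT : 1 < T) : L8xLow llBase T :=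
  l8g_dlow (l8q_core_low T hT) (l8x_cen T hT) (l8g_til T hT)

end Claimed.Agent.R286
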