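-- KEEP
import Claimed.Agent.R286.L08.LsFull
import Claimed.Agent.R286.Exit.DLow

/-!
# Row 286 (S0533), EXIT `D16`      typed by helper59 (2nd architect of D16; head of the unit helper234);   consumer form `L8tLs` typed by helper51 (`L08/HiTop.lean`);   ADV: helper167

TEX[LL:lem:statistics-low-sources] TEX[LL:eq:D16]
**(D16), FIRST conclusion: low sources with a retained high pair**, on the smoothed size paths, in the shape `L8Ev` (`L08/Defs.lean`), exactly as `l8t_cov` (`Exit/D15.lean`) consumes it: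
threshold `x^ai`, envelope `eb = min 1 (A' |e|)` (`e` = the envelope of `exit_dlow`), sole coefficient `vv = v / a`, `ph_low`, and for all the degrees `1 ≤ n < l8tK`

    L8_LS1 (I.X false) ti eb vv (2 + 2 n) n (C x^(3 - ε - κ p_*) Zc²) (x^7).

    exit_d16  =  l8lq_d16 (L08/LsFull: `I.Full ⟹ L8lfB` PROVED, one instance PROVED, L8Ev glue PROVED; numbers NUM1-NUM3)  applied to  l8lq_inst (below),  exit_dlow,  l8g_fine (only `LlStpAdm`).
The SECOND conclusion (tilted minus untilted, `L8_LS_TWO`) and Remark 8.13: `Exit/D16b.lean` (helper297, helper225).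
-/

set_option autoImplicit false

namespace Claimed.Agent.R286

/-- **the one-instance glue** `L8lfB (I.sp false) S R ⟹ L8_LS1 (I.X false) ..`.      PROVED: `l8lg_inst` (helper234, `L08/LsFit.lean` sec. 2-4).
ROUTE (notes of 62: `origin/helper62:notes/R286/LSFIT_62.md`): `l8l_link l8l_abs n k (2 + k) nch` with `(nch, Cch)` of `l8l_ch k 4`, `A0 = 4`, `T = l8liSk I.m I.a I.LP none (2 + k)`, `sp = Prod.snd`, `l8li_rep`;
`L8LFit` = `⟨l8lc_in_ok (l8lf_D_ok ..) rfl (fun _ => rfl), rfl, rfl, rfl, rfl, D12, hd, D11, l8lf_gain, le_rfl, D7 + D10, D7 + D10⟩`;   dictionary `I.sp false ↔ I`: `L8In.l8lq_n, l8lq_v, l8lq_dv, l8lq_ok, l8lq_S, l8lq_D2` (`L08/LsFull.lean`). -/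
theorem l8lq_inst : L8LsInst := l8lg_inst

/-- **(D16), first conclusion** -/
theorem exit_d16 (T : ℝ) (hT : 1 < T) : L8tLs llBase T :=
  l8lq_d16 l8lq_inst (exit_dlow T hT) (l8g_fine T hT)

end Claimed.Agent.R286
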