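-- KEEP
import Claimed.Agent.R286.Inv.Top

/-!
# Row 286 (S0533), EXIT `PairInv`      OWNER helper177 (package L04) + helper84 (section head LL05+06, unit MAIN);   source: LL 05-inverse.tex l.27-52 (Proposition 5.1), proof l.53-585;   adversary helper51

**LL Proposition 5.1 (pair inverse with absolute attachment domination)** as an A-PRIORI INEQUALITY, on every fine path, non-asymptotic, constants absolute.
Vocabulary: `Inv/PairDefs.lean`.      `U` = any symmetric pair function over `q0` old labels, `τ` = any tree (`IsTr`) on `q0 + 2` labels whose pair `(q0, q0+1)` consists of distinct leaves.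
`|u_{ab}| ≤ C Λ^k ×` (ordinary ABSOLUTE attachment of two labels `c, d` to the tree with `ab`) of `|(H1) u|_{cd}`; only the rows `cd` on the sheet of `ab` or on a retained sheet (`b ≠ 0`) are read.
The terms "`cd = ab`", "`c = a`, `d` new", ... of the paper are the terminal coincidences of the absolute attachment rule (weight `a` each; `a⁻¹ ≤ Λ`).
STRONGER than the paper: any terminal mass, zero / equal masses and empty steps allowed, incoming mass `0`, no terminal interval (any `b ≥ 0` of bounded variation), independent of `q0`, `n`, `N`, of the ensemble.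
Users: LL06 l.568-634 (`q0 = 2`, evaluate at `ab = ij`: `τ 2 0 = τ 3 1 = N + 1`), LL08 l.1508-1545.
Route: origin/helper177:notes/R286/L04_PLAN_177.md, origin/helper84:notes/R286/L05_design_84.md   (KER pointwise kernel identity; `vc_inverse` exact inverse; COEF resolvent bounds; BRG; LIM).
-/

set_option autoImplicit false

namespace Claimed.Agent.R286

/-- TEX[LL:inv:pair-inverse] -/
theorem exit_pair_inv : ∃ (C : ℝ) (k : ℕ), 0 < C ∧
    ∀ (n : ℕ) (a : ℝ) (P : LlStp) (tl : Option ℕ) (q0 : ℕ) (b : ℕ → ℝ) (Λ : ℝ) (U : JtTopo → ℝ) (τ : JtTopo),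
      0 < a → LlStpAdm a P → PkMul a P b Λ → PkFn q0 U → IsTr P.length (q0 + 2) τ → τ q0 (q0 + 1) ≤ P.length →
      |U τ| ≤ C * Λ ^ k * (llJs n a P tl).absK 2 (q0 + 2) τ fun τ' =>
        pkRet P.length b (τ q0 (q0 + 1)) (τ' (q0 + 2) (q0 + 3)) * |pkL (llJs n a P tl) q0 b U (pkPull q0 (q0 + 2) (q0 + 3) τ')| :=
  pk_top pk_core_st pk_ker_st

end Claimed.Agent.R286
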