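-- KEEP
import Claimed.Agent.R286.Inv.Long

/-!
# Row 286 (S0533), EXIT `PairLong`      OWNER helper177 (package L04; units KER helper19, OPK helper20, SCB helper51);   source: LL 05-inverse.tex l.215-260 (Lemma 5.2, (H2) at `k = 0`), l.459-585 (post kernel bound);   adversary helper51

**The longitudinal identity (H2)** for inputs which depend on the sheet only, and the bound of its integral kernel by the EARLIER time.      Vocabulary: `Inv/PairDefs.lean`.
`∑_{cd} M_{ab,cd} f(v_{cd}) = E χ_r² f_r - ∑_t B_{rt} (p_{t+1} - p_t) f_t`   (`r` = sheet of `ab`),   `|B_{rt}| ≤ C Λ^k K_{min(r,t)}`,   `B` symmetric, independent of `f`, of the old labels and of `τ`;   `p_t = trPm (llMs a P) t` (`p_0 = 0`, `p_{N+1} = a`).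
User: LL08 l.1589-1612 (longitudinal equation; "the post kernel bound gains the earlier time").
PROVED: `Inv/Long.lean` (helper20), `pkl_exit`.
-/

set_option autoImplicit false

namespace Claimed.Agent.R286

/-- TEX[LL:inv:sector-response] -/
theorem exit_pair_long : ∃ (C : ℝ) (k : ℕ), 0 < C ∧
    ∀ (n : ℕ) (a : ℝ) (P : LlStp) (tl : Option ℕ) (Λ : ℝ),
      0 < a → LlStpAdm a P → 1 ≤ Λ → a ≤ Λ → a⁻¹ ≤ Λ → llCumK P P.length ≤ Λ →
      ∃ B : ℕ → ℕ → ℝ, (∀ r t, B r t = B t r) ∧ (∀ r t, r ≤ P.length → t ≤ P.length → |B r t| ≤ C * Λ ^ k * llCumK P (min r t)) ∧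
        ∀ (q0 : ℕ) (f : ℕ → ℝ) (τ : JtTopo), IsTr P.length (q0 + 2) τ → τ q0 (q0 + 1) ≤ P.length →
          pkM (llJs n a P tl) q0 (fun τ' => f (τ' (q0 + 2) (q0 + 3))) τ
            = pkX2 a P (τ q0 (q0 + 1)) * f (τ q0 (q0 + 1))
              - ∑ t ∈ Finset.range (P.length + 1), B (τ q0 (q0 + 1)) t * (trPm (llMs a P) (t + 1) - trPm (llMs a P) t) * f t :=
  pkl_exit

end Claimed.Agent.R286
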