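-- KEEP
import Claimed.Agent.R286.L08.Defs
import Claimed.Agent.R286.LL.PathsBase
import Claimed.Agent.R286.L08.HiTop
import Claimed.Agent.R286.L08.HiFin
import Claimed.Agent.R286.L08.HiLow
import Claimed.Agent.R286.Exit.D11
import Claimed.Agent.R286.Exit.D16

/-!
# Row 286 (S0533), EXIT `D15`      typed by helper75 (head of LL 08);   OWNER of the proof: helper234 (with helper60);   glue helper221 (`L08/HiTop.lean`), cutters of the leaves helper51 (`l8t_cov`), helper221 (`l8t_long`, `l8t_basic`);   ADV: helper235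

TEX[LL:prop:statistics-high] TEX[LL:eq:D15]
**(D15): high-mass means and variances at final strength.**
Vocabulary: `L08/Defs.lean` (instance `L8In`, shape `L8Ev`: `N ≥ N0`, tilt mass, all sufficiently fine chains, then UNIFORMLY all points and sizes); PART 2, 3 of the same file = the statement.

    exit_d15  =  l8t_d15 (L08/HiTop: the asymptotic glue, PROVED)  applied to  l8h_cov (280, PROVED), l8hl_long (221, PROVED)  and to the three leaves below (forms `L8tBasic`, `L8tCov`, `L8tLong` of `L08/HiTop.lean`).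
The leaves = the producers of `L08/HiFin.lean` (`l8hf_cov_hyp`, `l8hf_long_hyp`, `l8hf_Ri`, `l8hf_IJ`, `l8hs_dic`, `l8hs_clk`) + `exit_dlow` + `exit_d11` + (D16) (`L08/LsFit.lean`) + `L8HCov.mono`, `L8HLong.mono` + choice of the numbers.
-/

set_option autoImplicit false

namespace Claimed.Agent.R286

/-! ### the leaves -/

theorem l8t_basic_aux (n : ℕ) (v : ℕ → ℝ) (hv : Monotone v) (V : ℝ) : ∃ ti, ∀ k, k ≤ n → (ti ≤ k ↔ V ≤ v k) := by
  classical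
  by_cases h : ∃ k, V ≤ v k
  · refine ⟨Nat.find h, fun k _ => ⟨fun hk => (Nat.find_spec h).trans (hv hk), fun hk => Nat.find_min' h hk⟩⟩
  · push Not at h
    exact ⟨n + 1, fun k hk => ⟨fun h1 => by omega, fun h1 => absurd h1 (not_le.2 (h k))⟩⟩

/-- OWNER: helper221 (cut below), dictionary with helper257 / helper225.
ROUTE: `L8Ev.of_fine` (`L08/Glue`), at ONE fine instance (`I.Fine η` gives `LlStpAdm I.a I.LP`):   (i) `(I.X false).Sf k = llNu m a LP none 2 (jtTab2 n k) (ov)`, `jtTab2 = trPair`; `trNu` of the pair tree `= (obT2 k).nu` (`Fd/TrB1`, `trOf`)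
`= obS` (`ob_S_two`, `Fd/ObsC`);   `D2`: expand the square, `ob_B_two`;   (ii) `I.v = skMs a P0` is nondecreasing on `k ≤ n` (`SkAdm`): `ti` = number of the cuts `k ≤ n` with `I.v k < V`. -/
theorem l8t_basic (T : ℝ) (hT : 1 < T) : L8tBasic llBase T := by
  intro F0 hF pB pS h0 h1
  refine L8Ev.of_fine (l8g_fine T hT) hF pB h0 h1 0 0 ?_
  intro I _ _ _ hR hOk hfine
  obtain ⟨ha, _, _, hm, hmono, _⟩ := l8hf_basic I hOk hR hfine.adm
  have ha0 : 0 < I.a := by rw [ha]; norm_num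
  refine ⟨fun k hk => ?_, fun V => l8t_basic_aux I.n I.v hmono V⟩
  obtain ⟨e1, e2, _⟩ := l8hs_dic I hm ha0 hfine.adm k hk
  exact ⟨e1, e2⟩

/-! ### tools shared by `l8t_cov`, `l8t_long`      (helper51) -/

/-- `L8Ev.mono` which remembers the record of cut-offs, the class and `N1 ≤ N` -/
theorem l8t_ev_mono' {F : LlFix} {𝔹 : LlBase} {N0 N1 : ℕ} {R : LlPt → Prop} {Φ Ψ : L8In → Prop} (h : L8Ev F 𝔹 N0 R Φ) (hN : N0 ≤ N1)
    (hi : ∀ I : L8In, I.F = F → I.Ok → N1 ≤ I.p.N → R I.p → Φ I → Ψ I) : L8Ev F 𝔹 N1 R Ψ := by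
  intro N s hN'
  filter_upwards [h N s (hN.trans hN')] with Fs hFs ell lam chiL chiE sm γ m hR hOk
  exact hi _ rfl hOk hN' hR (hFs ell lam chiL chiE sm γ m hR hOk)

/-- elementary numbers of an instance on a size path -/
theorem l8t_elem (I : L8In) (hI : I.Ok) (hs : l8Siz I.p) :
    I.a = 4 ∧ 0 < I.x ∧ I.x < 1 ∧ I.lam = I.x ^ I.F.pS ∧ 0 < I.m ∧ 1 / (I.m : ℝ) ≤ 2 * I.x ^ 6 ∧ I.v I.n = 4 := by
  have hN2 := hI.pt.N2
  have hNpos : (0 : ℝ) < I.p.N := by exact_mod_cast (by omega : 0 < I.p.N)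
  have ha : I.a = 4 := by
    show (if I.p.sm then (4 : ℝ) else I.p.ell) = 4
    rw [hs.1]; rfl
  have hx0 : 0 < I.x := Real.rpow_pos_of_pos hNpos _
  have hx1 : I.x < 1 := Real.rpow_lt_one_of_one_lt_of_neg (by exact_mod_cast (by omega : 1 < I.p.N)) (by norm_num)
  have hm : 0 < I.m := by have := hI.m_lo; omega
  have hx6 : I.x ^ 6 = 1 / (I.p.N : ℝ) := by
    show ((I.p.N : ℝ) ^ (-(1 / 6) : ℝ)) ^ 6 = 1 / (I.p.N : ℝ)
    rw [← Real.rpow_natCast, ← Real.rpow_mul hNpos.le]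
    norm_num
    rw [Real.rpow_neg_one]
  refine ⟨ha, hx0, hx1, (hI.pt.sm_fin hs.1).1, hm, ?_, ?_⟩
  · rw [hx6]
    have hm' : (0 : ℝ) < I.m := by exact_mod_cast hm
    have h2 : (I.p.N : ℝ) ≤ 2 * I.m := by exact_mod_cast hI.m_lo
    rw [div_le_iff₀ hm']
    have : 2 * (1 / (I.p.N : ℝ)) * I.m = (2 * I.m) / I.p.N := by ring
    rw [this, le_div_iff₀ hNpos]
    linarith
  · show skMs I.a I.P0 I.n = 4
    unfold skMs
    rw [List.getD_eq_default _ _ (by simp [L8In.P0, L8In.n, llMat]), ha]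

/-- `D ≤ 2` -/
theorem l8t_Dd_le {S : Type} {X : JtCtx S} {a : ℝ} (h : X.Ok a) {t : ℕ} (ht : t ≤ X.N + 1) : X.Dd t ≤ 2 := by
  have hτ := l8hk_tab2_isTr X.N t ht
  have h1 : X.D2 t ≤ 4 := by
    have := l8hk_nu_mono h hτ (F := fun σ => (X.ov (σ 0) (σ 1) - X.Sf t) ^ 2) (G := fun _ => 4) (fun σ => by
      have h1 := abs_le.mp (h.ov_bd (σ 0) (σ 1))
      have h2 := abs_le.mp (l8hk_Sf_abs_le h ht)
      nlinarith [h1.1, h1.2, h2.1, h2.2])
    rw [l8hk_nu_const h hτ] at this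
    exact this
  unfold JtCtx.Dd
  calc Real.sqrt (X.D2 t) ≤ Real.sqrt 4 := Real.sqrt_le_sqrt h1
    _ = 2 := by rw [show (4 : ℝ) = 2 ^ 2 by norm_num]; exact Real.sqrt_sq (by norm_num)


/-- numerics of the cost of the pair inverse -/
theorem l8t_num_pol {x cK CK C1 κ ai pS ε' lam v : ℝ} {kI : ℕ} (hx0 : 0 < x) (hx1 : x ≤ 1) (hcK : 0 < cK) (hC1 : 0 ≤ C1)
    (hκ : 2 * (kI : ℝ) ≤ κ) (hai : 0 < ai) (hpS : 0 < pS) (hε : ε' ≤ pS) (hlam : lam = x ^ pS) (hv : x ^ ai ≤ v) :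
    C1 * (max (max 4 (x ^ (-ε'))) (max (2 * CK) (cK * lam * v ^ 2)⁻¹)) ^ kI
      ≤ C1 * (max 4 (max (2 * CK) cK⁻¹)) ^ kI * x ^ (-(κ * (ai + pS))) := by
  set y := x ^ (-(pS + 2 * ai)) with hy
  set M := max 4 (max (2 * CK) cK⁻¹) with hM
  have hy1 : 1 ≤ y := Real.one_le_rpow_of_pos_of_le_one_of_nonpos hx0 hx1 (by linarith)
  have hM4 : 4 ≤ M := le_max_left _ _
  have hM0 : 0 ≤ M := by linarith
  have hle : ∀ z, z ≤ M → z ≤ M * y := fun z hz => hz.trans (le_mul_of_one_le_right hM0 hy1)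
  have h1 : x ^ (-ε') ≤ M * y := by
    have : x ^ (-ε') ≤ y := Real.rpow_le_rpow_of_exponent_ge hx0 hx1 (by linarith)
    exact this.trans (le_mul_of_one_le_left (by linarith) (by linarith))
  have hxa : 0 < x ^ ai := Real.rpow_pos_of_pos hx0 _
  have h2 : (cK * lam * v ^ 2)⁻¹ ≤ M * y := by
    have e1 : x ^ (pS + 2 * ai) = x ^ pS * (x ^ ai) ^ 2 := by
      rw [Real.rpow_add hx0, ← Real.rpow_natCast (x ^ ai) 2, ← Real.rpow_mul hx0.le]
      congr 2; push_cast; ring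
    have e2 : cK * x ^ (pS + 2 * ai) ≤ cK * lam * v ^ 2 := by
      rw [e1, hlam, mul_assoc]
      have : (x ^ ai) ^ 2 ≤ v ^ 2 := pow_le_pow_left₀ hxa.le hv 2
      exact mul_le_mul_of_nonneg_left (mul_le_mul_of_nonneg_left this (Real.rpow_pos_of_pos hx0 _).le) hcK.le
    have e3 : 0 < cK * x ^ (pS + 2 * ai) := mul_pos hcK (Real.rpow_pos_of_pos hx0 _)
    calc (cK * lam * v ^ 2)⁻¹ ≤ (cK * x ^ (pS + 2 * ai))⁻¹ := inv_anti₀ e3 e2
      _ = cK⁻¹ * y := by rw [mul_inv, hy, Real.rpow_neg hx0.le]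
      _ ≤ M * y := mul_le_mul_of_nonneg_right ((le_max_right _ _).trans (le_max_right _ _)) (by linarith)
  have hLb : max (max 4 (x ^ (-ε'))) (max (2 * CK) (cK * lam * v ^ 2)⁻¹) ≤ M * y :=
    max_le (max_le (hle _ hM4) h1) (max_le (hle _ ((le_max_left _ _).trans (le_max_right _ _))) h2)
  have hLb0 : 0 ≤ max (max 4 (x ^ (-ε'))) (max (2 * CK) (cK * lam * v ^ 2)⁻¹) :=
    le_trans (by norm_num) ((le_max_left (4 : ℝ) _).trans (le_max_left _ _))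
  have h3 : y ^ kI ≤ x ^ (-(κ * (ai + pS))) := by
    rw [hy, ← Real.rpow_natCast, ← Real.rpow_mul hx0.le]
    refine Real.rpow_le_rpow_of_exponent_ge hx0 hx1 ?_
    have hk0 : (0 : ℝ) ≤ kI := Nat.cast_nonneg _
    nlinarith [mul_nonneg hk0 hpS.le, mul_nonneg hk0 hai.le, mul_le_mul_of_nonneg_right hκ (by linarith : 0 ≤ ai + pS)]
  calc C1 * (max (max 4 (x ^ (-ε'))) (max (2 * CK) (cK * lam * v ^ 2)⁻¹)) ^ kI ≤ C1 * (M * y) ^ kI :=
        mul_le_mul_of_nonneg_left (pow_le_pow_left₀ hLb0 hLb _) hC1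
    _ = C1 * M ^ kI * y ^ kI := by rw [mul_pow]; ring
    _ ≤ C1 * M ^ kI * x ^ (-(κ * (ai + pS))) := mul_le_mul_of_nonneg_left h3 (mul_nonneg hC1 (pow_nonneg hM0 _))

/-- numerics of the smallness `hes` -/
theorem l8t_num_hes {x K ε δ : ℝ} (hx0 : 0 < x) (hx1 : x ≤ 1) (hδ1 : δ ≤ 1) (hε : ε ≤ 1)
    (h1 : 4 * K ≤ x ^ (-(δ / 2))) (h2 : 4 ≤ x ^ (-(1 : ℝ))) : 2 * (K * x ^ δ + x ^ (-ε) * x ^ 3) ≤ x ^ (δ / 2) := by
  have hp : 0 < x ^ (δ / 2) := Real.rpow_pos_of_pos hx0 _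
  have e1 : x ^ δ = x ^ (δ / 2) * x ^ (δ / 2) := by rw [← Real.rpow_add hx0]; congr 1; ring
  have e2 : x ^ (-(δ / 2)) * x ^ (δ / 2) = 1 := by rw [← Real.rpow_add hx0]; simp
  have a1 : 4 * (K * x ^ δ) ≤ x ^ (δ / 2) := by
    have := mul_le_mul_of_nonneg_right h1 (mul_pos hp hp).le
    calc 4 * (K * x ^ δ) = 4 * K * (x ^ (δ / 2) * x ^ (δ / 2)) := by rw [e1]; ring
      _ ≤ x ^ (-(δ / 2)) * (x ^ (δ / 2) * x ^ (δ / 2)) := this
      _ = (x ^ (-(δ / 2)) * x ^ (δ / 2)) * x ^ (δ / 2) := by ring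
      _ = x ^ (δ / 2) := by rw [e2, one_mul]
  have a2 : 4 * (x ^ (-ε) * x ^ 3) ≤ x ^ (δ / 2) := by
    have e3 : x ^ (-ε) * x ^ 3 = x ^ (3 - ε) := by
      rw [← Real.rpow_natCast x 3, ← Real.rpow_add hx0]; congr 1; push_cast; ring
    have e4 : x ^ (3 - ε) ≤ x ^ (1 + δ / 2) := Real.rpow_le_rpow_of_exponent_ge hx0 hx1 (by linarith)
    have e5 : x ^ (1 + δ / 2) = x ^ (1 : ℝ) * x ^ (δ / 2) := Real.rpow_add hx0 _ _
    have e6 : x ^ (-(1 : ℝ)) * x ^ (1 : ℝ) = 1 := by rw [← Real.rpow_add hx0]; simp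
    have hp1 : 0 < x ^ (1 : ℝ) := Real.rpow_pos_of_pos hx0 _
    have e7 : 4 * x ^ (1 : ℝ) ≤ 1 := by
      have := mul_le_mul_of_nonneg_right h2 hp1.le
      rwa [e6] at this
    rw [e3]
    calc 4 * x ^ (3 - ε) ≤ 4 * (x ^ (1 : ℝ) * x ^ (δ / 2)) := by rw [← e5]; linarith
      _ = (4 * x ^ (1 : ℝ)) * x ^ (δ / 2) := by ring
      _ ≤ 1 * x ^ (δ / 2) := mul_le_mul_of_nonneg_right e7 hp.le
      _ = x ^ (δ / 2) := one_mul _
  linarith

/-- numerics of the tail of (D11) -/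
theorem l8t_num_etaT {x K δ : ℝ} (hx0 : 0 < x) (hK : 0 ≤ K) (h1 : K ≤ x ^ (-(δ / 4))) (k : ℕ) (hk : (k : ℝ) * (δ / 2) = 7) :
    (K * x ^ δ / x ^ (δ / 2)) ^ (2 * k) ≤ x ^ 7 := by
  have hp : 0 < x ^ (δ / 2) := Real.rpow_pos_of_pos hx0 _
  have e1 : K * x ^ δ / x ^ (δ / 2) = K * x ^ (δ / 2) := by
    rw [mul_div_assoc, ← Real.rpow_sub hx0]; congr 2; ring
  have e2 : K * x ^ (δ / 2) ≤ x ^ (δ / 4) := by
    calc K * x ^ (δ / 2) ≤ x ^ (-(δ / 4)) * x ^ (δ / 2) := mul_le_mul_of_nonneg_right h1 hp.le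
      _ = x ^ (δ / 4) := by rw [← Real.rpow_add hx0]; congr 1; ring
  rw [e1]
  calc (K * x ^ (δ / 2)) ^ (2 * k) ≤ (x ^ (δ / 4)) ^ (2 * k) := pow_le_pow_left₀ (mul_nonneg hK hp.le) e2 _
    _ = x ^ 7 := by
      rw [← Real.rpow_natCast (x ^ (δ / 4)), ← Real.rpow_mul hx0.le, ← Real.rpow_natCast x 7]
      congr 1; push_cast; linarith


/-- beyond the last revelation the projected pair is the terminal pair -/
theorem l8t_QX (I : L8In) (hI : I.Ok) (hs : l8Siz I.p) (hadm : LlStpAdm I.a I.LP) (p : SkOm I.m × SkOm I.m) :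
    (I.sp false).QX (I.n + 1) (I.n + 1) p = (I.sp false).Q p := by
  obtain ⟨ha, -, -, -, hm, -, -⟩ := l8t_elem I hI hs
  have hP : (I.sp false).Ok := l8i_ok I.m hm I.a (by rw [ha]; norm_num) (I.P false) (ll2_mv_adm hadm none)
  have hn : (I.sp false).n < I.n + 1 := by
    show (llMat I.LP).length < I.LP.length + 1
    simp [llMat]
  simp only [L8P.QX, L8P.Q, (I.sp false).l8s_X_term hP hn]

/-- **the base inputs of (D15)** in the shape `L8Ev`: (D11) at the order `2 l8tK`, the clocks with the loss `x^(-ε)`, smallness, the tail of (D11)      (shared by `l8t_cov`, `l8t_long`) -/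
theorem l8t_hib (T : ℝ) (hT : 1 < T) (F0 : LlFix) (hF : L8Fix llBase T F0) (pB : LLParB) (hpB : LlcStB llBase F0 pB) :
    ∃ p0 : ℝ, 0 < p0 ∧ p0 ≤ 1 ∧ ∀ pS, 0 < pS → pS ≤ p0 → ∃ cK CK v0 C11 : ℝ, 0 < cK ∧ 1 ≤ CK ∧ 0 < v0 ∧ ∀ ε : ℝ, 0 < ε → ε ≤ 1 → ∃ N0 : ℕ,
      L8Ev (F0.wExp pB.sStar pB.eta pS) llBase N0 l8Siz fun I =>
        I.HiB l8tK l8tK cK CK v0 (I.x ^ (-ε)) C11 ∧ I.etaT CK C11 l8tK ≤ I.x ^ 7 := by
  obtain ⟨p1, hp1, h11⟩ := exit_d11 T hT F0 hF pB hpB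
  refine ⟨min 1 p1, by positivity, min_le_left _ _, ?_⟩
  intro pS hpS hpS'
  obtain ⟨cK, CK, v0, hcK, hCK, hv0, hclk⟩ := l8hs_clk T hT F0 hF pB pS hpS (hpS'.trans (min_le_left _ _))
  obtain ⟨C, N1, E1⟩ := h11 pS hpS (hpS'.trans (min_le_right _ _)) 1 1 one_pos one_pos l8tK (by unfold l8tK; norm_num)
  refine ⟨cK, CK, v0, |C|, hcK, hCK, hv0, ?_⟩
  intro ε hε hε1
  obtain ⟨N2, E2⟩ := hclk ε hε
  have hδ : 0 < llDStar := by unfold llDStar; norm_num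
  have hδ1 : llDStar ≤ 1 := by unfold llDStar; norm_num
  obtain ⟨M1, _, L1⟩ := l8t_large (4 * (CK * |C|)) (llDStar / 2) (by positivity)
  obtain ⟨M2, _, L2⟩ := l8t_large 4 1 one_pos
  obtain ⟨M3, _, L3⟩ := l8t_large (2 * CK * |C|) (llDStar / 4) (by positivity)
  refine ⟨max (max N1 N2) (max M1 (max M2 M3)), ?_⟩
  refine l8t_ev_mono (E1.and E2) (le_max_left _ _) ?_
  rintro I hI hN hs ⟨h1, h2⟩
  have hN1 : M1 ≤ I.p.N := le_trans ((le_max_left _ _).trans (le_max_right _ _)) hN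
  have hN2 : M2 ≤ I.p.N := le_trans (((le_max_left _ _).trans (le_max_right _ _)).trans (le_max_right _ _)) hN
  have hN3 : M3 ≤ I.p.N := le_trans (((le_max_right _ _).trans (le_max_right _ _)).trans (le_max_right _ _)) hN
  obtain ⟨-, hx0, hx1, -, -, -, -⟩ := l8t_elem I hI hs
  have hCK0 : 0 ≤ CK := by linarith
  refine ⟨⟨hI, hs, h2, hcK, hCK, ?_, by unfold l8tK; norm_num, by unfold l8tK; norm_num, abs_nonneg _, ?_, ?_⟩, ?_⟩
  · exact Real.one_le_rpow_of_pos_of_le_one_of_nonpos hx0 hx1.le (by linarith)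
  · intro k hk
    have h3 := h1 false (by simp) k ⟨hk, by simp⟩ (I.n + 1) (I.n + 1) (by omega) (by omega)
    have e : (fun ω => (I.sp false).QX (I.n + 1) (I.n + 1) ω - I.q k) = fun ω => (I.sp false).Q ω - I.q k := by
      funext ω; rw [l8t_QX I hI hs h2.adm]
    rw [e] at h3
    refine h3.trans (le_of_eq ?_)
    rw [pow_mul, pow_mul (|C| * I.x ^ llDStar), mul_pow C, mul_pow |C|, sq_abs]
  · have := l8t_num_hes (K := CK * |C|) hx0 hx1.le hδ1 hε1 (L1 _ hN1) (L2 _ hN2)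
    exact this
  · exact l8t_num_etaT hx0 (by positivity) (L3 _ hN3) l8tK l8t_K_eq

/-- **COV from LS** (glue): `l8hf_cov_hyp` at the base inputs `l8t_hib`, (D16) in the form `L8tLs`, then `L8HCov.mono`.      `κ = max(1, 2 kI, κl)` -/
theorem l8t_cov_of (T : ℝ) (hT : 1 < T) (hls : L8tLs llBase T) : L8tCov llBase T := by
  intro F0 hF pB hpB
  obtain ⟨C1, kI, hC1, H1⟩ := l8ha_h1
  obtain ⟨κl, pl, hκl, hpl, hls⟩ := hls F0 hF pB hpB
  obtain ⟨p0, hp0, hp01, hb⟩ := l8t_hib T hT F0 hF pB hpB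
  refine ⟨max 1 (max (2 * (kI : ℝ)) κl), 1, le_max_left _ _, one_pos, ?_⟩
  set κ := max 1 (max (2 * (kI : ℝ)) κl) with hκ
  have hκ1 : 2 * (kI : ℝ) ≤ κ := (le_max_left _ _).trans (le_max_right _ _)
  have hκ2 : κl ≤ κ := (le_max_right _ _).trans (le_max_right _ _)
  intro ai hai _
  refine ⟨min p0 pl, lt_min hp0 hpl, (min_le_left _ _).trans hp01, ?_⟩
  intro pS hpS hpS' ε hε
  obtain ⟨cK, CK, v0, C11, hcK, hCK, hv0, hb⟩ := hb pS hpS (hpS'.trans (min_le_left _ _))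
  obtain ⟨Nb, Eb⟩ := hb (min 1 pS) (lt_min one_pos hpS) (min_le_left _ _)
  have hCK0 : 0 ≤ CK := by linarith
  obtain ⟨Cl, Nl, hCl, El⟩ := hls pS hpS (hpS'.trans (min_le_right _ _)) ai CK ε hai hCK0 hε
  obtain ⟨CQ, CA, hCA, HC⟩ := l8hf_cov_hyp H1 l8tK CK (4 * CK)
  obtain ⟨Nv, _, Lv⟩ := l8t_large (1 / v0) ai hai
  set Cp := C1 * (max 4 (max (2 * CK) cK⁻¹)) ^ kI with hCp
  have hCp0 : 0 ≤ Cp := mul_nonneg hC1.le (pow_nonneg (le_trans (by norm_num) (le_max_left (4 : ℝ) _)) _)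
  refine ⟨CK, CQ, CA, max Cp (max Cl (2 * CA)), max (max Nb Nl) Nv, hCp0.trans (le_max_left _ _), ?_⟩
  refine l8t_ev_mono' (Eb.and El) (le_max_left _ _) ?_
  rintro I hIF hI hN hs ⟨⟨hB, hT7⟩, hZ, hl⟩
  refine ⟨hZ, fun ti hti => ?_⟩
  obtain ⟨eb, vv, e0, e1, w0, vle, phl, ls⟩ := hl ti hti
  refine ⟨eb, vv, ?_⟩
  obtain ⟨ha, hx0, hx1, hlam, hm, hm6, hvn⟩ := l8t_elem I hI hs
  have hlam' : I.lam = I.x ^ pS := by rw [hlam, hIF]; rfl
  have hxa0 : 0 < I.x ^ ai := Real.rpow_pos_of_pos hx0 _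
  have hxa1 : I.x ^ ai ≤ 1 := Real.rpow_le_one hx0.le hx1.le hai.le
  have hxav : I.x ^ ai ≤ v0 := by
    have h1 : 1 / v0 ≤ I.x ^ (-ai) := Lv _ (le_trans (le_max_right _ _) hN)
    rw [Real.rpow_neg hx0.le, ← one_div] at h1
    exact (one_div_le_one_div hv0 hxa0).mp h1
  have htin : ti ≤ I.n := (hti I.n le_rfl).mpr (by rw [hvn]; linarith)
  have hvti : I.x ^ ai ≤ I.v ti := (hti ti htin).mp le_rfl
  have hlow : ∀ t, t < ti → I.v t < I.x ^ ai := fun t ht => by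
    by_contra h
    have := (hti t (by omega)).mpr (not_lt.mp h)
    omega
  obtain ⟨-, -, -, -, -, -, -, -, -, -, hb0, -, -, -⟩ := l8hf_basic I hI hs hB.clk.adm
  have hZ2 : 0 ≤ I.Zc llDStar ^ 2 := sq_nonneg _
  have hin : I.HiIn l8tK ti l8tK eb vv cK CK v0 (I.x ^ (-(min 1 pS))) C11 (4 * CK) (Cl * I.x ^ (3 - ε - κl * pS) * I.Zc llDStar ^ 2) (I.x ^ 7) :=
    { base := hB
      hti := htin
      v_pos := hxa0.trans_le hvti
      eb_nonneg := e0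
      eb_le := e1
      vv_nonneg := w0
      ph_low := fun t ht => by
        refine le_trans ?_ (phl t ht)
        have h1 : |I.bC t * I.f t| ≤ CK * |I.f t| := by
          rw [abs_mul, abs_of_nonneg (hb0 t)]
          exact mul_le_mul_of_nonneg_right (hB.clk.b_le t) (abs_nonneg _)
        exact (abs_add_le _ _).trans (by linarith)
      Cv_nonneg := by positivity
      K_vv := fun t ht => by
        have h1 := hB.clk.K_le t (by omega) ((hlow t ht).le.trans hxav)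
        have h2 := mul_le_mul_of_nonneg_left (vle t ht) hCK0
        linarith
      ls := ls
      Lam_nonneg := mul_nonneg (mul_nonneg hCl (Real.rpow_pos_of_pos hx0 _).le) hZ2
      eta_nonneg := (pow_pos hx0 _).le }
  have hok : (I.X false).Ok I.a := l8ha_ok I.m (by rw [ha]; norm_num) hB.clk.adm none
  have H := HC I ti l8tK eb vv cK v0 _ C11 _ _ 2 hin (fun t _ ht => l8t_Dd_le hok (Nat.le_succ_of_le ht))
  refine H.mono ?_ ?_ le_rfl ?_ hT7 le_rfl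
  · refine (l8t_num_pol (CK := CK) hx0 hx1.le hcK hC1.le hκ1 hai hpS (min_le_right _ _) hlam' hvti).trans ?_
    exact mul_le_mul_of_nonneg_right (le_max_left _ _) (Real.rpow_pos_of_pos hx0 _).le
  · refine mul_le_mul_of_nonneg_right ?_ hZ2
    have h1 : I.x ^ (3 - ε - κl * pS) ≤ I.x ^ (3 - ε - κ * pS) :=
      Real.rpow_le_rpow_of_exponent_ge hx0 hx1.le (by nlinarith [mul_le_mul_of_nonneg_right hκ2 hpS.le])
    exact mul_le_mul ((le_max_left _ _).trans (le_max_right _ _)) h1 (Real.rpow_pos_of_pos hx0 _).le (hCp0.trans (le_max_left _ _))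
  · have h1 : CA / (I.m : ℝ) = CA * (1 / (I.m : ℝ)) := by ring
    rw [h1]
    have h2 := mul_le_mul_of_nonneg_left hm6 hCA
    have h3 : 2 * CA * I.x ^ 6 ≤ max Cp (max Cl (2 * CA)) * I.x ^ 6 :=
      mul_le_mul_of_nonneg_right ((le_max_right _ _).trans (le_max_right _ _)) (pow_pos hx0 _).le
    linarith

/-- **(D16), first conclusion**, in the consumer form `L8tLs` (`L08/HiTop.lean`).      PRODUCER: helper59 (`Exit/D16.lean`: `exit_dlow` + `l8lf_B_of_full` + the one-instance glue `L08/LsFin.lean` of helper234 + numerics); PLUGGED 06:15Z: `exit_d16`.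
TEX[LL:lem:statistics-low-sources] -/
theorem l8t_ls (T : ℝ) (hT : 1 < T) : L8tLs llBase T := exit_d16 T hT

/-- **COV**      (helper51: compiled glue `l8t_cov_of`).      TEX[LL:prop:statistics-high]
FIELD -> SOURCE: all fields of the record = `l8hf_cov_hyp` (`L08/HiFin.lean`) at `I.HiIn`;   `HiIn.base` = `l8t_hib` (`exit_d11`, `l8hs_clk`, numerics);   `eb, vv, ph_low, ls`, `1 ≤ Zc` = `l8t_ls` ((D16));   `K_vv`: `Clk.K_le`, `x^ai ≤ v0`;
`Pol`: `l8t_num_pol` (`λ = x^p_*`, `v(ti) ≥ x^ai`);   `EA = CA / m ≤ 2 CA x^6`;   `etaT ≤ x^7`: `l8t_num_etaT`;   `DH = 2`: `l8t_Dd_le`. -/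
theorem l8t_cov (T : ℝ) (hT : 1 < T) : L8tCov llBase T := l8t_cov_of T hT (l8t_ls T hT)

/-- **LONG from LOW** (glue): `l8hf_long_hyp` at the base inputs `l8t_hib`, the mass integrals `l8hf_Ri`, `l8hf_IJ` with the cutoff `V_0 = x^a0`, numerics `l8t_num_ri`, then `L8HLong.mono` -/
theorem l8t_long_of (T : ℝ) (hT : 1 < T) (hlow : L8tLow llBase T) : L8tLong llBase T := by
  intro F0 hF pB c hpB hc
  obtain ⟨C2, k2, hC2, H2⟩ := l8ha_h2
  obtain ⟨pl, hpl, hlow⟩ := hlow F0 hF pB hpB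
  obtain ⟨p0, hp0, hp01, hb⟩ := l8t_hib T hT F0 hF pB hpB
  refine ⟨min 1 (c / 4), by positivity, ?_⟩
  intro a0 ha0 ha0'
  have ha01 : a0 ≤ 1 := ha0'.trans (min_le_left _ _)
  have ha0c : 4 * a0 ≤ c := by have := ha0'.trans (min_le_right _ _); linarith
  refine ⟨1, one_pos, ?_⟩
  intro a1 ha1 _
  refine ⟨min p0 pl, lt_min hp0 hpl, (min_le_left _ _).trans hp01, ?_⟩
  intro pS hpS hpS' ε hε
  obtain ⟨cK, CK, v0, C11, hcK, hCK, hv0, hb⟩ := hb pS hpS (hpS'.trans (min_le_left _ _))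
  have hk2 : (0 : ℝ) < (k2 : ℝ) + 2 := by positivity
  set ε' : ℝ := min 1 (ε / ((k2 : ℝ) + 2)) with hε'd
  have hε' : 0 < ε' := lt_min one_pos (by positivity)
  have hε'ε : ((k2 : ℝ) + 2) * ε' ≤ ε := by
    have := mul_le_mul_of_nonneg_left (min_le_right 1 (ε / ((k2 : ℝ) + 2))) hk2.le
    rwa [mul_div_cancel₀ _ hk2.ne'] at this
  have hε'le : ε' ≤ ε := by nlinarith [Nat.cast_nonneg (α := ℝ) k2]
  obtain ⟨Nb, Eb⟩ := hb ε' hε' (min_le_left _ _)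
  have hCK0 : 0 ≤ CK := by linarith
  obtain ⟨vl, hvl, hlow⟩ := hlow pS hpS (hpS'.trans (min_le_right _ _))
  obtain ⟨Cl, Nl, hCl, El⟩ := hlow CK ε' hCK0 hε'
  obtain ⟨CQ, CA, Cd, hCA, HL⟩ := l8hf_long_hyp hC2 H2 l8tK CK
  have hvm : 0 < min v0 vl := lt_min hv0 hvl
  obtain ⟨Nv, _, Lv⟩ := l8t_large (1 / min v0 vl) a0 ha0
  set K : ℝ := CK * Cl ^ 2 + 2 * CK + 4 with hK
  have hK0 : 0 ≤ K := by positivity
  set C : ℝ := max (max 1 CK) (max (2 * CA) (max (C2 * 4 ^ k2 * K) K)) with hC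
  have hC1 : 1 ≤ C := (le_max_left _ _).trans (le_max_left _ _)
  have hCCK : CK ≤ C := (le_max_right _ _).trans (le_max_left _ _)
  have hCCA : 2 * CA ≤ C := (le_max_left _ _).trans (le_max_right _ _)
  have hCR : C2 * 4 ^ k2 * K ≤ C := ((le_max_left _ _).trans (le_max_right _ _)).trans (le_max_right _ _)
  have hCK' : K ≤ C := ((le_max_right _ _).trans (le_max_right _ _)).trans (le_max_right _ _)
  refine ⟨CK, CQ, CA, Cd, 1, C, cK, max (max Nb Nl) Nv, by linarith, hcK, ?_⟩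
  refine l8t_ev_mono' (Eb.and El) (le_max_left _ _) ?_
  rintro I hIF hI hN hs ⟨⟨hB, hT7⟩, hZ, e, he0, hl1, hl2, hl3⟩
  intro t1 ht1
  obtain ⟨ha, hx0, hx1, hlam, hm, hm6, hvn⟩ := l8t_elem I hI hs
  have hlam' : I.lam = I.x ^ pS := by rw [hlam, hIF]; rfl
  have hxa0 : 0 < I.x ^ a0 := Real.rpow_pos_of_pos hx0 _
  have hxav : I.x ^ a0 ≤ min v0 vl := by
    have h1 : 1 / min v0 vl ≤ I.x ^ (-a0) := Lv _ (le_trans (le_max_right _ _) hN)
    rw [Real.rpow_neg hx0.le, ← one_div] at h1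
    exact (one_div_le_one_div hvm hxa0).mp h1
  obtain ⟨-, -, -, -, -, -, -, hdv0, -, -, hb0, -, -, -⟩ := l8hf_basic I hI hs hB.clk.adm
  have hok : (I.X false).Ok I.a := l8ha_ok I.m (by rw [ha]; norm_num) hB.clk.adm none
  obtain ⟨Bk, HH⟩ := HL I t1 l8tK cK v0 _ C11 2 hB (fun t _ ht => l8t_Dd_le hok (Nat.le_succ_of_le ht))
  have hZg : 1 ≤ I.Zg c := le_max_left _ _
  have hW0 : 0 ≤ I.Zc llDStar ^ 2 + I.Zg c := by positivity
  -- the low region below the cutoff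
  have hE1 : ∑ t ∈ (Finset.range (I.n + 1)).filter (fun t => I.v t < I.x ^ a0), I.dv t * e t ≤ Cl * I.x ^ (2 - pS - ε') * I.Zc llDStar ^ 2 := by
    refine le_trans (Finset.sum_le_sum_of_subset_of_nonneg ?_ fun t _ _ => mul_nonneg (hdv0 t) (he0 t)) hl3
    intro t ht
    rw [Finset.mem_filter] at ht ⊢
    exact ⟨ht.1, ht.2.le.trans (hxav.trans (min_le_right _ _))⟩
  have hRi := l8hf_Ri I hB c (I.x ^ a0) (Cl * I.x ^ (-ε')) _ e hxa0 (hxav.trans (min_le_left _ _))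
    (fun t ht hv => by
      refine le_trans ?_ (hl1 t ht (hv.le.trans (hxav.trans (min_le_right _ _))))
      have h1 : |I.bC t * I.f t| ≤ CK * |I.f t| := by
        rw [abs_mul, abs_of_nonneg (hb0 t)]
        exact mul_le_mul_of_nonneg_right (hB.clk.b_le t) (abs_nonneg _)
      exact (abs_add_le _ _).trans (by linarith))
    (mul_nonneg hCl (Real.rpow_pos_of_pos hx0 _).le) he0 hE1
  have hIJ := l8hf_IJ I hB c (I.x ^ a0) (Cl * I.x ^ (-ε')) _ e hxa0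
    (fun t ht hv => hl2 t ht (hv.le.trans (hxav.trans (min_le_right _ _))))
    (mul_nonneg hCl (Real.rpow_pos_of_pos hx0 _).le) he0 hE1
  obtain ⟨n1, n2⟩ := l8t_num_ri (Cl := Cl) (c := c) (k2 := k2) hx0 hx1.le hZ hZg hCK0 hC2.le ha0 ha01 ha0c hpS hε' hε'ε
  refine ⟨_, _, _, Bk, _, _, HH.mono ?_ hT7 le_rfl le_rfl le_rfl, ?_, ?_, ?_⟩
  · have h1 : CA / (I.m : ℝ) = CA * (1 / (I.m : ℝ)) := by ring
    rw [h1]
    have h2 := mul_le_mul_of_nonneg_left hm6 hCA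
    have h3 : 2 * CA * I.x ^ 6 ≤ C * I.x ^ 6 := mul_le_mul_of_nonneg_right hCCA (pow_pos hx0 _).le
    linarith
  · intro r hr1 hr
    have hvr : I.x ^ a1 ≤ I.v r := (ht1 r hr).mp hr1
    refine ⟨?_, ?_, ?_⟩
    · refine le_trans ?_ (hB.clk.gap r hr)
      have e1 : I.x ^ (pS + 2 * a1) = I.x ^ pS * (I.x ^ a1) ^ 2 := by
        rw [Real.rpow_add hx0, ← Real.rpow_natCast (I.x ^ a1) 2, ← Real.rpow_mul hx0.le]
        congr 2; push_cast; ring
      rw [e1, hlam', mul_assoc]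
      have : (I.x ^ a1) ^ 2 ≤ I.v r ^ 2 := pow_le_pow_left₀ (Real.rpow_pos_of_pos hx0 _).le hvr 2
      exact mul_le_mul_of_nonneg_left (mul_le_mul_of_nonneg_left this (Real.rpow_pos_of_pos hx0 _).le) hcK.le
    · rw [abs_of_nonneg (hB.clk.G_nonneg r hr)]
      exact (hB.clk.G_le r hr).trans hCCK
    · refine (hB.clk.d_le r hr).trans ?_
      have e3 : I.x ^ (-ε') * I.x ^ 3 = I.x ^ (3 - ε') := by
        rw [← Real.rpow_natCast I.x 3, ← Real.rpow_add hx0]; congr 1; push_cast; ring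
      rw [e3]
      calc I.x ^ (3 - ε') ≤ I.x ^ (3 - ε) := l8t_rle hx0 hx1.le (by linarith)
        _ ≤ C * I.x ^ (3 - ε) := le_mul_of_one_le_left (Real.rpow_pos_of_pos hx0 _).le hC1
  · have h0 : 0 ≤ C2 * max 4 (I.x ^ (-ε')) ^ k2 := by positivity
    refine (mul_le_mul_of_nonneg_left hRi h0).trans (n1.trans ?_)
    rw [mul_assoc, mul_assoc C]
    exact mul_le_mul_of_nonneg_right hCR (mul_nonneg (Real.rpow_pos_of_pos hx0 _).le hW0)
  · refine hIJ.trans (n2.trans ?_)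
    rw [mul_assoc, mul_assoc C]
    exact mul_le_mul_of_nonneg_right hCK' (mul_nonneg (Real.rpow_pos_of_pos hx0 _).le hW0)

/-- OWNER: helper221 (cut), fields: adapters helper57 (`L08/HiAd.lean`), helper20 / helper177 (`exit_pair_long`), (D11) helper163, low region helper75 / helper37.      TEX[LL:prop:statistics-high]
FIELD -> SOURCE:   `ok, msk, b_bd, J_tail, a7, quo` as in `l8t_cov` (tested pair `(0,1)`, test `1`);   `sum_zero`, `q_ref`: `rfl`;   `ph_bd`: (D11) + `d` small;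
 `h2`: `exit_pair_long` (`Gp = pkX2 4 LP`, `mu t = I.dv t`, `Bk = - B`), `kk t = Λ^k K_t` with `Λ = max 4 K_top ≤ C log³(1/x)`, `CB` = the absolute constant;   `mu_sum`: telescoping;   `dens`: `tr_split_density` (`Fd/TrA4`);
 gap: `LlRef.gap_lo` / (P5) at `v ≥ x^a1` + `pkX2` link;   `|Gp| ≤ C`;   `|d| ≤ C x^(3-ε)`: `Fine.d_link` + (P6) (`χ_e = 0`);
 `Ri`: `∑ dv K |b f + d|`: `u < x^a0`: `K ≤ C u`, dyadic (D1) (`Num.d1`) and the raw bound below `U`: `≤ C x^(-ε) x^a0 Yc²`;   `u ≥ x^a0`: Cauchy-Schwarz with `∫ v² A ≤ x^(4+c) Zg²` (definition of `Zg`): `≤ x^(2 + c/2 - a0) Zg`;   `Yc² ≤ x^(2 - p_*) Zc²`;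
 `IJ`: `‖J‖₂ ≤ bb ‖Q - q‖₂ + |d|`: low part `‖Q - q‖₂ ≤ A e` (`Rnd.ref_Q`), `∫ e ≤ C x^(-ε) Yc²` (`Env.bud`, `Env.low`); high part as for `Ri`. -/
theorem l8t_long (T : ℝ) (hT : 1 < T) : L8tLong llBase T := l8t_long_of T hT (l8t_low T hT)

/-- **(D15)** -/
theorem exit_d15 (T : ℝ) (hT : 1 < T) : L8xD15 llBase T :=
  l8t_d15 l8h_cov l8hl_long (l8t_basic T hT) (l8t_cov T hT) (l8t_long T hT)

end Claimed.Agent.R286
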