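import Claimed.Agent.R286.Defs.L9Pre
import Claimed.Agent.R286.Exit.D15
import Claimed.Agent.R286.L08.Glue

/-!
# Row 286 (S0533), file Exit/D15G: THE EXIT (D15) IN THE FORM `LLGood`      (helper59; prefix `l9hm`, `L8In.D15`)

`exit_d15 : L8xD15 llBase T` has the order `c | C_H | a_0 | b_H | a_1 | a_2 | p_*` with NESTED thresholds.      `LLPar` (242) has the fields `cC .. CH CL | a0 bH a1 a2 pStar` in the same order, so the exit is a statement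
`LLGood fun par => ∃ N0, L8Ev (l9qF F0 par) llBase N0 l8Siz fun I => I.D15 par.cC par.a1 par.a2 par.bH par.CH`      (`l9hm_d15`; the loss `C_H` may be increased: `L8In.D15.mono_CH`).
CONSUMER: node HI of LL 09 (`exit_l9_hiNumS`, `L09/BndExit.lean`).
-/

set_option autoImplicit false

namespace Claimed.Agent.R286

open Filter

/-- the three conclusions of (D15) at one instance -/
def L8In.D15 (I : L8In) (c a1 a2 bH CH : ℝ) : Prop :=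
  (∀ k ≤ I.n, I.x ^ a1 ≤ I.v k → |I.f k| ≤ I.x ^ (2 + bH) * (I.Zc llDStar ^ 2 + I.Zg c)) ∧
  (∀ k ≤ I.n, I.x ^ a1 ≤ I.v k → I.D2 k ≤ (I.x ^ (3 - CH * a1) * I.Zc llDStar ^ 2) ^ 2) ∧
  (∀ k ≤ I.n, I.x ^ a2 ≤ I.v k → I.D2 k ≤ (I.x ^ (3 - CH * a2) * I.Zc llDStar ^ 2) ^ 2)

theorem l9hm_x (I : L8In) (hok : I.Ok) : 0 < I.x ∧ I.x ≤ 1 := by
  have hN : (1 : ℝ) ≤ I.p.N := by have := hok.pt.N2; exact_mod_cast (by omega : 1 ≤ I.p.N)
  exact ⟨Real.rpow_pos_of_pos (by linarith) _, Real.rpow_le_one_of_one_le_of_nonpos hN (by norm_num)⟩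

/-- the loss `C_H` may be increased -/
theorem L8In.D15.mono_CH {I : L8In} (hok : I.Ok) {c a1 a2 bH CH CH' : ℝ} (h : I.D15 c a1 a2 bH CH) (ha1 : 0 ≤ a1) (ha2 : 0 ≤ a2) (hC : CH ≤ CH') :
    I.D15 c a1 a2 bH CH' := by
  obtain ⟨hx, hx1⟩ := l9hm_x I hok
  have key : ∀ a : ℝ, 0 ≤ a → (I.x ^ (3 - CH * a) * I.Zc llDStar ^ 2) ^ 2 ≤ (I.x ^ (3 - CH' * a) * I.Zc llDStar ^ 2) ^ 2 := by
    intro a ha
    refine pow_le_pow_left₀ (mul_nonneg (Real.rpow_nonneg hx.le _) (sq_nonneg _)) ?_ 2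
    refine mul_le_mul_of_nonneg_right ?_ (sq_nonneg _)
    exact Real.rpow_le_rpow_of_exponent_ge hx hx1 (by nlinarith)
  exact ⟨h.1, fun k hk hv => (h.2.1 k hk hv).trans (key a1 ha1), fun k hk hv => (h.2.2 k hk hv).trans (key a2 ha2)⟩

/-- **(D15) in the form `LLGood`** -/
theorem l9hm_d15 (T : ℝ) (hT : 1 < T) (F0 : LlFix) (h0 : L8Fix llBase T F0) (hG : LlcG1Exit llBase T) :
    LLGood fun par => ∃ N0 : ℕ, L8Ev (l9qF F0 par) llBase N0 l8Siz fun I => I.D15 par.cC par.a1 par.a2 par.bH par.CH := by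
  refine l9q_of_stB hG h0 fun pB hSt => ?_
  rw [l9q_FilB_iff, l9q_FC_iff]
  filter_upwards [l9q_small one_pos] with cC hcC
  obtain ⟨CH0, t0, -, ht0, H⟩ := exit_d15 T hT F0 h0 pB cC hSt hcC.1
  refine .of_forall fun _ => .of_forall fun _ => .of_forall fun _ => ?_
  filter_upwards [eventually_ge_atTop CH0] with CH hCH
  refine .of_forall fun _ => ?_
  intro pC e1 _ _ _ e5 _ eB
  rw [l9q_FilC_iff, l9q_FD_iff]
  refine (l9q_evS_iff _).2 ⟨t0, ht0, fun a0 ha0 ha0' => ?_⟩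
  obtain ⟨tH, htH, H⟩ := H a0 ha0 ha0'
  refine (l9q_evS_iff _).2 ⟨tH, htH, fun bH hb hb' => ?_⟩
  obtain ⟨t1, ht1, H⟩ := H bH hb hb'
  refine (l9q_evS_iff _).2 ⟨t1, ht1, fun a1 ha1 ha1' => ?_⟩
  obtain ⟨t2, ht2, H⟩ := H a1 ha1 ha1'
  refine (l9q_evS_iff _).2 ⟨t2, ht2, fun a2 ha2 ha2' => ?_⟩
  obtain ⟨tp, htp, H⟩ := H a2 ha2 ha2'
  refine (l9q_evS_iff _).2 ⟨tp, htp, fun pS hp hp' => ?_⟩
  obtain ⟨N0, H⟩ := H pS hp hp'
  intro pD _ d2 d3 d4 d5 eC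
  filter_upwards [l9q_FilD_to pD] with par e
  subst e
  subst eC
  subst eB
  subst e1 e5 d2 d3 d4 d5
  exact ⟨N0, L8Ev.mono H le_rfl fun I hok h => L8In.D15.mono_CH hok h ha1.le ha2.le hCH⟩

theorem l9hm_eqns_cite : True := by
  have := @L8In.D15.eq_1
  trivial

end Claimed.Agent.R286
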