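-- KEEP
import Claimed.Agent.R286.L08.LsT2I

/-!
# Row 286 (S0533), EXIT `D16b`      typed + glued by helper71 (post of 136; form agreed with helper225, owner of (D16) conclusion 2);   layers: A helper297 (`L08/LsLk2`, `L08/LsT2`), B helper225 / helper71 / helper280 (`L08/LsT3`), C helper225 (`L08/LsT2I`), numerics helper280

TEX[LL:lem:statistics-low-sources] TEX[LL:eq:D16]
**(D16), SECOND conclusion: low sources, tilted minus untilted, on the stop**, on the smoothed size paths.      POINTWISE form (ONE instance `I : L8In`, no `L8Ev`): the envelope `e` of `exit_dlow` is UNIVERSAL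
(the consumer HI needs ONE envelope for `HiNum` and `HiLS`), the constant `K` depends only on the bounds `dmax` (number of low factors), `kmax` (number of new labels).

    exit_d16b      :  I.All e A Yc 1 .. + stop + L8lqNum (numerical conditions of 59)  ⟹  ∀ n ≤ dmax, k ≤ kmax,  L8_LS2 (I.X false) (I.X true) ti (min 1 (A' |e|)) (v / a) k n (K (I.l8lrG .. + η))
    exit_d16b_num  :  the same with the numbers of 59 / 280 plugged in: bound `K C x^(3 - ε - κ p_*) Zc²`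
    exit_d16b_env  :  the same envelope dominates the deterministic low factors: `Cb |f| + |d| ≤ eb` on the low levels, `0 ≤ eb ≤ 1`, `v ≤ 4 vv`      (mirror of `l8lq_one`)
CONSUMER: `L09/HiLS.lean` (225: bridge `L8_LS2 ⟹ L9hiLS`), then `L9hiNumS` (235, 59).
-/

set_option autoImplicit false

namespace Claimed.Agent.R286

open MeasureTheory Finset

/-- the low levels below the threshold `x^ai`: index, mass, envelope      (first part of `l8lq_one`, 59) -/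
theorem l8lr_low (I : L8In) (hI : I.Ok) (hs : l8Siz I.p) (hadm : LlStpAdm I.a I.LP)
    {e : ℕ → ℝ} {A v0 cE : ℝ} (henv : I.Env e A (I.Yc llDStar) v0 cE)
    {A1 A' ai Cb eta : ℝ} {pm : ℕ} (hA : |A| ≤ A1) (hCb : 0 ≤ Cb) (hN : L8lqNum I A1 A' v0 ai Cb eta pm) {ti : ℕ} (hti : I.Thr (I.x ^ ai) ti) :
    ti ≤ I.n ∧ 2 * A1 ≤ A' ∧ I.Yc llDStar ≤ min 1 v0 ∧ (∀ l < ti, I.v l ≤ min 1 v0) ∧ ∀ l < ti, A' * e l ≤ 1 := by
  obtain ⟨hx, hx1⟩ := I.l8lq_x_pos hI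
  have hP := I.l8lq_ok hI hs hadm
  have ha : I.a = 4 := I.l8lq_a_eq hs
  have hUpos : 0 < I.U := lt_min one_pos (mul_pos hx (Real.rpow_pos_of_pos hN.hl _))
  have hYc := l8lq_Yc_le I hUpos
  have hA1 := hN.hA1
  have hA'2 : 2 * A1 ≤ A' := by nlinarith [hN.hA']
  have hA'0 : 0 < A' := by linarith
  have hvn : I.v I.n = I.a := hP.v_term I.n (le_of_eq I.l8lq_n)
  have hxa : I.x ^ ai ≤ 1 := hN.hV.trans (min_le_left _ _)
  have htin : ti ≤ I.n := (hti I.n le_rfl).2 (by rw [hvn, ha]; linarith)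
  have hlow : ∀ l, l < ti → l ≤ I.n ∧ I.v l < I.x ^ ai := by
    intro l hl
    have hl' : l ≤ I.n := by omega
    refine ⟨hl', ?_⟩
    by_contra hc
    have := (hti l hl').2 (not_lt.1 hc)
    omega
  have hv0 : ∀ l, 0 ≤ I.v l := hP.v_nonneg
  refine ⟨htin, hA'2, hYc.trans hN.hY, fun l hl => (hlow l hl).2.le.trans hN.hV, ?_⟩
  intro l hl
  obtain ⟨hl', hv⟩ := hlow l hl
  by_cases hc : I.v l ≤ I.Yc llDStar
  · rw [henv.low l hl' hc]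
    exact (mul_le_mul_of_nonneg_left hYc hA'0.le).trans hN.hlY
  · have h1 := henv.hi l hl' (not_le.1 hc).le
    have h2 : A * I.v l ≤ A1 * I.x ^ ai :=
      (l8lq_lin_le hA (hv0 l)).trans (mul_le_mul_of_nonneg_left hv.le (by linarith))
    exact (mul_le_mul_of_nonneg_left (h1.trans h2) hA'0.le).trans hN.hlV

/-- **(D16), second conclusion, at ONE instance**, gain in the form `l8vG` -/
theorem l8lr_one (dmax kmax : ℕ) (hd : 1 ≤ dmax) : ∃ K : ℝ, 0 ≤ K ∧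
    ∀ (I : L8In) (e : ℕ → ℝ) (A v0 v1 cE εs qs η' A1 A' ai Cb eta : ℝ) (pm jm ti : ℕ) (hI : I.Ok), l8Siz I.p → I.Fine η' → ∀ (hZ : 1 ≤ I.Zc llDStar),
      I.All e A (I.Yc llDStar) 1 v0 v1 cE εs qs pm jm → I.s = qs * I.x ^ (1 + εs) → I.Stop (I.x ^ εs) → |A| ≤ A1 → 0 ≤ Cb →
      ∀ (hN : L8lqNum I A1 A' v0 ai Cb eta pm), dmax ≤ pm → dmax ≤ jm → I.Thr (I.x ^ ai) ti →
      ∀ n ≤ dmax, ∀ k ≤ kmax, L8_LS2 (I.X false) (I.X true) ti (fun l => min 1 (A' * |e l|)) (fun l => I.v l / I.a) k n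
        (K * (l8vG (I.l8lqS (I.l8lq_x_pos hI).1 hN.hl hZ) ⟨e, I.q, A1, A', min 1 v0, eta, 7 / 3, pm, dmax, ti⟩ + eta)) := by
  choose Kf hKf0 hKf using fun kn : ℕ × ℕ => l8v_ls2 kn.1 kn.2
  set Kt : ℝ := ∑ kn ∈ range (kmax + 1) ×ˢ range (dmax + 1), Kf kn with hKt
  have hKt0 : 0 ≤ Kt := Finset.sum_nonneg fun kn _ => hKf0 kn
  have hKle : ∀ k n, k ≤ kmax → n ≤ dmax → Kf (k, n) ≤ Kt := fun k n hk hn =>
    Finset.single_le_sum (f := Kf) (fun i _ => hKf0 i)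
      (Finset.mem_product.2 ⟨Finset.mem_range.2 (Nat.lt_succ_of_le hk), Finset.mem_range.2 (Nat.lt_succ_of_le hn)⟩)
  refine ⟨Kt, hKt0, ?_⟩
  intro I e A v0 v1 cE εs qs η' A1 A' ai Cb eta pm jm ti hI hs hfin hZ hAll hst hstop hA hCb hN hdp hdj hti n hn k hk
  obtain ⟨htin, hA'2, hY, hlv, hle⟩ := l8lr_low I hI hs hfin.adm hAll.env hA hCb hN hti
  have hS := l8d_std hI hfin
  have ha : I.a = 4 := I.l8lq_a_eq hs
  have B := l8v_B_of_all I hI hs hfin hAll hst hstop (I.l8lq_x_pos hI).1 hN.hl hZ hN.hU hN.hl1 hN.hs0 hN.he0 hA hN.hA1 hA'2 (hd.trans hdj) hY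
    (by omega : ti ≤ I.n + 1) hlv hle hN.htail hd hdp hdj
  have h := hKf (k, n) I _ _ jm hS (by rw [ha]) B hn
  have hF := l8v_fit I hS B k n hn
  have hG0 : 0 ≤ l8vG (I.l8lqS (I.l8lq_x_pos hI).1 hN.hl hZ) ⟨e, I.q, A1, A', min 1 v0, eta, 7 / 3, pm, dmax, ti⟩ :=
    (l8t_gain_nonneg hF.ok).trans hF.hg
  have he0 : 0 ≤ eta := le_trans ((even_two_mul pm).pow_nonneg _) hN.htail
  intro t0 h1 h2 Sto Det c d w g1 g2 g3 g4 g5 g6 g7
  exact (h t0 h1 h2 Sto Det c d w g1 g2 g3 g4 g5 g6 g7).trans (mul_le_mul_of_nonneg_right (hKle k n hk hn) (add_nonneg hG0 he0))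

/-- **the envelope of (D16)** dominates the deterministic low factors      (second part of `l8lq_one`, 59) -/
theorem exit_d16b_env (I : L8In) (hI : I.Ok) (hs : l8Siz I.p) (hadm : LlStpAdm I.a I.LP)
    {e : ℕ → ℝ} {A v0 cE : ℝ} (henv : I.Env e A (I.Yc llDStar) v0 cE)
    {A1 A' ai Cb eta : ℝ} {pm : ℕ} (hA : |A| ≤ A1) (hCb : 0 ≤ Cb) (hN : L8lqNum I A1 A' v0 ai Cb eta pm) {ti : ℕ} (hti : I.Thr (I.x ^ ai) ti) :
    (∀ t, 0 ≤ min 1 (A' * |e t|)) ∧ (∀ t, min 1 (A' * |e t|) ≤ 1) ∧ (∀ t, 0 ≤ I.v t / I.a) ∧ (∀ t, I.v t ≤ 4 * (I.v t / I.a)) ∧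
      (∀ t, t < ti → min 1 (A' * |e t|) = A' * e t) ∧ ∀ t, t < ti → Cb * |I.f t| + |I.d t| ≤ min 1 (A' * |e t|) := by
  obtain ⟨hx, hx1⟩ := I.l8lq_x_pos hI
  obtain ⟨htin, hA'2, hY, hlv, hle⟩ := l8lr_low I hI hs hadm henv hA hCb hN hti
  have hP := I.l8lq_ok hI hs hadm
  have ha : I.a = 4 := I.l8lq_a_eq hs
  have hA1 := hN.hA1
  have hA'0 : 0 < A' := by linarith
  have hv0 : ∀ l, 0 ≤ I.v l := hP.v_nonneg
  have hepos : ∀ k ≤ I.n, 0 < e k := fun k hk => lt_of_lt_of_le (Real.rpow_pos_of_pos hx _) (henv.lo k hk)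
  have heb : ∀ t, t < ti → min 1 (A' * |e t|) = A' * e t := fun t ht => by
    rw [abs_of_pos (hepos t (by omega))]
    exact min_eq_right (hle t ht)
  refine ⟨fun t => le_min zero_le_one (mul_nonneg hA'0.le (abs_nonneg _)), fun t => min_le_left _ _,
    fun t => div_nonneg (hv0 t) (by rw [ha]; norm_num), fun t => by rw [ha]; linarith, heb, ?_⟩
  intro t ht
  have ht' : t ≤ I.n := by omega
  rw [heb t ht]
  have he := (hepos t ht').le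
  have hvt : I.v t ≤ v0 := (hlv t ht).trans (min_le_right _ _)
  have h1 : |I.f t| ≤ A1 * e t := (henv.f_le t ht' hvt).trans (l8lq_lin_le hA he)
  have hmax : max (I.v t) (I.Yc llDStar) ≤ 1 := max_le ((hlv t ht).trans (min_le_left _ _)) (hY.trans (min_le_left _ _))
  have hmax0 : 0 ≤ max (I.v t) (I.Yc llDStar) := le_max_of_le_left (hv0 t)
  have hc1 : I.lam * max (I.v t) (I.Yc llDStar) ^ 2 ≤ 1 := mul_le_one₀ hN.hl1 (sq_nonneg _) (pow_le_one₀ hmax0 hmax)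
  have h2 : |I.d t| ≤ A1 * e t := by
    have h3 := henv.d_le t ht' hvt
    have h4 : A * I.lam * max (I.v t) (I.Yc llDStar) ^ 2 * e t ≤ A1 * (I.lam * max (I.v t) (I.Yc llDStar) ^ 2 * e t) := by
      have := l8lq_lin_le hA (c := I.lam * max (I.v t) (I.Yc llDStar) ^ 2 * e t) (mul_nonneg (mul_nonneg hN.hl.le (sq_nonneg _)) he)
      calc A * I.lam * max (I.v t) (I.Yc llDStar) ^ 2 * e t = A * (I.lam * max (I.v t) (I.Yc llDStar) ^ 2 * e t) := by ring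
        _ ≤ _ := this
    have h5 : I.lam * max (I.v t) (I.Yc llDStar) ^ 2 * e t ≤ e t := by
      calc I.lam * max (I.v t) (I.Yc llDStar) ^ 2 * e t ≤ 1 * e t := mul_le_mul_of_nonneg_right hc1 he
        _ = e t := one_mul _
    have h6 : A1 * (I.lam * max (I.v t) (I.Yc llDStar) ^ 2 * e t) ≤ A1 * e t := mul_le_mul_of_nonneg_left h5 (by linarith)
    have h7 := abs_nonneg (I.dd t)
    linarith
  have h8 : Cb * |I.f t| ≤ Cb * (A1 * e t) := mul_le_mul_of_nonneg_left h1 hCb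
  have h9 : (Cb + 2) * A1 * e t ≤ A' * e t := mul_le_mul_of_nonneg_right hN.hA' he
  have h10 : 0 ≤ A1 * e t := mul_nonneg (by linarith) he
  nlinarith

/-- **(D16), SECOND CONCLUSION, at ONE instance**: `e` universal, `K` depends on `(dmax, kmax)` only; numbers not yet chosen -/
theorem exit_d16b (dmax kmax : ℕ) (hd : 1 ≤ dmax) : ∃ K : ℝ, 0 ≤ K ∧
    ∀ (I : L8In) (e : ℕ → ℝ) (A v0 v1 cE εs qs η' A1 A' ai Cb eta : ℝ) (pm jm ti : ℕ), I.Ok → l8Siz I.p → I.Fine η' → 1 ≤ I.Zc llDStar →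
      I.All e A (I.Yc llDStar) 1 v0 v1 cE εs qs pm jm → I.s = qs * I.x ^ (1 + εs) → I.Stop (I.x ^ εs) → |A| ≤ A1 → 0 ≤ Cb →
      L8lqNum I A1 A' v0 ai Cb eta pm → dmax ≤ pm → dmax ≤ jm → I.Thr (I.x ^ ai) ti →
      ∀ n ≤ dmax, ∀ k ≤ kmax, L8_LS2 (I.X false) (I.X true) ti (fun l => min 1 (A' * |e l|)) (fun l => I.v l / I.a) k n
        (K * (I.l8lrG A1 A' v0 eta dmax + eta)) := by
  obtain ⟨K, hK, H⟩ := l8lr_one dmax kmax hd
  refine ⟨K, hK, ?_⟩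
  intro I e A v0 v1 cE εs qs η' A1 A' ai Cb eta pm jm ti hI hs hfin hZ hAll hst hstop hA hCb hN hdp hdj hti n hn k hk
  have h := H I e A v0 v1 cE εs qs η' A1 A' ai Cb eta pm jm ti hI hs hfin hZ hAll hst hstop hA hCb hN hdp hdj hti n hn k hk
  rwa [l8lr_G_eq I hN.hU] at h

/-- **(D16), SECOND CONCLUSION, at ONE instance, numbers chosen** (59 / 280): source loss `|A| ≤ C1 x^(-θ)`, truncation `A' = (Cb + 2) C1 x^(-2θ)`, tail `x^8`;
`θ ≤ min (ε / (20 + 2 dmax)) (a_i / 40) (δ_* / 40)`, `pm ≥ 4 / θ`, `N` large (`hbig`).      Bound `K C x^(3 - ε - κ p_*) Zc²`, `κ = s_* + 1 + η`. -/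
theorem exit_d16b_num (dmax kmax : ℕ) (hd : 1 ≤ dmax) : ∃ K : ℝ, 0 ≤ K ∧
    ∀ (I : L8In) (e : ℕ → ℝ) (A v0 v1 cE εs qs η' θ ε ai Cb C1 : ℝ) (pm jm ti : ℕ), I.Ok → l8Siz I.p → I.Fine η' → 1 ≤ I.Zc llDStar →
      I.All e A (I.Yc llDStar) 1 v0 v1 cE εs qs pm jm → I.s = qs * I.x ^ (1 + εs) → I.Stop (I.x ^ εs) → |A| ≤ C1 * I.x ^ (-θ) → 0 ≤ Cb → 1 ≤ C1 → 0 < v0 →
      0 < I.F.pS → I.F.pS ≤ 1 → 0 ≤ I.F.sS → I.F.sS ≤ 1 → 0 ≤ I.F.eta →
      0 < θ → (20 + 2 * (dmax : ℝ)) * θ ≤ ε → 40 * θ ≤ ai → 40 * θ ≤ llDStar → 8 ≤ 2 * (pm : ℝ) * θ → 1 / min 1 v0 + (Cb + 2) * C1 ^ 2 ≤ I.x ^ (-θ) →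
      dmax ≤ pm → dmax ≤ jm → I.Thr (I.x ^ ai) ti →
      L8lqNum I (C1 * I.x ^ (-θ)) ((Cb + 2) * (C1 * I.x ^ (-θ)) * I.x ^ (-θ)) v0 ai Cb (I.x ^ 8) pm ∧
      ∀ n ≤ dmax, ∀ k ≤ kmax, L8_LS2 (I.X false) (I.X true) ti (fun l => min 1 ((Cb + 2) * (C1 * I.x ^ (-θ)) * I.x ^ (-θ) * |e l|)) (fun l => I.v l / I.a) k n
        (K * (l8lrC dmax θ Cb C1 * I.x ^ (3 - ε - (I.F.sS + (1 + I.F.eta)) * I.F.pS) * I.Zc llDStar ^ 2)) := by
  obtain ⟨K, hK, H⟩ := exit_d16b dmax kmax hd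
  refine ⟨K, hK, ?_⟩
  intro I e A v0 v1 cE εs qs η' θ ε ai Cb C1 pm jm ti hI hs hfin hZ hAll hst hstop hA hCb hC1 hv0 hp0 hp1 hs0 hs1 het hθ hθε hθa hθd hpm hbig hdp hdj hti
  have hN := l8lq_num_ok I hI hs hp0 hp1 hs0 hs1 het hθ hθa hθd hCb hC1 hv0 hpm hbig
  refine ⟨hN, fun n hn k hk => ?_⟩
  have h := H I e A v0 v1 cE εs qs η' _ _ ai Cb _ pm jm ti hI hs hfin hZ hAll hst hstop hA hCb hN hdp hdj hti n hn k hk
  have hG := l8lr_num_gain I hI hs hp0 hs0 het hZ v0 dmax hθ hθε hCb hC1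
  intro t0 h1 h2 Sto Det c d w g1 g2 g3 g4 g5 g6 g7
  exact (h t0 h1 h2 Sto Det c d w g1 g2 g3 g4 g5 g6 g7).trans (mul_le_mul_of_nonneg_left hG hK)

end Claimed.Agent.R286
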