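-- KEEP
import Claimed.Agent.R286.L08.GlueZ

/-!
# Row 286 (S0533), EXIT `DCS`      typed by helper75 (head of LL 08);   OWNER of the proof: helper228 (coarse part), helper187 (switches);   ADV: helper189

TEX[LL:lem:statistics-coarse-switch]
**Lemma 8.8: coarse paths and multiplier changes**, = `L9Coarse` + `L9Switch` of `L09/Contract.lean` at `l8Mj`.
Vocabulary: `L08/Defs.lean` (instance `L8In`, shape `L8Ev`: `N ≥ N0`, tilt mass, all sufficiently fine chains, then UNIFORMLY all points and sizes); PART 2, 3 of the same file = the statement.
BODY = skeleton `L08/GlueZ.lean` (named sorried steps, plans in the docstrings).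
-/

set_option autoImplicit false

namespace Claimed.Agent.R286

theorem exit_dcs (T : ℝ) (hT : 1 < T) : L8xCS llBase T :=
  l8z_dcs T hT

end Claimed.Agent.R286
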