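-- KEEP
import Claimed.Agent.R286.L08.GlueZ

/-!
# Row 286 (S0533), EXIT `DZ`      typed by helper75 (head of LL 08);   OWNER of the proof: helper246 (from (C1), (C2) = I1 of 162/66);   ADV: helper145

TEX[LL:eq:D1] TEX[LL:rem:statistics-majorants]
**The parameter majorants** `l8Mj c : L9Mj` (ON THE CHAIN, explicit finite sums) = `L9Mom` of `L09/Contract.lean`: measurable in `γ`, `Z ≤ x^(-C)`, `E_γ Z⁴ ≲_∘ 1` on all segments, `E_γ Z_g² ≲ 1` on size paths with a saving `c` fixed before `p_*`.
Vocabulary: `L08/Defs.lean` (instance `L8In`, shape `L8Ev`: `N ≥ N0`, tilt mass, all sufficiently fine chains, then UNIFORMLY all points and sizes); PART 2, 3 of the same file = the statement.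
BODY = skeleton `L08/GlueZ.lean` (named sorried steps, plans in the docstrings).
-/

set_option autoImplicit false

namespace Claimed.Agent.R286

theorem exit_dz (T : ℝ) (hT : 1 < T) : L8xZ llBase T :=
  l8z_dz T hT

end Claimed.Agent.R286
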