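-- KEEP
import Claimed.Agent.R286.Top.Dyad

/-!
# Row 286 (S0533), EXIT `Dyad`      STATEMENT FROZEN by helper207;   OWNER of the proof: helper220 (unit TOP, owner 101)      PROVED, sorry free

**LL Prop. 4.4** (dyadic transform comparison) from the deep part `SkIncr` and the smallness at the bare endpoint.
Proof: `Top/Dyad.lean` (`sk_dyadic`), on `Top/{Boot, Sten, Site, Disc, Seg, SegD, SegS, Sel, Num, DyDef, DySel, DyDir}`.
-/

set_option autoImplicit false

namespace Claimed.Agent.R286

theorem exit_dyad (β : ℝ) (h1 : SkIncr β) (h2 : SkSmall β) : SkDyadic β :=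
  sk_dyadic h1 h2

end Claimed.Agent.R286
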