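-- KEEP
import Claimed.Agent.R286.Top.RedSk
import Claimed.Agent.R286.Top.LcSk

/-!
# Row 286 (S0533), EXIT `Tail`      STATEMENT FROZEN by helper207;   OWNER of the proof: helper129 (+213; second cut 17)

Exit of the log-concave unit T3 (PE Lemmas 7.6, 7.7 + conditional Jensen): exponential tails of `F_n - E F_n` at the scale `sqrt (Var F_n + 1)`.
The owner adds the imports of his files and replaces the `sorry`.  Nobody else edits this file.
-/

set_option autoImplicit false

namespace Claimed.Agent.R286

theorem exit_tail (β : ℝ) : SkTail β :=
  sk_lc_exit_tail β

end Claimed.Agent.R286
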