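-- KEEP
import Claimed.Agent.R286.Prof.Imports
import Claimed.Agent.R286.Exit.ProfCav

/-!
# Row 286 (S0533), EXIT `PfCavOm`      typed by helper196 (head of PE Sec 7 = the consumer);   OWNER of the proof: unit WRAP of PE Sec 4 (helper266, item W4 of helper223's order), with helper54 / helper256 of PE Sec 7
source: PE cavity.tex l.63-66 (statement), l.1127-1200 (proof)

**PE Prop 4.1, omitted lower cuts, in the ultrafilter frame of `Prof/Defs`** (`PfImpCavOm`, `Prof/Imports.lean`): at a direct test with `e(x) = O(x²)` the closure `S_p = Γ(K_p) + O(x³)` holds at EVERY position of mass `≤ Cb x`.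
CONSUMER: `flh_link` (`Fl/Wall.lean`, helper54) = PE Lemma 7.3 (31);  wired in `Fl/Contract.lean` (`fl_link_H`).
ROUTE: (a) converter `PfDir ⟹ CmI.Std, CmI.Loc` (as `flh_inst` of `Fl/Wall.lean` for the wall family);  (b) `exit_cav_om` (`Exit/CavOm.lean`, helper137);
(c) THE BRIDGE `cvGamC n b h p = pfGh n b h τ (pfKp n b h p)` (helper185 + helper102, `Exit/CavGam.lean` + `Sc/Link`), see the header of `Prof/Imports.lean`.
LINKED (helper63, 04:55Z): the SAME statement is `exit_prof_cav_om` (`Exit/ProfCav.lean`, helper256 + helper67): ONE hole only.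
-/

set_option autoImplicit false

namespace Claimed.Agent.R286

/-- TEX[PE:prop:cavity-closure] (omitted lower cuts, U-frame) -/
theorem exit_pf_cav_om (c : P6C) (hc : c.Ok) : PfImpCavOm c :=
  exit_prof_cav_om c hc

end Claimed.Agent.R286
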