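-- KEEP
import Claimed.Agent.R286.Prof.Defs
import Claimed.Agent.R286.Prof.InstMain
import Claimed.Agent.R286.Exit.ScRig
import Claimed.Agent.R286.Exit.ProfCav

/-!
# Row 286 (S0533), EXIT `RigLin`      OWNER helper98 (head of PE Sec 5; unit RIG: helper24);   ADV helper286;   consumer: PE Sec 7 (helper196, Lemma 7.3 (31), fluctuations.tex l.285)
source: PE profile.tex l.364-396

**PE Lemma 5.5 (uniform scalar linearization)**: `sup_{0 ≤ K ≤ Cb x} |Γ(K) - K/T| = O(x³)`, `Γ'(0) = 1/T + O(x²)`, for the scalar recursion with the whole clock `K = h + b S` of the changed path of a direct test.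
`Γ` = `pfG (D k) (lam k) (r k) c.tau` (Prof/Defs): function of the VARIANCE TIME `t`, so clock gaps are included;  `Γ' = E V_zz²` = `pfM2`.
An omitted mass `u0 = o(a)` is allowed, no (4) on the omitted group (`PfDir` has none).      Uniformity "along arbitrary admissible sequences" = the ultrafilter frame.
USE with `PfImpCavOm` (Prof/Imports): `S_p = Γ(K_p) + O(x³)`, `K_p = pfKp .. p`  ⟹  `S_p = K_p/T + O(x³)` at every position of the low band with `K_p ≤ Cb x`.
PROOF (LINKED 04:45Z) = `pfk_rig_lin` (Prof/InstMain, helper166) = `rgw_lin`, `rgw_lin_slope` (Rig/PhyMain) through the same instance as `exit_rig`.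
-/

set_option autoImplicit false

namespace Claimed.Agent.R286

open Filter

/-- TEX[PE:prof:low-clock-linearization] -/
theorem exit_rig_lin (c : P6C) (hc : c.Ok) (U : Ultrafilter ℕ) (D : ℕ → P6D) (lam x : ℕ → ℝ) (r : ℕ → ℝ → ℝ) (c1 C1 C0 : ℝ)
    (h : PfDir U c D lam x r c1 C1 C0) (Cb : ℝ) :
    ∃ CC : ℝ, ∀ᶠ k in U,
      (∀ t : ℝ, 0 ≤ t → t ≤ Cb * x k → |pfG (D k) (lam k) (r k) c.tau t - t / (D k).T| ≤ CC * x k ^ 3) ∧
      |pfM2 (D k).P.n ((D k).Pb (lam k) (r k)) ((D k).Ph (lam k) (r k)) c.tau 0 - 1 / (D k).T| ≤ CC * x k ^ 2 :=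
  pfk_rig_lin c hc exit_sc_rig (exit_prof_cav c hc) U D lam x r c1 C1 C0 h Cb

end Claimed.Agent.R286
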