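-- KEEP
import Claimed.Agent.R286.Top.PeTop
import Claimed.Agent.R286.Fl.Contract

/-!
# Row 286 (S0533), EXIT `Window`      STATEMENT FROZEN by helper207 (typed by 49);   OWNER of the proof: helper196 (PE Sec 7; reader 158; science chief 142)

**PE Prop 7.5** (positive Laplace window): `c n^(20m) ≤ K_n(n^(-1/6+5m)) ≤ C n^(100m)` for all small `m`.      TEX[PE:fl:laplace-window]
The owner adds the imports of his files and replaces the `sorry`.  Nobody else edits this file.
-/

set_option autoImplicit false

namespace Claimed.Agent.R286

theorem exit_window (β : ℝ) (hβ : 1 < β) : SkWindow β :=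
  fl_window β hβ

end Claimed.Agent.R286
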