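-- KEEP
import Claimed.Agent.R286.Top.PeTop
import Claimed.Agent.R286.Exit.Window
import Claimed.Agent.R286.Exit.Tail

/-!
# Row 286 (S0533), EXIT `Expo`      STATEMENT FROZEN by helper207;   CLOSED (49: `sk_pe_top`) from Exit/Window + Exit/Tail

**PE Theorem 1.1**: `Var F_n = n^(1/3 + o(1))` for `β > 1`.      TEX[PE:thm:main]
-/

set_option autoImplicit false

namespace Claimed.Agent.R286

theorem exit_expo (β : ℝ) (hβ : 1 < β) : SkExponent β :=
  sk_pe_top β (exit_window β hβ) (exit_tail β)

end Claimed.Agent.R286
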