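import Claimed.Agent.R286.LL06.Contract
import Claimed.Agent.R286.LL.PathsBase
import Claimed.Agent.R286.Exit.PSysInst
import Claimed.Agent.R286.Exit.ClkLim
import Claimed.Agent.R286.Ci.Resc
import Claimed.Agent.R286.Brg.Step

/-!
# Row 286 (S0533), EXIT `L06Nrm`      OWNER helper53      (prefix `l6n_`)

**THE INSTANCE of the supply `Ll06Nrm` of `LL06/Contract.lean` (head helper291)**: normalisation of the terminal mass `ℓ → 1` (LL 06-global.tex l.31-33):
`a f_m^{(a)}(b,h) = f_m^{(1)}(a² b(a·), a² h(a·))`, clocks read on the open interval.      TEX[LL:global:trial-gap] l.31-33.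

* `l6n_lim_congr`      one-sided limits do not see the value at one point.
* `l6n_at`             `ghAt 1 (l6Nr a c) = ghAt 1 (ghClkRs a (clkExt a c))`  (the two closures differ at the mass `0` only, which no position reads).
* `l6n_pf`             `a * skPf m a b h = skCPr m 1 (l6Nr a b) (l6Nr a h)`      from `sk_rs_CPr` (`Ci/Resc.lean`) and `exit_clk_lim_pr`.
* **`exit_l06_nrm : Ll06Nrm llBase`**.
* `l6n_clk`            `MvClk (l6Nr a c)` (the normalised clocks are clocks on `[0,1]`).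
-/

set_option autoImplicit false

namespace Claimed.Agent.R286

open MeasureTheory Set Filter Topology

noncomputable section

/-- two functions which agree off `0`, one of them monotone: same one-sided limits everywhere -/
theorem l6n_lim_congr {f g : ℝ → ℝ} (hg : Monotone g) (h : ∀ u, u ≠ 0 → f u = g u) (x : ℝ) :
    Function.leftLim f x = Function.leftLim g x ∧ Function.rightLim f x = Function.rightLim g x := by
  have hl : ∀ᶠ u in 𝓝[<] x, g u = f u := by
    rcases le_or_gt x 0 with hx | hx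
    · filter_upwards [self_mem_nhdsWithin] with u hu
      exact (h u (ne_of_lt (lt_of_lt_of_le hu hx))).symm
    · filter_upwards [Ioo_mem_nhdsLT hx] with u hu
      exact (h u hu.1.ne').symm
  have hr : ∀ᶠ u in 𝓝[>] x, g u = f u := by
    rcases lt_or_ge x 0 with hx | hx
    · filter_upwards [Ioo_mem_nhdsGT hx] with u hu
      exact (h u hu.2.ne).symm
    · filter_upwards [self_mem_nhdsWithin] with u hu
      exact (h u (ne_of_gt (lt_of_le_of_lt hx hu))).symm
  exact ⟨leftLim_eq_of_tendsto ((hg.tendsto_leftLim x).congr' hl),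
    rightLim_eq_of_tendsto ((hg.tendsto_rightLim x).congr' hr)⟩

/-- the image of the rescaled clock -/
theorem l6n_image {a : ℝ} (ha : 0 < a) (c : ℝ → ℝ) :
    (fun w => a ^ 2 * c (a * w)) '' Ioo 0 1 = (fun y => a ^ 2 * y) '' (c '' Ioo 0 a) := by
  ext y
  constructor
  · rintro ⟨w, hw, rfl⟩
    exact ⟨c (a * w), ⟨a * w, ⟨by have := hw.1; positivity, by nlinarith [hw.2]⟩, rfl⟩, rfl⟩
  · rintro ⟨_, ⟨v, hv, rfl⟩, rfl⟩
    refine ⟨v / a, ⟨div_pos hv.1 ha, (div_lt_one ha).2 hv.2⟩, ?_⟩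
    show a ^ 2 * c (a * (v / a)) = a ^ 2 * c v
    rw [mul_div_cancel₀ _ ha.ne']

theorem l6n_sup {a : ℝ} (ha : 0 < a) (c : ℝ → ℝ) :
    sSup ((fun w => a ^ 2 * c (a * w)) '' Ioo 0 1) = a ^ 2 * sSup (c '' Ioo 0 a) := by
  rw [l6n_image ha]
  have := Real.sSup_smul_of_nonneg (a := a ^ 2) (by positivity) (c '' Ioo 0 a)
  simp only [smul_eq_mul] at this
  rw [← this]
  congr 1

/-- the rescaled clock is a clock on `(0,1)` -/
theorem l6n_isClock {a : ℝ} (ha : 0 < a) {c : ℝ → ℝ} (hc : IsClock a c) : IsClock 1 (fun w => a ^ 2 * c (a * w)) := by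
  have hmem : ∀ w ∈ Ioo (0:ℝ) 1, a * w ∈ Ioo 0 a := fun w hw => ⟨by have := hw.1; positivity, by nlinarith [hw.2]⟩
  refine ⟨fun x hx y hy hxy => ?_, fun v hv => ?_, ?_⟩
  · exact mul_le_mul_of_nonneg_left (hc.mono (hmem x hx) (hmem y hy) (mul_le_mul_of_nonneg_left hxy ha.le)) (by positivity)
  · exact mul_nonneg (by positivity) (hc.nonneg _ (hmem v hv))
  · obtain ⟨C, hC⟩ := hc.bdd
    exact ⟨a ^ 2 * C, fun v hv => mul_le_mul_of_nonneg_left (hC _ (hmem v hv)) (by positivity)⟩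

/-- the two closures of the rescaled clock agree off the mass `0` -/
theorem l6n_off {a : ℝ} (ha : 0 < a) (c : ℝ → ℝ) (u : ℝ) (hu : u ≠ 0) :
    ghClamp 1 (l6Nr a c) u = ghClamp 1 (ghClkRs a (clkExt a c)) u := by
  unfold ghClamp
  by_cases h0 : u < 0
  · rw [if_pos h0, if_pos h0]
  · rw [if_neg h0, if_neg h0]
    have hpos : 0 < u := lt_of_le_of_ne (not_lt.1 h0) hu.symm
    unfold l6Nr l6Cl ghClkRs clkExt
    by_cases h1 : u < 1
    · have hm : min u 1 = u := min_eq_left h1.le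
      have e1 : ¬ u ≤ 0 := not_le.2 hpos
      have e2 : ¬ a * u ≤ 0 := not_le.2 (by positivity)
      have e3 : a * u < a := by nlinarith
      rw [hm, if_neg e1, if_pos h1, if_neg e2, if_pos e3]
    · have hm : min u 1 = 1 := min_eq_right (not_lt.1 h1)
      have e1 : ¬ (1:ℝ) ≤ 0 := by norm_num
      have e2 : ¬ a * 1 ≤ 0 := by rw [mul_one]; exact not_le.2 ha
      have e3 : ¬ a * 1 < a := by rw [mul_one]; exact lt_irrefl a
      rw [hm, if_neg e1, if_neg (lt_irrefl _), if_neg e2, if_neg e3, l6n_sup ha]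

/-- the clamp of an admissible clock is monotone -/
theorem l6n_clamp_mono {a : ℝ} (ha : 0 ≤ a) {c : ℝ → ℝ} (hc : GhClk1 a c) : Monotone (ghClamp a c) := by
  intro x y hxy
  unfold ghClamp
  by_cases hx : x < 0
  · rw [if_pos hx]
    by_cases hy : y < 0
    · rw [if_pos hy]
    · rw [if_neg hy]
      exact hc.2.trans (hc.1 (left_mem_Icc.2 ha) ⟨le_min (not_lt.1 hy) ha, min_le_right _ _⟩ (le_min (not_lt.1 hy) ha))
  · have hy : ¬ y < 0 := fun h => hx (lt_of_le_of_lt hxy h)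
    rw [if_neg hx, if_neg hy]
    exact hc.1 ⟨le_min (not_lt.1 hx) ha, min_le_right _ _⟩ ⟨le_min (not_lt.1 hy) ha, min_le_right _ _⟩ (min_le_min_right _ hxy)

/-- rescaling keeps admissibility -/
theorem l6n_rs_clk {a : ℝ} (ha : 0 < a) {c : ℝ → ℝ} (hc : GhClk1 a c) : GhClk1 1 (ghClkRs a c) := by
  refine ⟨fun x hx y hy hxy => ?_, ?_⟩
  · have hmem : ∀ w ∈ Icc (0:ℝ) 1, a * w ∈ Icc 0 a := fun w hw => ⟨mul_nonneg ha.le hw.1, by nlinarith [hw.2]⟩
    exact mul_le_mul_of_nonneg_left (hc.1 (hmem x hx) (hmem y hy) (mul_le_mul_of_nonneg_left hxy ha.le)) (by positivity)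
  · show 0 ≤ a ^ 2 * c (a * 0)
    rw [mul_zero]
    exact mul_nonneg (by positivity) hc.2

/-- no position reads the value at the mass `0` -/
theorem l6n_at {a : ℝ} (ha : 0 < a) {c : ℝ → ℝ} (hc : IsClock a c) : ghAt 1 (l6Nr a c) = ghAt 1 (ghClkRs a (clkExt a c)) := by
  funext p
  have hm := l6n_clamp_mono zero_le_one (l6n_rs_clk ha (psi_ext_clk ha hc))
  obtain ⟨h1, h2⟩ := l6n_lim_congr hm (l6n_off ha c) p.u
  unfold ghAt
  rw [h1, h2]

/-- **the normalisation of the terminal mass**, clocks on the open interval -/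
theorem l6n_pf {m : ℕ} (hm : 0 < m) {a : ℝ} (ha : 0 < a) {b h : ℝ → ℝ} (hb : IsClock a b) (hh : IsClock a h) :
    a * skPf m a b h = skCPr m 1 (l6Nr a b) (l6Nr a h) := by
  have h1 := sk_rs_CPr m ha (clkExt a b) (clkExt a h) (exit_clk_lim_pr hm ha ⟨psi_ext_clk ha hb, psi_ext_clk ha hh⟩ 0).2
  unfold skPf
  rw [← h1]
  unfold skCPr
  congr 1
  funext ps
  rw [sk_stp_chain_congr (l6n_at ha hb) (l6n_at ha hh)]

/-- **EXIT**: the supply (NRM) of `LL06/Contract.lean` at the concrete base.      TEX[LL:global:trial-gap] l.31-33 -/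
theorem exit_l06_nrm : Ll06Nrm llBase := fun _ _ _ _ hm ha hb hh =>
  l6n_pf (lt_of_lt_of_le Nat.zero_lt_one hm) (lt_of_lt_of_le one_pos ha) hb hh

/-- the normalised clock of a clock is a clock on `[0,1]` -/
theorem l6n_clk {a : ℝ} (ha : 0 < a) {c : ℝ → ℝ} (hc : IsClock a c) : MvClk (l6Nr a c) := by
  have h1 := l6n_isClock ha hc
  obtain ⟨C, hC⟩ := h1.bdd
  have hhalf : (1 / 2 : ℝ) ∈ Ioo (0:ℝ) 1 := ⟨by norm_num, by norm_num⟩
  set f : ℝ → ℝ := fun w => a ^ 2 * c (a * w) with hf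
  have hne : (f '' Ioo 0 1).Nonempty := ⟨f (1 / 2), 1 / 2, hhalf, rfl⟩
  have hbb : BddBelow (f '' Ioo 0 1) := ⟨0, by rintro _ ⟨u, hu, rfl⟩; exact h1.nonneg u hu⟩
  have hba : BddAbove (f '' Ioo 0 1) := ⟨C, by rintro _ ⟨u, hu, rfl⟩; exact hC u hu⟩
  have e0 : ∀ u, u ≤ 0 → l6Nr a c u = sInf (f '' Ioo 0 1) := fun u hu => by
    unfold l6Nr l6Cl
    rw [if_pos hu]
  have e1 : ∀ u, 1 ≤ u → l6Nr a c u = sSup (f '' Ioo 0 1) := fun u hu => by
    unfold l6Nr l6Cl
    rw [if_neg (not_le.2 (lt_of_lt_of_le one_pos hu)), if_neg (not_lt.2 hu)]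
  have em : ∀ u ∈ Ioo (0:ℝ) 1, l6Nr a c u = f u := fun u hu => by
    unfold l6Nr l6Cl
    rw [if_neg (not_le.2 hu.1), if_pos hu.2]
  refine ⟨fun x hx y hy hxy => ?_, ?_⟩
  · rcases le_or_gt x 0 with hx0 | hx0
    · rw [e0 x hx0]
      rcases le_or_gt y 0 with hy0 | hy0
      · rw [e0 y hy0]
      · rcases le_or_gt 1 y with hy1 | hy1
        · rw [e1 y hy1]
          exact (csInf_le hbb ⟨1 / 2, hhalf, rfl⟩).trans (le_csSup hba ⟨1 / 2, hhalf, rfl⟩)
        · rw [em y ⟨hy0, hy1⟩]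
          exact csInf_le hbb ⟨y, ⟨hy0, hy1⟩, rfl⟩
    · have hy0 : 0 < y := lt_of_lt_of_le hx0 hxy
      rcases le_or_gt 1 y with hy1 | hy1
      · rw [e1 y hy1]
        rcases le_or_gt 1 x with hx1 | hx1
        · rw [e1 x hx1]
        · rw [em x ⟨hx0, hx1⟩]
          exact le_csSup hba ⟨x, ⟨hx0, hx1⟩, rfl⟩
      · have hx1 := lt_of_le_of_lt hxy hy1
        rw [em x ⟨hx0, hx1⟩, em y ⟨hy0, hy1⟩]
        exact h1.mono ⟨hx0, hx1⟩ ⟨hy0, hy1⟩ hxy
  · rw [e0 0 le_rfl]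
    exact le_csInf hne (by rintro _ ⟨u, hu, rfl⟩; exact h1.nonneg u hu)

end

end Claimed.Agent.R286
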