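import Claimed.Agent.R286.Sc.Pkg
import Claimed.Agent.R286.Sc.UpGen
import Claimed.Agent.R286.LL06.G2
import Claimed.Agent.R286.Sc.LinkClk
import Claimed.Agent.R286.Macro.Contract

/-!
# Row 286, EXIT of the unit (U+) on the PE scalar package `pkPkg` of helper229      (owner helper159; prefix `exit_sc_up_`)

* `exit_sc_up_l6gU`   : `L6gU (pkPkg Q0 hQ) (Q0³/16 · e^{-18 Q0})`      = the debt (2) of `LL06/G2.lean` (helper58): midpoint (U+) for ALL `SvCoef`.      TEX[LL:global:trial-gap]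
* `exit_sc_l6gLink`   : `L6gLink (pkPkg Q0 hQ) macSpin`      = the debt (3) of `LL06/G2.lean`: `f_spin(K) = V_{α_K}(0,0) - Q0/2` (helper229, recipe of helper102: `slc_fspin`, `Sc/LinkClk.lean`).
* `exit_sc_up_unique` : the statement of `pk_unique_min` (`Sc/Pkg.lean`), proved.      TEX[PE:prof:scalar-minimizer]
Chain: `Sc/UpWmp, UpAlg, UpMain` (abstract, 0 sorry) ← `Sc/UpInst` (step profiles: contracts of `Sc/Prof.lean`) ← `Sc/UpGen` (`Sc/Dy.lean` + `scg_V_rate`).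
-/

set_option autoImplicit false

namespace Claimed.Agent.R286

open MeasureTheory Set

theorem exit_sc_up_l6gU {Q0 : ℝ} (hQ : 0 < Q0) : L6gU (pkPkg Q0 hQ).toSvPkg (Q0 ^ 3 / 16 * Real.exp (-(18 * Q0))) := by
  intro α1 α2 h1 h2
  have h := sk_up_unit hQ h2.1 h2.2 h1.1 h1.2
  have e : (fun t => (α2 t + α1 t) / 2) = fun s => (α1 s + α2 s) / 2 := by
    funext t
    ring
  have e2 : (skUpV Q0 α2 + skUpV Q0 α1) / 2 = (skUpV Q0 α1 + skUpV Q0 α2) / 2 := by ring
  rw [e, e2] at h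
  exact h

theorem exit_sc_up_unique {T : ℝ} (hT : 0 < T) {α β : ℝ → ℝ} (hα : SvDist α) (hβ : SvDist β)
    (hmα : ∀ α', SvDist α' → pkP T α ≤ pkP T α') (hmβ : ∀ α', SvDist α' → pkP T β ≤ pkP T α') : α = β :=
  sk_up_unique hT hα hβ hmα hmβ

/-- the one-site pressure of a clock is the scalar Parisi value of its time profile (debt (3) of `LL06/G2.lean`).      TEX[PE:prof:scalar] -/
theorem exit_sc_l6gLink {Q0 : ℝ} (hQ : 0 < Q0) : L6gLink (pkPkg Q0 hQ).toSvPkg macSpin := by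
  intro K hK hK1
  have h := (slc_fspin one_pos hQ (K := K) hK hK1).2
  have e : pkA Q0 (l6gAl Q0 K) = scAlK 1 K := by
    funext t
    unfold pkA l6gAl
    rw [mul_div_cancel₀ _ hQ.ne']
  show skCPr 1 1 (fun _ => 0) K = scVa (scLC 1) (pkA Q0 (l6gAl Q0 K)) Q0 0 0 - Q0 / 2
  rw [e, h]
  ring

end Claimed.Agent.R286
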