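-- KEEP
import Claimed.Agent.R286.LL06.Top
import Claimed.Agent.R286.LL06.ConcTop
import Claimed.Agent.R286.LL06.S1Exit
import Claimed.Agent.R286.LL06.G2Exit
import Claimed.Agent.R286.LL06.Gap
import Claimed.Agent.R286.LL.PathsBase
import Claimed.Agent.R286.Bud.TopDefs
import Claimed.Agent.R286.Exit.L06Nrm

/-!
# Row 286 (S0533), EXIT `G1`      OWNER helper291 (head LL 06);   ADV helper130;   consumers: LL 07 (162 / 66: `BtG1`), LL chain (224: `LlcG1Exit`, `llc_stB_ex`), LL 10 (60)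
TEX[LL:global:trial-gap]

**LL Prop. 6.1 = (G1) at the concrete base**: for EVERY record of cut-offs `F0` with the P-list there are `c_G > 0`, `s0 < 1/2` such that for ALL exponents in `LlExpOk` with `s0 ≤ s_*`:
`0 ≤ F_* - f_m(b,h_*) ≤ x^(4+c_G)` uniformly over the direct points and the sizes of the dyad.
COMPILED GLUE: `ll06_g1`, `ll06_var` (`LL06/Top.lean`, 291), `exit_l06_nrm`, `ll06_s1_exit` (53), `ll06_g2` (159), `ll06_g3` (261), `ll06_gap` (292) `ll06_inst_prof`, `ll06_inst_gapB`, `ll06_inst_stab` (229, proved from the fields `profId`, `gapB` of 253) and ONE open named instance below: `ll06_inst_conc`.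
`ll06_bt` = adapter to `BtG1` of `Bud/TopDefs.lean`.
-/

set_option autoImplicit false

namespace Claimed.Agent.R286

open MeasureTheory Set Filter Topology

/-- **INSTANCE (NRM)** at `llBase` (clocks read on the open interval): 53, proved. -/
theorem ll06_inst_nrm : Ll06Nrm llBase := exit_l06_nrm

/-- (PROF) in the vocabulary of LL 06 from the field `profId` of `LlSec3` (253, `lch_LlProfId`): on `(0,1)` the normalised clock is `tN w = ℓ² K(ℓ w) = ξ(ℓ w)`.      (229) -/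
theorem ll06_prof_of_id {𝔹 : LlBase} {F : LlFix} (h : LlProfId 𝔹 F) : Ll06Prof 𝔹 F := by
  refine h.mono fun p hp h hsm s hs => ?_
  rw [← h hsm s hs]
  unfold scAlK
  congr 2
  ext w
  refine and_congr_right fun hw => ?_
  have ha : p.a = p.ell := by simp [LlPt.a, hsm]
  have hl : 0 < p.ell := by linarith [hp.ell1]
  have e : p.tN F 𝔹 w = p.xi F 𝔹 (p.ell * w) := by
    unfold LlPt.tN
    rw [l6Nr_of_mem _ _ hw, ha]
    unfold LlPt.K
    field_simp
  rw [e]

/-- **INSTANCE (PROF)** at `llBase`: the time distribution of the normalised direct clock is `A_λ`.      OWNER: 253 (new FIELD of `LlSec3`: `LlDirProf` of 281 (`LL/PathsSwC`) or `Ll06Prof`; producer in `ll3_asm`: `lsw_dirProf`; then `ll06_prof` of 159).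
NOT derivable from the present `LlSec3` (`A_λ` monotone needs `z0` small: 159). -/
theorem ll06_inst_prof (T : ℝ) (F0 : LlFix) (hT : F0.T = T) (hprof : LlBaseProfile llBase T) (hP : LlcP llBase F0) :
    ∀ sS eta pS : ℝ, LlExpOk sS eta pS → Ll06Prof llBase (F0.wExp sS eta pS) :=
  fun sS eta pS hE => ll06_prof_of_id (hP sS eta pS hE).1.profId

/-- **INSTANCE (G2)** at `llBase`: 159 (`LL06/G2Exit.lean`, kernel clean) from (PROF).      [second proof: `l6j_g2` of 58, `LL06/Junc.lean`] -/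
theorem ll06_inst_g2 (T : ℝ) (F0 : LlFix) (hT : F0.T = T) (hprof : LlBaseProfile llBase T) (hP : LlcP llBase F0) : Ll06G2Exit llBase F0 :=
  ll06_g2 F0 hT hprof hP (ll06_inst_prof T F0 hT hprof hP)

/-- **INSTANCE (GAP-B)** at `llBase`: the fact of the REFERENCE used by (GAP) (06 l.556-566) = the FIELD `gapB` of `LlSec3` (253, `lch_LlGapB`: `t ≥ K(v/4)/4 ≥ k v/16`, existing smallness of `c_b`);   `Ll06GapB = LlGapB` by unfolding.      (229) -/
theorem ll06_inst_gapB (T : ℝ) (F0 : LlFix) (hT : F0.T = T) (hprof : LlBaseProfile llBase T) (hP : LlcP llBase F0) :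
    ∀ sS eta pS : ℝ, LlExpOk sS eta pS → Ll06GapB llBase (F0.wExp sS eta pS) :=
  fun sS eta pS hE => (hP sS eta pS hE).1.gapB

/-- **INSTANCE (GAP)** at `llBase`.      COMPILED GLUE (54): `ll06_gap` (292, `LL06/Gap.lean`, 0 sorry) from (G3) and `ll06_inst_gapB`. -/
theorem ll06_inst_gap (T : ℝ) (F0 : LlFix) (hT : F0.T = T) (hprof : LlBaseProfile llBase T) (hP : LlcP llBase F0) (hG3 : Ll06G3Exit llBase F0) :
    Ll06GapExit llBase F0 :=
  ll06_gap hG3 hP (ll06_inst_gapB T F0 hT hprof hP)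

/-- **INSTANCE (STAB)** at `llBase`.      OWNER: 229.      `l6x_stab_inst` (225, proved: `G1 = scaM2 (scLC 1) (scAlK 1 ts) Q0`) + link `Γ̂' = llMod.Gam1 (Aprof) 1 = scaM2 (scLC 1) (scAlK 1 tN) Q0` on `[0,Q0]`
(`llMod_id`, `ll06_inst_prof`; `l6e_pk_M2` of 159, `l6j_id` of 58);   `L6xStab` reads `G1` on `[0, scLen π] ⊆ [0,Q0]` only. -/
theorem ll06_inst_stab (T : ℝ) (F0 : LlFix) (hT : F0.T = T) (hprof : LlBaseProfile llBase T) (hP : LlcP llBase F0) : Ll06StabExit llBase F0 := by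
  intro Q0 hQ
  obtain ⟨C, hC0, hC⟩ := l6x_stab_inst hQ
  refine ⟨C, hC0, fun sS eta pS hE => ?_⟩
  have h3 : LlSec3 llBase (F0.wExp sS eta pS) := (hP sS eta pS hE).1
  obtain ⟨c, C', -, hok⟩ := ll06_ok h3
  refine ((hok 1 one_pos).and (ll06_inst_prof T F0 hT hprof hP sS eta pS hE)).mono fun p _ h hsm htQ => ?_
  obtain ⟨h1, hA⟩ := h
  have hclk : MvClk (p.tN (F0.wExp sS eta pS) llBase) := (h1 hsm).t_clk
  replace hA := hA hsm
  have ht1 : 0 ≤ p.tN (F0.wExp sS eta pS) llBase 1 :=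
    hclk.2.trans (hclk.1 (left_mem_Icc.2 zero_le_one) (right_mem_Icc.2 zero_le_one) zero_le_one)
  have hpr : LscProf 1 (p.tN (F0.wExp sS eta pS) llBase 1) (p.Aprof (F0.wExp sS eta pS) llBase) :=
    l6e_lsc ht1 hA fun v hv => hclk.1 (Ioo_subset_Icc_self hv) (right_mem_Icc.2 zero_le_one) hv.2.le
  have hj : p.j = 1 := by simp [LlPt.j, hsm]
  intro π hπ hi hl s hs
  have hs' : s ∈ Icc 0 Q0 := ⟨hs.1, hs.2.trans hl⟩
  have e : p.Gam1N (F0.wExp sS eta pS) llBase s = scaM2 (scLC 1) (scAlK 1 (p.tN (F0.wExp sS eta pS) llBase)) Q0 s := by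
    have e1 : p.Gam1N (F0.wExp sS eta pS) llBase s = llMod.Gam1 (p.Aprof (F0.wExp sS eta pS) llBase) 1 s := by
      unfold LlPt.Gam1N
      rw [hj]
      rfl
    rw [e1, lsc_id_Gam1 llMod_id one_pos hpr htQ hs', l6e_M2_congr (scLC 1) hQ.le hA]
  rw [e]
  exact hC _ hclk htQ π hπ hi hl s hs

/-- **INSTANCE (CONC)** at `llBase`.      OWNER: 130 (`LL06/ConcTop.lean`: `ll06_conc`, any base), suppliers 200 (`l6d_main`, `LL06/ConcCh`), 261 (`ll06_geo`, `LL06/Geo`, proved). -/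
theorem ll06_inst_conc (T : ℝ) (F0 : LlFix) (hT : F0.T = T) (hprof : LlBaseProfile llBase T) (hP : LlcP llBase F0) (hG3 : Ll06G3Exit llBase F0) :
    Ll06ConcExit llBase F0 :=
  ll06_conc llBase F0 hP hG3

/-- TEX[LL:global:trial-gap] **(G1) at the concrete base** -/
theorem exit_g1 (T : ℝ) : Ll06G1Exit llBase T :=
  ll06_g1 llBase T ll06_inst_nrm (fun F0 _ _ hP => ll06_s1_exit llBase F0 hP) (fun F0 hT hprof hP => ll06_inst_g2 T F0 hT hprof hP)
    fun F0 hT hprof hP =>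
      have hG2 := ll06_inst_g2 T F0 hT hprof hP
      have hG3 := ll06_g3 llBase F0 hP hG2
      ll06_var llBase F0 hP hG2 hG3 (ll06_inst_gap T F0 hT hprof hP hG3) (ll06_inst_stab T F0 hT hprof hP) (ll06_inst_conc T F0 hT hprof hP hG3)

/-- the same in the vocabulary of the LL chain (224) -/
theorem exit_g1_llc (T : ℝ) : LlcG1Exit llBase T := exit_g1 T

/-- adapter to the supply `BtG1` of LL 07 (66) -/
theorem ll06_bt {𝔹 : LlBase} {F : LlFix} {cG : ℝ} (h : Ll06G1 𝔹 F cG) : BtG1 𝔹 F cG := by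
  refine LlUnif.mono h fun p hp h hsm m h1 h2 => ?_
  have ha : (0:ℝ) ≤ p.a := by
    have : p.a = p.ell := by simp [LlPt.a, hsm]
    rw [this]; linarith [hp.ell1]
  have key := (h hsm m h1 h2).2
  simp only [LlPt.Fst, LlPt.f00] at key
  rw [intervalIntegral.integral_of_le ha, integral_Ioc_eq_integral_Ioo] at key
  linarith

end Claimed.Agent.R286
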