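-- KEEP
import Claimed.Agent.R286.LL.Chain
import Claimed.Agent.R286.LL.PathsBase
import Claimed.Agent.R286.L09.Nodes
import Claimed.Agent.R286.L09.IncGlue
import Claimed.Agent.R286.Exit.LL04Sup

/-!
# Row 286 (S0533), EXIT `Inc`      OWNER helper60 (section head LL 09+10; chief 75);   ADV: helper40, helper70;   consumer: `llc_incr` (LL/Chain, 224) => `exit_incr`
TEX[LL:prop:increment]

**LL Prop. 4.1 at the concrete base**, in the exit form of the LL chain (224): for EVERY record of cut-offs `F0` with the P-list of LL Sec. 3 (for all exponents of `LlExpOk`) there are exponents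
`(s_*, η, p_*)` such that the stopped increments of the PATH numbers `ll04Path` are `≤ C x^(5+c0)` (direct segments: fixed `m`;   size segment: the literal field `inc_siz`, weights `W_m(θ)`).
ROUTE (files of the unit L09):   `L09/Contract` (216: chain level nodes TRS, BndS, TRD, BndD, Coarse, Switch, Mom, Reg => `l9_fin : L9Inc`, ON ONE CHAIN, stop `4 L`)
  + `L09/Lsc` (260: lower semicontinuity of the stopped speed integrals)  + `L09/IncGlue` (60: uniform closeness chain / path, choice of the exponents).
GLUE (70, compiled):   the 8 node exits in the form `LLGood` (`L09/Nodes`: `exit_l9_trs, _bndS, _trd, _bndD, _coarse, _switch, _mom, _reg`) => `l9q_body : LLGood fun par => L9Inc llBase (l9qF F0 par)` (via `l9_fin`)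
  => `LLGood.exists` (`L09/ParChain`: the parameter chain of LL Sec. 10 can be run) => `par` => `l9g_inc` + `exit_a1l`.
-/

set_option autoImplicit false

namespace Claimed.Agent.R286

theorem exit_inc (T : ℝ) (hT : 1 < T) : LlcIncExit llBase T := by
  intro F0 hF0 hprof hP
  obtain ⟨par, hpar⟩ := (l9q_body T hT F0 ⟨hF0, hprof, hP⟩).exists
  have hE := l9q_expOk par
  exact ⟨par.sStar, par.eta, par.pStar, hE, l9g_inc _ (hP _ _ _ hE).clk exit_a1l hpar⟩

end Claimed.Agent.R286
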