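-- KEEP
import Claimed.Agent.R286.Exit.BaseProf
import Claimed.Agent.R286.LL.PathsDer
import Claimed.Agent.R286.LL.PathsKk

/-!
# Row 286 (S0533), EXIT `LppBaseInst`      (instance owner helper11, by order of helper82; head LL 03 helper272)

THE INSTANCE of the record `LppBase` (`LL/PathsPk.lean`, helper121) at the scalar package `llPk` of LL 03 and the base profile `A_0 = llBase.A0 T`, `ξ_* = llBase.xiS T`.
* `lpp_base_of_profile` : for ANY base `𝔹` and package `S` with `𝔹.scG = S.Gam`:  `LlBaseProfile 𝔹 T → LppBase S T (𝔹.A0 T) (𝔹.xiS T)`   (PROVED; densities from `lkk_base`);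
* `exit_lppbase`        : the instance (only debt: `exit_baseprof`).
TEX[LL:paths:base-profile]
-/

set_option autoImplicit false

namespace Claimed.Agent.R286

open MeasureTheory Set

theorem lpp_base_of_profile (𝔹 : LlBase) (S : LppMod) (hG : 𝔹.scG = S.Gam) {T : ℝ} (hT : 1 < T) (hb : LlBaseProfile 𝔹 T) :
    LppBase S T (𝔹.A0 T) (𝔹.xiS T) := by
  obtain ⟨ca, Ca, ξ1, hk⟩ := lkk_base 𝔹 T hb
  have hxs := hb.xi_pos
  have h0 : 𝔹.A0 T 0 = 0 := hb.zero 0 le_rfl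
  have hnn : ∀ ξ, 0 ≤ ξ → 0 ≤ 𝔹.A0 T ξ := fun ξ hξ => by rw [← h0]; exact hb.mono hξ
  have hle : ∀ ξ, 𝔹.A0 T ξ ≤ 1 := fun ξ => by
    rw [← hb.top (max ξ (𝔹.xiS T)) (le_max_right _ _)]; exact hb.mono (le_max_left _ _)
  refine ⟨hT, hxs, ⟨le_rfl, by norm_num, hb.mono.monotoneOn _, hnn, fun ξ _ => hle ξ, ⟨𝔹.xiS T, hb.top⟩⟩, hb.top, ?_, ?_, ?_⟩
  · intro ξ hξ
    rw [← hG]; exact hb.self ξ hξ
  · refine ⟨max Ca (1 / 𝔹.xiS T), fun ξ hξ => ?_⟩
    rcases lt_or_eq_of_le hξ.2 with h | h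
    · have := hk.hi 0 ξ le_rfl hξ.1 h
      rw [h0, sub_zero, sub_zero] at this
      exact this.trans (mul_le_mul_of_nonneg_right (le_max_left _ _) hξ.1)
    · rw [h]
      calc 𝔹.A0 T (𝔹.xiS T) ≤ 1 := hle _
        _ = 1 / 𝔹.xiS T * 𝔹.xiS T := by field_simp
        _ ≤ max Ca (1 / 𝔹.xiS T) * 𝔹.xiS T := mul_le_mul_of_nonneg_right (le_max_right _ _) hxs.le
  · exact ⟨ca, ξ1, hk.ca0, hk.x10, hk.lo⟩

/-- **THE INSTANCE** -/
theorem exit_lppbase (T : ℝ) (hT : 1 < T) : LppBase llPk T (llBase.A0 T) (llBase.xiS T) :=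
  lpp_base_of_profile llBase llPk llPk_G hT (exit_baseprof T hT)

end Claimed.Agent.R286
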