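import Claimed.Agent.R286.LL.PathsRegL

/-!
# Row 286 (S0533), EXIT `RefExit`: THE GLUE OF `LlRefExit`      (helper31, by ruling of 82/136/272; head LL 03 helper272, co-head helper253; prefix `lrx_`)
TEX[LL:paths:lift] TEX[LL:paths:parameter-regularity]

`LlRefExit 𝔹 T` asks ONE set of constants `c, C, v0, ξ0` for the three blocks `LlRef` (281, `lrf_ref`), `LlRegL` (273, `lrl_main`), `LlRegT` (236, `lrt_regT`).
Each block is delivered with its OWN threshold `zb` and its OWN constants; here: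
* monotonicity of the blocks in the constants: `LlPt.Ref.lrx_mono`, `LlRef.lrx_mono` (smaller `c`, larger `C`, smaller `v0`), `LlPt.RegT.lrx_mono`, `LlRegT.lrx_mono` (smaller `v0`, `ξ0`)
  (`LlRegL.lrl_mono` is 273's);
* `lrx_glue` : the three blocks ⇒ `LlRefExit 𝔹 T`   (`zb = min`, `C = max`, `v0 = min`, `ξ0 = min`).      PROVED, for every base `𝔹`.
-/

set_option autoImplicit false

namespace Claimed.Agent.R286

open Set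

theorem LlPt.Ref.lrx_mono {p : LlPt} {F : LlFix} {𝔹 : LlBase} {c c' C C' v0 v0' : ℝ} (h : p.Ref F 𝔹 c C v0) (hl : 0 ≤ p.lam)
    (hc : c' ≤ c) (hC : C ≤ C') (hv : v0' ≤ v0) : p.Ref F 𝔹 c' C' v0' where
  b0_lo := hc.trans h.b0_lo
  b0_hi := h.b0_hi.trans hC
  b0_T := h.b0_T.trans (mul_le_mul_of_nonneg_right hC hl)
  v2 := h.v2
  g1_cont := h.g1_cont
  g1_pos := h.g1_pos
  gam_zero := h.gam_zero
  gam_ftc := h.gam_ftc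
  gam_le := h.gam_le
  gap_lo := fun t ht => (mul_le_mul_of_nonneg_right (mul_le_mul_of_nonneg_right hc hl) (le_min (sq_nonneg t) zero_le_one)).trans
    (h.gap_lo t ht)
  gap_hi := fun t ht hts => (h.gap_hi t ht hts).trans
    (mul_le_mul_of_nonneg_right (mul_le_mul_of_nonneg_right hC hl) (sq_nonneg t))
  K_mono := h.K_mono
  K_lo := fun v v' h0 hvv hv' => (mul_le_mul_of_nonneg_right hc (sub_nonneg.2 hvv)).trans (h.K_lo v v' h0 hvv (hv'.trans hv))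
  K_hi := fun v v' h0 hvv hv' => (h.K_hi v v' h0 hvv (hv'.trans hv)).trans (mul_le_mul_of_nonneg_right hC (sub_nonneg.2 hvv))
  K_lo0 := fun v h0 hv' => (mul_le_mul_of_nonneg_right hc h0.le).trans (h.K_lo0 v h0 (hv'.trans hv))
  K_hi0 := fun v h0 hv' => (h.K_hi0 v h0 (hv'.trans hv)).trans (mul_le_mul_of_nonneg_right hC h0.le)
  K_top := h.K_top
  q_lo := fun v hv' => (mul_le_mul_of_nonneg_right hc hv'.1.le).trans (h.q_lo v hv')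
  q_hi := fun v hv' => (h.q_hi v hv').trans (mul_le_mul_of_nonneg_right hC hv'.1.le)
  q_slope := fun v h0 hv' => (h.q_slope v h0 (hv'.trans hv)).trans
    (mul_le_mul_of_nonneg_right (mul_le_mul_of_nonneg_right hC h0.le) (add_nonneg h0.le hl))

theorem LlRef.lrx_mono {𝔹 : LlBase} {F : LlFix} {c c' C C' v0 v0' : ℝ} (h : LlRef 𝔹 F c C v0) (hc : c' ≤ c) (hC : C ≤ C')
    (hv : v0' ≤ v0) : LlRef 𝔹 F c' C' v0' := by
  obtain ⟨N0, hN0⟩ := h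
  exact ⟨N0, fun p hp hN => (hN0 p hp hN).lrx_mono (lkk_lam_pos hp).le hc hC hv⟩

theorem LlPt.RegT.lrx_mono {p : LlPt} {F : LlFix} {𝔹 : LlBase} {c C v0 v0' ξ0 ξ0' θ θ' : ℝ} {R0 : ℕ}
    (h : p.RegT F 𝔹 c C v0 ξ0 R0 θ θ') (hv : v0' ≤ v0) (hξ : ξ0' ≤ ξ0) : p.RegT F 𝔹 c C v0' ξ0' R0 θ θ' :=
  { h with
    gap0 := fun ξ hx => h.gap0 ξ ⟨hx.1, hx.2.trans hξ⟩
    K0 := fun v h0 hv' => h.K0 v h0 (hv'.trans hv)
    q0 := fun v h0 hv' => h.q0 v h0 (hv'.trans hv) }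

theorem LlRegT.lrx_mono {𝔹 : LlBase} {F : LlFix} {c C v0 v0' ξ0 ξ0' : ℝ} {R0 : ℕ} (h : LlRegT 𝔹 F c C v0 ξ0 R0) (hv : v0' ≤ v0)
    (hξ : ξ0' ≤ ξ0) : LlRegT 𝔹 F c C v0' ξ0' R0 := by
  obtain ⟨N0, hN0⟩ := h
  exact ⟨N0, fun p hp hN hsm θ hθ θ' hθ' => (hN0 p hp hN hsm θ hθ θ' hθ').lrx_mono hv hξ⟩

/-- **THE GLUE**: three blocks, each with its own threshold and constants ⇒ `LlRefExit`. -/
theorem lrx_glue {𝔹 : LlBase} {T : ℝ}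
    (hRef : ∃ zb : ℝ, 0 < zb ∧ ∀ z0, 0 < z0 → z0 ≤ zb → ∃ c C v0 : ℝ, 0 < c ∧ c ≤ 1 ∧ 1 ≤ C ∧ 0 < v0 ∧ v0 ≤ 1 / 2 ∧
      ∀ F : LlFix, F.Ok → F.T = T → F.z0 = z0 → F.pS ≤ 1 → LlRef 𝔹 F c C v0)
    (hRegL : ∃ zb : ℝ, 0 < zb ∧ ∀ z0, 0 < z0 → z0 ≤ zb → ∃ C ξ0 : ℝ, 1 ≤ C ∧ 0 < ξ0 ∧
      ∀ F : LlFix, F.Ok → F.T = T → F.z0 = z0 → LlRegL 𝔹 F C ξ0)
    (hRegT : ∃ zb : ℝ, 0 < zb ∧ ∀ z0, 0 < z0 → z0 ≤ zb → ∃ v0 ξ0 : ℝ, 0 < v0 ∧ 0 < ξ0 ∧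
      ∀ F : LlFix, F.Ok → F.T = T → F.z0 = z0 → F.pS ≤ 1 → ∀ R0 : ℕ, ∃ c' C' : ℝ, 0 < c' ∧ LlRegT 𝔹 F c' C' v0 ξ0 R0) :
    LlRefExit 𝔹 T := by
  obtain ⟨z1, hz1, H1⟩ := hRef
  obtain ⟨z2, hz2, H2⟩ := hRegL
  obtain ⟨z3, hz3, H3⟩ := hRegT
  refine ⟨min z1 (min z2 z3), lt_min hz1 (lt_min hz2 hz3), fun z0 hz0 hzb => ?_⟩
  obtain ⟨c, C1, v1, hc, hc1, hC1, hv1, hv1', K1⟩ := H1 z0 hz0 (hzb.trans (min_le_left _ _))
  obtain ⟨C2, x2, hC2, hx2, K2⟩ := H2 z0 hz0 (hzb.trans ((min_le_right _ _).trans (min_le_left _ _)))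
  obtain ⟨v3, x3, hv3, hx3, K3⟩ := H3 z0 hz0 (hzb.trans ((min_le_right _ _).trans (min_le_right _ _)))
  refine ⟨c, max C1 C2, min v1 v3, min x2 x3, hc, hc1, hC1.trans (le_max_left _ _), lt_min hv1 hv3,
    (min_le_left _ _).trans hv1', lt_min hx2 hx3, fun F hF hT hz hp => ⟨?_, ?_, fun R0 => ?_⟩⟩
  · exact (K1 F hF hT hz hp).lrx_mono le_rfl (le_max_left _ _) (min_le_left _ _)
  · exact (K2 F hF hT hz).lrl_mono (le_max_right _ _) (min_le_left _ _)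
  · obtain ⟨c', C', hc', h⟩ := K3 F hF hT hz hp R0
    exact ⟨c', C', hc', h.lrx_mono (min_le_right _ _) (min_le_right _ _)⟩

end Claimed.Agent.R286
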