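-- KEEP
import Claimed.Agent.R286.Defs.Clk
import Claimed.Agent.R286.LL.PathsSc
import Claimed.Agent.R286.Sc.LscDyn
import Claimed.Agent.R286.Sc.GenDefs
import Claimed.Agent.R286.Sc.Top

/-!
# Row 286 (S0533), EXIT `ScGen`      typed by helper272 (head LL 03);   OWNER of the proof: BOX-C, chief helper183 (general profiles helper197 `Sc/Gen`, tau-free bounds helper36 `Sc/Tau`,
annealed inequality helper283 `LL/PathsAnn283` + limit, link with the hierarchy = item P7 of the hub plan);   ADV: helper46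

**The scalar Parisi model on GENERAL monotone profiles exists**: one model `M` (continuations `V`, planted transitions `P`, Dynkin calculus `Dyn`) with the list `LscMod.Ok` of `LL/PathsSc.lean`
(B03 S2-S5 for general profiles, S3.5-S3.7), and whose value `V(0,0)` is the self corrected one-site pressure `f_1(0,K)` of `Defs/Clk.lean` (B03 S8).
TEX[LL:paths:lift] TEX[LL:paths:parameter-regularity] TEX[PE:lem:profile-scalar]
CONSUMERS: LL 03 (`llMod`, `llBase` of `LL/PathsBase.lean`); LL 05, 06, 08, 09 should use the SAME model `llMod`.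
-/

set_option autoImplicit false

namespace Claimed.Agent.R286

open MeasureTheory Set

/-- one-site pressure = value of the scalar model at the distribution function of the clock -/
def LscLinkSk (M : LscMod) : Prop :=
  ∀ (a R : ℝ) (K : ℝ → ℝ), 1 ≤ a → MonotoneOn K (Icc 0 a) → (∀ v ∈ Icc 0 a, 0 ≤ K v ∧ K v ≤ R) → skCPr 1 a 0 K = M.V (llDist a K) a 0 0

/-- **identification** (asked by helper68 for `exit_baseprof`, by helper250 for `sc2_req`): the model is THE concrete one of `Sc/GenDefs.lean`; every horizon `R ≥ Ξ` computes it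
(`lsi_V_eq` of `Sc/LscV.lean`, and the same for `P`).      This is what lets the users of `llMod` cite the facts of BOX-C proved on `scVa`, `scPa`, `scaGam`, `scaM2`, .. (curvature, Hopf, first variation, uniqueness). -/
def LscIdSc (M : LscMod) : Prop :=
  ∀ (A : ℝ → ℝ) (j Ξ R : ℝ), 0 < j → LscProf j Ξ A → Ξ ≤ R →
    (∀ ξ ∈ Icc 0 R, M.V A j ξ = fun z => scVa (scLC j) A R ξ z - j * R / 2) ∧
    (∀ s t : ℝ, 0 ≤ s → s ≤ t → t ≤ R → ∀ φ : ℝ → ℝ, ScE 0 φ → M.P A j s t φ = scPa (scLC j) A R s t φ)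

/-! ## the identification, derived forms      (helper68; tools for every user of `llMod`)
under `LscIdSc M`, `LscProf j Ξ A`, `Ξ ≤ R`, `ξ ∈ [0,R]`:   `M.D (k+1) A j ξ = scaD (k+1) (scLC j) A R ξ`,   `M.E A j ξ φ = scaEx (scLC j) A R ξ φ`,   `M.Gam = scaGam`,   `M.Gam1 = scaM2`. -/

theorem lsc_id_D {M : LscMod} (hid : LscIdSc M) {A : ℝ → ℝ} {j Ξ R : ℝ} (hj : 0 < j) (hA : LscProf j Ξ A) (hR : Ξ ≤ R)
    {ξ : ℝ} (hξ : ξ ∈ Icc 0 R) (k : ℕ) : M.D (k + 1) A j ξ = scaD (k + 1) (scLC j) A R ξ := by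
  unfold LscMod.D scaD
  rw [(hid A j Ξ R hj hA hR).1 ξ hξ]
  simp only [Function.iterate_succ, Function.comp]
  congr 1
  funext z
  rw [deriv_sub_const]

theorem lsc_id_E {M : LscMod} (hid : LscIdSc M) {A : ℝ → ℝ} {j Ξ R : ℝ} (hj : 0 < j) (hA : LscProf j Ξ A) (hR : Ξ ≤ R)
    {ξ : ℝ} (hξ : ξ ∈ Icc 0 R) {φ : ℝ → ℝ} (hφ : ScE 0 φ) : M.E A j ξ φ = scaEx (scLC j) A R ξ φ := by
  unfold LscMod.E scaEx
  rw [(hid A j Ξ R hj hA hR).2 0 ξ le_rfl hξ.1 hξ.2 φ hφ]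

theorem lsc_id_Gam {M : LscMod} (hid : LscIdSc M) {A : ℝ → ℝ} {j Ξ R : ℝ} (hj : 0 < j) (hA : LscProf j Ξ A) (hR : Ξ ≤ R)
    {ξ : ℝ} (hξ : ξ ∈ Icc 0 R) : M.Gam A j ξ = scaGam (scLC j) A R ξ := by
  unfold LscMod.Gam scaGam
  rw [lsc_id_D hid hj hA hR hξ 0]
  exact lsc_id_E hid hj hA hR hξ
    ((scg_aD_Bd (sc_logcosh_BI j) (hξ.1.trans hξ.2) (hA.coef R) 0 0 hξ.1).pow 2).scE

theorem lsc_id_Gam1 {M : LscMod} (hid : LscIdSc M) {A : ℝ → ℝ} {j Ξ R : ℝ} (hj : 0 < j) (hA : LscProf j Ξ A) (hR : Ξ ≤ R)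
    {ξ : ℝ} (hξ : ξ ∈ Icc 0 R) : M.Gam1 A j ξ = scaM2 (scLC j) A R ξ := by
  unfold LscMod.Gam1 scaM2
  rw [lsc_id_D hid hj hA hR hξ 1]
  exact lsc_id_E hid hj hA hR hξ
    ((scg_aD_Bd (sc_logcosh_BI j) (hξ.1.trans hξ.2) (hA.coef R) 1 0 hξ.1).pow 2).scE

/-- **the annealed inequality** (field `ann`) for every model with the identification: `svt_decay` (`Sc/Top.lean`) -/
theorem lsc_id_ann {M : LscMod} (hid : LscIdSc M) {A : ℝ → ℝ} {Ξ : ℝ} (hA : LscProf 1 Ξ A) (d : ℝ) (hd : 0 ≤ d) :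
    M.Gam1 A 1 (Ξ + d) ≤ Real.exp (-d / 2) * M.Gam1 A 1 Ξ := by
  rcases hd.eq_or_lt with rfl | hd0
  · simp
  have hτ : 0 < Ξ + d := by linarith [hA.Xi0]
  have hΞ : Ξ ∈ Icc 0 (Ξ + d) := ⟨hA.Xi0, by linarith⟩
  rw [lsc_id_Gam1 hid one_pos hA (R := Ξ + d) (by linarith) ⟨hτ.le, le_rfl⟩,
    lsc_id_Gam1 hid one_pos hA (R := Ξ + d) (by linarith) hΞ]
  have := svt_decay one_pos hτ (hA.coef (Ξ + d)) hΞ (fun t ht => hA.top t ht.1.le) Ξ ⟨le_rfl, by linarith⟩ (Ξ + d)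
    ⟨by linarith, le_rfl⟩ (by linarith)
  convert this using 3
  ring

theorem exit_scgen : ∃ M : LscMod, M.Ok ∧ LscLinkSk M ∧ LscIdSc M := ⟨lsiMod, lsi_ok, lsi_link, lsi_id⟩

end Claimed.Agent.R286
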