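-- KEEP
import Claimed.Agent.R286.LL.PathsDer
import Claimed.Agent.R286.LL.PathsDerA
import Claimed.Agent.R286.LL.PathsReg
import Claimed.Agent.R286.Sc.JLip

/-!
# Row 286 (S0533), EXIT `LrgDuhInst`      (instance owner helper273; head LL 03 helper272)

THE INSTANCE of the field `duh` of `LppOk2` (`LL/PathsReg.lean`, helper267): the tau-free Duhamel bound for two scalar models, at the package `lppOf M` of ANY model `M` with `M.Ok`, hence at `llPk`.
* `lrd_duh`     : `M.Ok → ∃ C, LrgDuh (lppOf M) C`      (exact Duhamel identity `lsd_duhamel_P` of helper277 + the horizon-free gradient bound `P_grad` + positivity of the kernel);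
* `exit_lrgduh` : the instance at `llPk`;
* `exit_lppok2` : `LppOk2 llPk` = GLUE of `exit_lrgduh` with `scj_jU`, `scj_jE` (helper265, `Sc/JLip.lean`).
TEX[LL:paths:parameter-regularity]
-/

set_option autoImplicit false

namespace Claimed.Agent.R286

open MeasureTheory Set

theorem lrd_duh {M : LscMod} (hM : M.Ok) : ∃ C : ℝ, LrgDuh (lppOf M) C := by
  obtain ⟨Cg, hCg⟩ := hM.P_grad 4 1
  refine ⟨|Cg|, fun A j A' j' hA hA' ξ hξ g G hg H hH hHi => ?_⟩
  obtain ⟨hj, Ξ, hp⟩ := LscMod.lsd_prof hA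
  obtain ⟨hj', Ξ', hp'⟩ := LscMod.lsd_prof hA'
  have hG0 : 0 ≤ G := (abs_nonneg _).trans (hg.b0 0)
  rw [lpd_Ex, lpd_Ex]
  unfold LscMod.E
  rw [LscMod.lsd_duhamel_P hM hj' hj hp' hp hg.c3 le_rfl hξ 0]
  have hdy := hM.dyn_model hj' hj hp' hp le_rfl (hM.dyn_P hj hp le_rfl hξ hg.c3)
  have hb : ∀ r ∈ Ico 0 ξ, ‖M.P A' j' 0 r (fun y => 0 + (M.dr A' j' r y - M.dr A j r y) * deriv (M.P A j r ξ g) y) 0‖
      ≤ |Cg| * G * H r := by
    intro r hr
    have hr' : r ∈ Icc 0 ξ := ⟨hr.1, hr.2.le⟩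
    have hΦE := (hM.dyn_gen hdy).1 r hr'
    rw [Real.norm_eq_abs]
    refine LscMod.lsd_P_abs_le hM hj' hp' le_rfl hr.1 hΦE (fun y => ?_) 0
    rw [zero_add, abs_mul]
    have h1 : |M.dr A' j' r y - M.dr A j r y| ≤ H r := by
      have := hH r hr y
      rwa [lpd_vk, lpd_vk] at this
    have h2 : |deriv (M.P A j r ξ g) y| ≤ |Cg| * G := by
      have h3 := hCg A j Ξ hA.j1 hA.j4 hp r ξ hr.1 hr.2.le g G hg.c3.of_succ.of_succ (fun k hk y => by
        interval_cases k
        · exact hg.b0 y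
        · exact hg.b1 y) y
      exact h3.trans (mul_le_mul_of_nonneg_right (le_abs_self _) hG0)
    calc |M.dr A' j' r y - M.dr A j r y| * |deriv (M.P A j r ξ g) y| ≤ H r * (|Cg| * G) :=
          mul_le_mul h1 h2 (abs_nonneg _) ((abs_nonneg _).trans h1)
      _ = |Cg| * G * H r := by ring
  have hae : ∀ᵐ r ∂volume, r ∈ Ioc 0 ξ → ‖M.P A' j' 0 r (fun y => 0 + (M.dr A' j' r y - M.dr A j r y)
      * deriv (M.P A j r ξ g) y) 0‖ ≤ |Cg| * G * H r := by
    have hne : ∀ᵐ r ∂(volume : Measure ℝ), r ≠ ξ := by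
      simp [ae_iff, measure_singleton]
    filter_upwards [hne] with r hr hr'
    exact hb r ⟨hr'.1.le, lt_of_le_of_ne hr'.2 hr⟩
  have h1 := intervalIntegral.norm_integral_le_of_norm_le hξ hae (hHi.const_mul _)
  rw [Real.norm_eq_abs, intervalIntegral.integral_const_mul] at h1
  exact h1

/-- **THE INSTANCE** -/
theorem exit_lrgduh : ∃ C : ℝ, LrgDuh llPk C := lrd_duh llMod_ok

/-- **THE INSTANCE of the three additions of helper267** (for `lrt_regT`) -/
theorem exit_lppok2 : LppOk2 llPk :=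
  ⟨exit_lrgduh, fun k hk => scj_jU llMod_ok llMod_id k hk, fun k hk a0 ha0 => scj_jE llMod_ok llMod_id k hk a0 ha0⟩

end Claimed.Agent.R286
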