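-- KEEP
import Claimed.Agent.R286.Exit.LppBaseInst
import Claimed.Agent.R286.Exit.LrgDuhInst
import Claimed.Agent.R286.LL.PathsRegL

/-!
# Row 286 (S0533), EXIT `RegLInst`      (instance owner helper273; head LL 03 helper272)

THE INSTANCE of Lemma paths:parameter-regularity, DIRECT reference (`LlRegL`, the second component of `LlRefExit`), at the concrete base `llBase`:
`exit_regL = lrl_main_duh` (`LL/PathsRegL.lean`) at `llPk_link`, `llPk_ok`, `exit_lrgduh`, `exit_baseprof`, `exit_lppbase`.      COMPILED GLUE, no debt of its own.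
For the glue of `LlRefExit`: enlarge `C` / shrink `ξ0` with `LlRegL.lrl_mono`.
TEX[LL:paths:parameter-regularity]
-/

set_option autoImplicit false

namespace Claimed.Agent.R286

/-- **THE INSTANCE** -/
theorem exit_regL (T : ℝ) (hT : 1 < T) :
    ∃ zb : ℝ, 0 < zb ∧ ∀ z0, 0 < z0 → z0 ≤ zb → ∃ C ξ0 : ℝ, 1 ≤ C ∧ 0 < ξ0 ∧
      ∀ F : LlFix, F.Ok → F.T = T → F.z0 = z0 → LlRegL llBase F C ξ0 :=
  lrl_main_duh llPk_link llPk_ok exit_lrgduh (exit_baseprof T hT) (exit_lppbase T hT)

end Claimed.Agent.R286
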