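-- KEEP
import Claimed.Agent.R286.LL.PathsClkG
import Claimed.Agent.R286.LL.PathsSwD
import Claimed.Agent.R286.Exit.LppBaseInst
import Claimed.Agent.R286.LL.PathsHard
import Claimed.Agent.R286.LL.PathsClkH
import Claimed.Agent.R286.LL.PathsHp
import Claimed.Agent.R286.LL.PathsRefD
import Claimed.Agent.R286.Exit.RefExit
import Claimed.Agent.R286.Exit.RegLInst
import Claimed.Agent.R286.LL.PathsRef
import Claimed.Agent.R286.LL.PathsRegT
import Claimed.Agent.R286.Sc.JLip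

/-!
# Row 286 (S0533), EXIT `Plist`      typed by helper272;   ASSEMBLY (this file) helper253 (co-head LL 03);   ADV: helper46

TEX[LL:paths:base-profile] TEX[LL:paths:lift] TEX[LL:paths:parameter-regularity] TEX[LL:paths:switch] TEX[LL:eq:P1..P11]
**ALL OF LL SECTION 3.**   `LlSec3Exit llBase T` (`LL/PathsDefs.lean`) = `LlBaseProfile llBase T` and: for every `ε > 0` there are fixed data `F0 : LlFix` (cut-offs `z_0 ≤ ε, P, v_b ≤ ε, G, φ, c_1, c_b, U_0, Υ`; they depend on `T, ε` only) such that for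
ALL exponents `(s_*, η, p_*)` in the explicit ranges `LlExpOk` the structure `LlSec3 llBase F` holds, `F = {F0 with sS, eta, pS}`:
 `ref` (P2) | `regL`, `regT` Lemma parameter-regularity in LIPSCHITZ form ((P2a) = `RegT.gap0`, (P2b) = `RegT.l1`) | `adm` admissibility (= `CkAdm p.a b h`), (P3) | `admEnd` no jump at `v = a` | `profId`, `gapB` (asks of LL 06) | `equi` (ask of LL 08/09) | `dirProf`, `refd`, `seed`, `hp` (asks of LL 06/07) | `p4` | `p5` | `p8` |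
 `p9` (explicit power) | `p10` (integrated in `γ`) | `p11` (explicit saving `x^(5+1/8)`; = `exit_p11` of the hub plan).
Every statement is "`∃` constants, `∃ N0`, for all points `p : LlPt` with `p.Ok F`, `N0 ≤ p.N`" (`LlUnif`): moving parameters `ℓ, λ, γ, χ` are fields of the point.

**STATE (253, 15 Oct 04:55Z; 31, 05:10Z): `exit_plist` IS GLUE (`ll3_asm`, PROVED for every base `𝔹`); `ll3_refexit` IS GLUE (`lrx_glue`, `Exit/RefExit.lean`) OVER TWO NAMED LEAVES AT `llBase` (`ll3_ref`, `ll3_regT`):**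
| `ll3_ref`   | `LlRef`  block | 281 (+ 202 q-half), `lrf_ref` of LL/PathsRef.lean | `lpp_lift_dir/sm` (PathsPkD), `lkk_main` (PathsKk), `llPk_ok` (PathsDer), `exit_lppbase` |
| `ll3_regL`  | `LlRegL` block | 273: DISCHARGED 05:20Z = `exit_regL` (`Exit/RegLInst.lean`: `lrl_main_duh` + `exit_lrgduh`), no leaf left | `llPk_ok`, `exit_baseprof`, `exit_lppbase` |
| `ll3_regT`  | `LlRegT` block | DISCHARGED 05:35Z = `lrt_main` (236, LL/PathsRegT.lean) at `LppOk2 llPk` = `exit_lrgduh` (273), `scj_jU`, `scj_jE` (265, Sc/JLip.lean), no leaf left | debt below: `scq_LC` (Sc/Par, 100) |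
DISCHARGED: `exit_baseprof` (68), block CLK `lce_main` (253 & co: (P3)-(P9), adm, admEnd), (P10) `lla_p10` + `lla_a1seg_of` (23/195), (P11) `lsw_P11_pk` (281), `lph_jump_skPf` (283), `exit_lppbase` (11),
`ll3_lipL1` (from `exit_clk_pr_lip`).      DEBTS BELOW: `llPk_ok` (PathsDer: sorried steps, 46/11/104/107), `exit_scgen` (183), the clock API `Exit/Clk*`.
-/

set_option autoImplicit false

namespace Claimed.Agent.R286

/-- **the assembly of Section 3**, for EVERY base: base profile + scalar half + first line of (A1) along segments + Prop. 3.4 in the form of `lsw_P11_pk`.      PROVED. -/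
theorem ll3_asm (𝔹 : LlBase) (T : ℝ) (hT : 1 < T) (hB : LlBaseProfile 𝔹 T) (hR : LlRefExit 𝔹 T) (hA : LlA1Seg 𝔹)
    (hP : ∃ zb : ℝ, 0 < zb ∧ ∀ F : LlFix, F.Ok → F.T = T → F.z0 ≤ zb → 4 * F.vb ≤ 1 →
      ∀ c C v0 : ℝ, 0 < c → 0 < v0 → LlRef 𝔹 F c C v0 → LlAdm 𝔹 F → LlP11 𝔹 F)
    (hD : ∃ zb : ℝ, 0 < zb ∧ ∀ F : LlFix, F.Ok → F.T = T → F.z0 ≤ zb → ∃ C v1 : ℝ, 0 < v1 ∧ LlRefD 𝔹 F C v1) : LlSec3Exit 𝔹 T := by
  obtain ⟨zb1, hzb1, hP⟩ := hP
  obtain ⟨zb2, hzb2, hD⟩ := hD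
  obtain ⟨zb, hzbd⟩ : ∃ zb, zb = min zb1 zb2 := ⟨_, rfl⟩
  have hzb : 0 < zb := hzbd ▸ lt_min hzb1 hzb2
  refine ⟨hB, fun ε hε => ?_⟩
  obtain ⟨zbK, hzbK, hK8⟩ := lch_k8 𝔹 T hB
  obtain ⟨z0, vb, c1, cb, U0, -, hz0K, -, hvbεK, hvb, -, -, -, H⟩ := lce_main 𝔹 T hT hB hR (min (min (min zb ε) (𝔹.pTop T / 4)) zbK)
    (lt_min (lt_min (lt_min hzb hε) (by linarith [hB.pTop_mem.1])) hzbK)
  have hz0'' : z0 ≤ min (min zb ε) (𝔹.pTop T / 4) := hz0K.trans (min_le_left _ _)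
  have hvbε' : vb ≤ min (min zb ε) (𝔹.pTop T / 4) := hvbεK.trans (min_le_left _ _)
  have hvbK : vb ≤ zbK := hvbεK.trans (min_le_right _ _)
  have hz0' : z0 ≤ min zb ε := hz0''.trans (min_le_left _ _)
  have hvbε : vb ≤ min zb ε := hvbε'.trans (min_le_left _ _)
  have hvbT : 4 * vb ≤ 𝔹.pTop T := by linarith [hvbε'.trans (min_le_right _ _)]
  have hz0b : z0 ≤ zb := hz0'.trans (min_le_left _ _)
  have hz0 : z0 ≤ zb1 := hz0b.trans (hzbd ▸ min_le_left _ _)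
  have hz02 : z0 ≤ zb2 := hz0b.trans (hzbd ▸ min_le_right _ _)
  refine ⟨llFixMk T (1 / 4) (1 / 8) 1 z0 vb c1 cb U0, rfl, hz0'.trans (min_le_right _ _), hvbε.trans (min_le_right _ _), fun sS eta pS hX => ?_⟩
  have h : LceAll 𝔹 (llFixMk T sS eta pS z0 vb c1 cb U0) := H sS eta pS hX
  obtain ⟨c, C, v0, hc, hv0, href⟩ := h.ref
  obtain ⟨ca, Ca, ξ1, hkk, hz1⟩ := h.prof
  obtain ⟨c', C', v0', CG, CD, cG, hfix⟩ := h.fix
  exact
    { ok := h.ok
      ref := h.ref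
      regL := h.regL
      regT := h.regT
      adm := h.adm
      admEnd := h.admEnd
      profId := lch_LlProfId h.ok hkk hz1
      gapB := lch_LlGapB hfix
      equi := lch_LlEqui h
      dirProf := lch_LlDirProf h.ok hkk hz1
      refd := hD _ h.ok rfl hz02
      seed := lch_LlSeed hfix h.edge
      hp := lhp_main h hvbT
      k8 := hK8 _ h rfl hvbK
      slope := lch_LlSlope h
      prof := h.prof
      p4 := h.p4
      p5 := h.p5
      p8 := h.p8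
      p9 := h.p9
      p10 := lla_p10 hA h
      p11 := hP _ h.ok rfl hz0 hvb c C v0 hc hv0 href h.adm }

/-- LEAF 1 (owner 281, + 202 for the q-half): Lemma paths:lift = `lrf_ref llPk_ok llPk_link ..` of `LL/PathsRef.lean`.   TEX[LL:paths:lift] -/
theorem ll3_ref (T : ℝ) (hT : 1 < T) :
    ∃ zb : ℝ, 0 < zb ∧ ∀ z0, 0 < z0 → z0 ≤ zb → ∃ c C v0 : ℝ, 0 < c ∧ c ≤ 1 ∧ 1 ≤ C ∧ 0 < v0 ∧ v0 ≤ 1 / 2 ∧
      ∀ F : LlFix, F.Ok → F.T = T → F.z0 = z0 → F.pS ≤ 1 → LlRef llBase F c C v0 :=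
  lrf_ref llPk_ok llPk_link hT (exit_baseprof T hT)

/-- Lemma paths:parameter-regularity, direct reference (273, PROVED: `exit_regL` = `lrl_main_duh` at `llPk` with the tau-free Duhamel bound `exit_lrgduh`) -/
theorem ll3_regL (T : ℝ) (hT : 1 < T) :
    ∃ zb : ℝ, 0 < zb ∧ ∀ z0, 0 < z0 → z0 ≤ zb → ∃ C ξ0 : ℝ, 1 ≤ C ∧ 0 < ξ0 ∧
      ∀ F : LlFix, F.Ok → F.T = T → F.z0 = z0 → LlRegL llBase F C ξ0 :=
  exit_regL T hT

/-- (265 with 183, DISCHARGED 05:35Z: `scj_jU` of `Sc/JLip.lean`): Lipschitz dependence on the terminal mass, all times, all orders (`LrgJU`, `LL/PathsReg.lean` §0) at `llPk`. -/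
theorem ll3_jU : ∀ k : ℕ, 1 ≤ k → ∃ C : ℝ, LrgJU llPk k C :=
  fun k hk => scj_jU llMod_ok llMod_id k hk

/-- (265, DISCHARGED 05:35Z: `scj_jE` of `Sc/JLip.lean`): the terminal mass is exponentially invisible (`LrgJE`) at `llPk`. -/
theorem ll3_jE : ∀ k : ℕ, 1 ≤ k → ∀ a0 : ℝ, 0 < a0 → ∃ C c : ℝ, 0 < c ∧ LrgJE llPk k a0 C c :=
  fun k hk a0 ha0 => scj_jE llMod_ok llMod_id k hk a0 ha0

/-- Lemma paths:parameter-regularity, smoothed reference (236: `lrt_main` of `LL/PathsRegT.lean`, PROVED modulo `LppOk2 llPk` = `exit_lrgduh` (273) + the leaves 3a, 3b).   TEX[LL:paths:parameter-regularity] -/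
theorem ll3_regT (T : ℝ) (hT : 1 < T) :
    ∃ zb : ℝ, 0 < zb ∧ ∀ z0, 0 < z0 → z0 ≤ zb → ∃ v0 ξ0 : ℝ, 0 < v0 ∧ 0 < ξ0 ∧
      ∀ F : LlFix, F.Ok → F.T = T → F.z0 = z0 → F.pS ≤ 1 → ∀ R0 : ℕ, ∃ c' C' : ℝ, 0 < c' ∧ LlRegT llBase F c' C' v0 ξ0 R0 := by
  obtain ⟨zb, hzb, H⟩ := lrt_main llPk_link llPk_ok ⟨exit_lrgduh, ll3_jU, ll3_jE⟩ (exit_baseprof T hT) (exit_lppbase T hT)
  refine ⟨zb, hzb, fun z0 h0 hz => ?_⟩
  obtain ⟨v0, ξ0, hv0, -, hξ0, H2⟩ := H z0 h0 hz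
  exact ⟨v0, ξ0, hv0, hξ0, fun F hF hFT hFz _ R0 => H2 F hF hFT hFz R0⟩

/-- the scalar half of Section 3 = GLUE (31: `lrx_glue` of `Exit/RefExit.lean`, one set of constants by monotonicity) over `ll3_ref`, `ll3_regL`, `ll3_regT`. -/
theorem ll3_refexit (T : ℝ) (hT : 1 < T) : LlRefExit llBase T :=
  lrx_glue (ll3_ref T hT) (ll3_regL T hT) (ll3_regT T hT)

/-- first line of (A1) along segments (23) -/
theorem ll3_a1seg : LlA1Seg llBase := lla_a1seg_of llBase rfl rfl rfl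

/-- (A1), PE Lemma 2.2 -/
theorem ll3_lipL1 : LlLipL1 llBase := by
  intro m a hm ha b h b' h' hb hh hb' hh'
  have h1 := exit_clk_pr_lip (n := m) hm ha (psi_adm ha hb' hh') (psi_adm ha hb hh)
  rw [llb_int ha, llb_int ha, intervalIntegral.integral_of_le ha.le, intervalIntegral.integral_of_le ha.le,
    MeasureTheory.integral_Ioc_eq_integral_Ioo, MeasureTheory.integral_Ioc_eq_integral_Ioo] at h1
  exact h1

/-- the hard field jump (283) -/
theorem ll3_hardjump : LlHardJump llBase :=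
  fun m l a hm hl hla b h bT hT hP => lph_jump_skPf m l a hm hl hla b h bT hT hP

theorem exit_plist (T : ℝ) (hT : 1 < T) : LlSec3Exit llBase T :=
  ll3_asm llBase T hT (exit_baseprof T hT) (ll3_refexit T hT) ll3_a1seg
    (lsw_P11_pk llPk_ok llBase T (exit_baseprof T hT) (exit_lppbase T hT) (fun A j _ ξ _ => by rw [llPk_G])
      (fun A j _ ξ _ => by rw [llPk_G1]) ll3_lipL1 ll3_hardjump)
    (lrd_main llPk_ok llBase llPk_link T (exit_baseprof T hT) (exit_lppbase T hT))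

end Claimed.Agent.R286
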