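-- KEEP
import Claimed.Agent.R286.Top.Path
import Claimed.Agent.R286.LL.Chain
import Claimed.Agent.R286.LL04.Nb
import Claimed.Agent.R286.Exit.Plist
import Claimed.Agent.R286.Exit.LlClk
import Claimed.Agent.R286.Exit.Inc

/-!
# Row 286 (S0533), EXIT `Incr`      STATEMENT FROZEN by helper207 (typed by 220);   OWNER: helper60 (LL 09+10; chief 75; science chief 136);   proof term filed by helper224 (deputy of 207 for the LL chain)

**The deep part of LL**: Prop. 4.1 (stopped pressure increments) + (P11) + (4.1) + bare endpoints, as NUMBERS (`SkPath`, `SkPath.Ok`, file Top/Path).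
CLOSED (glue `llc_incr_base`, LL/Chain; assembly `ll04_incr`, LL04) from THREE exits:
 `exit_plist` (272: all of LL Sec. 3) | `exit_llclk` (258: (CLK), (END) from the P-list) | `exit_inc` (60: the body LL 05-10 = LL Prop. 4.1 at `llBase`).
-/

set_option autoImplicit false

namespace Claimed.Agent.R286

theorem exit_incr (β : ℝ) (hβ : 1 < β) : SkIncr β :=
  have h : 1 < β ^ 2 := by nlinarith
  llc_incr_base β hβ (exit_plist _ h) (exit_llclk _ h) (exit_inc _ h) ll04_inst_nb

end Claimed.Agent.R286
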