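-- KEEP
import Claimed.Agent.R286.L02.Defs
import Claimed.Agent.R286.Fd.Obs
import Claimed.Agent.R286.L02.Gi
import Claimed.Agent.R286.Cmp.ProjL8

/-!
# Row 286 (S0533), EXIT `LL02A3`      OWNER helper93 (unit L02, head LL 02+11);  ADV helper73;  source: LL 02-foundations.tex l.97-200, 240-250; PE comparisons.tex l.332-400

(A1), (A2) of LL Lemma 2.1 are NOT retyped: the base `GhB` carries the terminal mass `a`, so the PE exits are already the LL statements:
`exit_pin`, `exit_pin_trace` (helper10: third and fourth line of (A1), (A2)); `Fd/ObsC.lean` (helper278): `ob_pressure_deriv` (first line), `ob_H_lower`, `ob_H_upper`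
(`v C ≤ H ≤ a C`), `ob_clock_ineq` (`dS ≥ n E tr H² dh`), `ob_E_W`.      LL Section 11 has no statement of its own: its normalisation rules (`u = v/a`, ..) are void here;
its imports of PE PROOFS (l.133-211: PE 4.1, 5.1-5.7, 6.2-6.5) are the abstract theorems GEO/ANA/CAV/RIG of helper142's ledger, consumed by LL 07 (helper162).

* `exit_a3` = (A3) = PE (13) at terminal mass `a`, POINTWISE in the prefix (arbitrary revealed field `z₀`, fixed anchor `V`).  Supplier of the proof: PE Sec 3 (PE:comp:projection).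
* `exit_gi` = (GI): crude Gaussian interpolation bound for total pressures, arbitrary positive semidefinite increments (asked by LL 04, helper258 GAP-4).
-/

set_option autoImplicit false

namespace Claimed.Agent.R286

/-- the anchor projected on the conditional mean = conditional mean of the projected spin -/
theorem ll_a3_lin {n : ℕ} {a : ℝ} (ha : 0 < a) {P : SkStp} (hP : SkAdm a P) (V : Fin n → ℝ) (z : SkCfg n → ℝ) :
    ghE (skBase n a) (skLvs n P) (fun τ => ∑ i, V i * skY τ i) z = ∑ i, V i * obX n a P z i := by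
  have hB := cmj_sk_base_ok n ha
  have hnn : GhNn (skLvs n P) := cmj_adm_nn (cmj_sk_adm (n := n) (ρ := 0) hP fun e he => (hP.2 e he).1) le_rfl
  rw [gh_b_E_sum hB Finset.univ (fun i τ => V i * skY τ i) hnn z]
  refine Finset.sum_congr rfl fun i _ => ?_
  rw [gh_b_E_const_mul]
  rfl

/-- TEX[LL:found:estimates] **(A3)**: the branch starts from an ARBITRARY revealed field `z₀`, the anchor `V` is a fixed vector; `Q₁` = the clock interval (pure or mixed,
masses `≥ v`, field length `skTotH Q₁`), `Q₂` = the rest of the path; projection at the end of `Q₁`. -/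
theorem exit_a3 (p : ℕ) (hp : Even p) (hp2 : 2 ≤ p) (A : ℝ) : ∃ C : ℝ, ∀ (n : ℕ) (a v : ℝ) (Q₁ Q₂ : SkStp) (z₀ : SkCfg n → ℝ) (V : Fin n → ℝ),
    2 ≤ n → 0 < a → a ≤ 4 → SkAdm a (Q₁ ++ Q₂) → (∀ e ∈ Q₁, v ≤ e.m) → (n : ℝ) ^ (-A) ≤ v → (n : ℝ) ^ (-A) ≤ skTotH Q₁ →
    skTotB (Q₁ ++ Q₂) ≤ Real.log n ^ A → skTotH (Q₁ ++ Q₂) ≤ Real.log n ^ A →
      obE n a (Q₁ ++ Q₂) z₀ (fun ξ σ => |∑ i, V i * (skY σ i - obXp n a (Q₁ ++ Q₂) z₀ Q₁.length ξ i)| ^ p)
        ≤ (C * Real.log n ^ 2 / (v * Real.sqrt (n * skTotH Q₁))) ^ p * (Real.sqrt (∑ i, V i ^ 2)) ^ p := by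
  obtain ⟨C0, hC0, h⟩ := cmj_proj_sk p hp hp2
  have hl2 : 0 < Real.log 2 := Real.log_pos (by norm_num)
  refine ⟨(C0 + 1) / Real.log 2 ^ 2, ?_⟩
  intro n a v Q₁ Q₂ z₀ V hn ha _ hadm hvQ hv hH _ _
  have hn0 : (0 : ℝ) < n := by exact_mod_cast (by omega : 0 < n)
  have hpow : (0 : ℝ) < (n : ℝ) ^ (-A) := Real.rpow_pos_of_pos hn0 _
  have hv0 : 0 < v := lt_of_lt_of_le hpow hv
  have hH0 : 0 < skTotH Q₁ := lt_of_lt_of_le hpow hH
  have hV0 : 0 ≤ ∑ i, V i ^ 2 := Finset.sum_nonneg fun i _ => sq_nonneg _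
  -- `Q₁` is not empty
  have hne : Q₁ ≠ [] := by
    rintro rfl
    simp [skTotH] at hH0
  obtain ⟨e0, he0⟩ := List.exists_mem_of_ne_nil Q₁ hne
  have hvP : ∀ e ∈ Q₁ ++ Q₂, v ≤ e.m := by
    intro e he
    rcases List.mem_append.1 he with h1 | h2
    · exact hvQ e h1
    · exact (hvQ e0 he0).trans ((List.pairwise_append.1 hadm.1).2.2 e0 he0 e h2)
  have hcum : skCumH (Q₁ ++ Q₂) Q₁.length = skTotH Q₁ := by
    unfold skCumH skTotH
    rw [List.take_left']
    rfl
  have hdrop : (Q₁ ++ Q₂).drop Q₁.length = Q₂ := List.drop_left' rfl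
  have hadm2 : SkAdm a Q₂ :=
    ⟨(List.pairwise_append.1 hadm.1).2.1, fun e he => hadm.2 e (List.mem_append_right _ he)⟩
  have key := h n a (Q₁ ++ Q₂) Q₁.length V v z₀ (by omega) ha hadm hvP hv0 (by simp) (by rw [hcum]; exact hH0)
  rw [hcum, hdrop] at key
  have etest : (fun (ξ : ℕ → SkDr n → ℝ) (σ : SkCfg n) =>
        |∑ i, V i * (skY σ i - obXp n a (Q₁ ++ Q₂) z₀ Q₁.length ξ i)| ^ p)
      = fun η σ => ((∑ i, V i * skY σ i)
          - ghE (skBase n a) (skLvs n Q₂) (fun τ => ∑ i, V i * skY τ i) (z₀ + ghPre (skLvs n (Q₁ ++ Q₂)) η Q₁.length)) ^ p := by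
    funext ξ σ
    rw [hp.pow_abs, ll_a3_lin ha hadm2, ← Finset.sum_sub_distrib]
    congr 1
    refine Finset.sum_congr rfl fun i _ => ?_
    unfold obXp obFld
    rw [hdrop]
    ring
  unfold obE
  rw [etest]
  refine key.trans ?_
  -- arithmetic
  have hnH : 0 < (n : ℝ) * skTotH Q₁ := mul_pos hn0 hH0
  have hlog : Real.log 2 ≤ Real.log n := Real.log_le_log (by norm_num) (by exact_mod_cast hn)
  have hfac : 1 ≤ Real.log n ^ 2 / Real.log 2 ^ 2 := by
    rw [le_div_iff₀ (by positivity), one_mul]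
    exact pow_le_pow_left₀ hl2.le hlog 2
  have hC1 : C0 ≤ ((C0 + 1) / Real.log 2 ^ 2 * Real.log n ^ 2) ^ p := by
    have h1 : C0 + 1 ≤ (C0 + 1) / Real.log 2 ^ 2 * Real.log n ^ 2 := by
      have : (C0 + 1) / Real.log 2 ^ 2 * Real.log n ^ 2 = (C0 + 1) * (Real.log n ^ 2 / Real.log 2 ^ 2) := by ring
      rw [this]
      nlinarith
    have h2 : (1 : ℝ) ≤ C0 + 1 := by linarith
    calc C0 ≤ C0 + 1 := by linarith
      _ ≤ (C0 + 1) ^ p := le_self_pow₀ h2 (by omega)
      _ ≤ _ := pow_le_pow_left₀ (by linarith) h1 p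
  rw [div_pow, mul_pow v, cmj_sqrt_pow hnH.le hp, cmj_sqrt_pow hV0 hp, div_mul_eq_mul_div]
  refine div_le_div_of_nonneg_right ?_ (by positivity)
  exact mul_le_mul_of_nonneg_right hC1 (by positivity)

/-- TEX[LL:found:estimates] (GI) (LL 02 l.240-250): same masses, arbitrary positive semidefinite increments -/
theorem exit_gi {S ι ι' : Type} [Fintype S] [Fintype ι] [Fintype ι'] (B : GhB S) (hB : B.Ok) (ls : List (GhLv S ι)) (ls' : List (GhLv S ι'))
    (h : GhAdm B 0 ls) (h' : GhAdm B 0 ls') (hm : ls.map GhLv.m = ls'.map GhLv.m) (z : S → ℝ) (M : ℝ)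
    (hM : ∀ t s s', |ghCum ls t s s' - ghCum ls' t s s'| ≤ M) : |ghF B ls z - ghF B ls' z| ≤ B.a * M :=
  ll_gi_main B hB ls ls' h h' hm z M hM

end Claimed.Agent.R286
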